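import Vale.Agent.P071.Basic

/-! Exterior cone barrier for the Riemann map of a Lipschitz domain. -/

open MeasureTheory Set Metric Filter Topology
open scoped ENNReal

namespace Vale.Agent.P071

namespace Barrier

theorem ne_univ {Ω : Set ℂ} (hb : Bornology.IsBounded Ω) : Ω ≠ univ := by
  rintro rfl
  exact NormedSpace.unbounded_univ ℝ ℂ hb

/-- Uniform exterior cone condition. -/
theorem cone {Ω : Set ℂ} (ho : IsOpen Ω) (hb : Bornology.IsBounded Ω)
    (hL : IsLipschitzDomain Ω) :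
    ∃ r K : ℝ, 0 < r ∧ 0 ≤ K ∧ ∀ a ∈ frontier Ω, ∃ e : ℂ, ‖e‖ = 1 ∧
      ∀ z ∈ Ω, z ∈ ball a r → -(K * |(e * (z - a)).im|) < (e * (z - a)).re := by
  have hK : IsCompact (frontier Ω) :=
    Metric.isCompact_of_isClosed_isBounded isClosed_frontier
      (hb.closure.subset frontier_subset_closure)
  refine hK.induction_on (p := fun s => ∃ r K : ℝ, 0 < r ∧ 0 ≤ K ∧ ∀ a ∈ s, ∃ e : ℂ, ‖e‖ = 1 ∧
      ∀ z ∈ Ω, z ∈ ball a r → -(K * |(e * (z - a)).im|) < (e * (z - a)).re)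
    ⟨1, 0, one_pos, le_rfl, by simp⟩ ?_ ?_ ?_
  · rintro s t hst ⟨r, K, hr, hK, h⟩
    exact ⟨r, K, hr, hK, fun a ha => h a (hst ha)⟩
  · rintro s t ⟨r, K, hr, hK, h⟩ ⟨r', K', hr', hK', h'⟩
    refine ⟨min r r', max K K', lt_min hr hr', le_max_of_le_left hK, ?_⟩
    rintro a (ha | ha)
    · obtain ⟨e, he, h1⟩ := h a ha
      refine ⟨e, he, fun z hz hza => ?_⟩
      refine lt_of_le_of_lt ?_ (h1 z hz (ball_subset_ball (min_le_left _ _) hza))
      exact neg_le_neg (mul_le_mul_of_nonneg_right (le_max_left _ _) (abs_nonneg _))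
    · obtain ⟨e, he, h1⟩ := h' a ha
      refine ⟨e, he, fun z hz hza => ?_⟩
      refine lt_of_le_of_lt ?_ (h1 z hz (ball_subset_ball (min_le_right _ _) hza))
      exact neg_le_neg (mul_le_mul_of_nonneg_right (le_max_right _ _) (abs_nonneg _))
  · intro p hp
    obtain ⟨r, hr, e, he, K, g, hg, h⟩ := hL p hp
    refine ⟨frontier Ω ∩ ball p (r / 2), inter_mem_nhdsWithin _ (ball_mem_nhds p (half_pos hr)),
      r / 2, K, half_pos hr, K.2, ?_⟩
    rintro a ⟨ha, hap⟩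
    refine ⟨-Complex.I * e, by simp [he], fun z hz hza => ?_⟩
    have ha1 : a ∉ Ω := fun h => (ho.frontier_eq ▸ ha).2 h
    have h1 := (h a (ball_subset_ball (half_le_self hr.le) hap)).not.mp ha1
    have hzp : z ∈ ball p r := by
      have := dist_triangle z a p
      rw [mem_ball] at *
      linarith
    have h2 := (h z hzp).mp hz
    have h3 := hg.dist_le_mul (e * a).re (e * z).re
    rw [Real.dist_eq, Real.dist_eq] at h3
    have h4 := le_abs_self (g (e * a).re - g (e * z).re)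
    have e1 : (-Complex.I * e * (z - a)).re = (e * z).im - (e * a).im := by
      simp [mul_sub]
      ring
    have e2 : (-Complex.I * e * (z - a)).im = (e * a).re - (e * z).re := by
      simp [mul_sub]
      ring
    rw [e1, e2]
    push Not at h1
    linarith

theorem arg_bound {K : ℝ} (hK : 0 ≤ K) : ∃ β : ℝ, 0 ≤ β ∧ β < Real.pi ∧
    ∀ ζ : ℂ, -(K * |ζ.im|) < ζ.re → |ζ.arg| ≤ β := by
  have h1 : 0 < 1 + K := by linarith
  set κ := √(1 - 1 / (1 + K) ^ 2) with hκ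
  have h2 : 0 < 1 / (1 + K) ^ 2 := by positivity
  have h3 : 1 / (1 + K) ^ 2 ≤ 1 := by
    rw [div_le_one (by positivity)]
    nlinarith
  have hκ1 : κ < 1 := by
    rw [hκ, Real.sqrt_lt' one_pos]
    linarith
  have hκ0 : 0 ≤ κ := Real.sqrt_nonneg _
  have hκ2 : κ ^ 2 = 1 - 1 / (1 + K) ^ 2 := Real.sq_sqrt (by linarith)
  refine ⟨Real.arccos (-κ), Real.arccos_nonneg _, Real.arccos_lt_pi.mpr (by linarith), ?_⟩
  intro ζ hζ
  have hζ0 : ζ ≠ 0 := by
    rintro rfl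
    simp at hζ
  have hn : 0 < ‖ζ‖ := norm_pos_iff.mpr hζ0
  have hcos : -κ ≤ Real.cos |ζ.arg| := by
    rw [Real.cos_abs, Complex.cos_arg hζ0, le_div_iff₀ hn]
    by_contra hcon
    push Not at hcon
    have h4 : κ * ‖ζ‖ < -ζ.re := by linarith
    have h5 : (κ * ‖ζ‖) ^ 2 < (-ζ.re) ^ 2 := pow_lt_pow_left₀ h4 (by positivity) two_ne_zero
    have h6 : -ζ.re < K * |ζ.im| := by linarith
    have h7 : ‖ζ‖ ≤ |ζ.re| + |ζ.im| := Complex.norm_le_abs_re_add_abs_im ζ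
    have h8 : 0 < -ζ.re := lt_of_le_of_lt (by positivity) h4
    rw [abs_of_neg (by linarith)] at h7
    have h9 : ‖ζ‖ ≤ (1 + K) * |ζ.im| := by linarith
    have h10 : ‖ζ‖ ^ 2 ≤ ((1 + K) * |ζ.im|) ^ 2 := pow_le_pow_left₀ hn.le h9 2
    rw [mul_pow, sq_abs] at h10
    have h11 : ‖ζ‖ ^ 2 = ζ.re ^ 2 + ζ.im ^ 2 := by
      rw [Complex.sq_norm, Complex.normSq_apply]
      ring
    have h12 : 1 / (1 + K) ^ 2 * ‖ζ‖ ^ 2 ≤ ζ.im ^ 2 := by
      rw [one_div, inv_mul_le_iff₀ (by positivity)]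
      exact h10
    rw [mul_pow, hκ2] at h5
    nlinarith
  have := Real.arccos_le_arccos hcos
  rwa [Real.arccos_cos (abs_nonneg _) (Complex.abs_arg_le_pi ζ)] at this

theorem sector {K : ℝ} (hK : 0 ≤ K) : ∃ γ c : ℝ, 1 / 2 < γ ∧ γ ≤ 1 ∧ 0 < c ∧ c ≤ 1 ∧
    ∀ ζ : ℂ, -(K * |ζ.im|) < ζ.re →
      ζ ∈ Complex.slitPlane ∧ c * ‖ζ‖ ^ γ ≤ (ζ ^ (γ : ℂ)).re ∧ (ζ ^ (γ : ℂ)).re ≤ ‖ζ‖ ^ γ := by
  obtain ⟨β, hβ0, hβ, h⟩ := arg_bound hK
  have hpi := Real.pi_pos
  have hs : 0 < Real.pi + β := by linarith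
  set γ := Real.pi / (Real.pi + β) with hγ
  have hγ0 : 0 < γ := by positivity
  have hγβ : β * γ < Real.pi / 2 := by
    rw [hγ, ← mul_div_assoc, div_lt_div_iff₀ hs two_pos]
    nlinarith
  refine ⟨γ, Real.cos (β * γ), ?_, ?_, ?_, Real.cos_le_one _, fun ζ hζ => ⟨?_, ?_, ?_⟩⟩
  · rw [hγ, div_lt_div_iff₀ two_pos hs]
    linarith
  · rw [hγ, div_le_one hs]
    linarith
  · exact Real.cos_pos_of_mem_Ioo ⟨by nlinarith [mul_nonneg hβ0 hγ0.le], hγβ⟩
  · rw [Complex.mem_slitPlane_iff]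
    by_cases h0 : ζ.im = 0
    · left
      simpa [h0] using hζ
    · exact Or.inr h0
  · rw [Complex.cpow_ofReal_re, mul_comm]
    refine mul_le_mul_of_nonneg_left ?_ (by positivity)
    rw [← Real.cos_abs (ζ.arg * γ)]
    refine Real.cos_le_cos_of_nonneg_of_le_pi (abs_nonneg _) (by linarith) ?_
    rw [abs_mul, abs_of_pos hγ0]
    exact mul_le_mul_of_nonneg_right (h ζ hζ) hγ0.le
  · rw [Complex.cpow_ofReal_re]
    exact mul_le_of_le_one_right (by positivity) (Real.cos_le_one _)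

theorem near {Ω : Set ℂ} (ho : IsOpen Ω) {f φ : ℂ → ℂ} (hc : Conf Ω f φ) :
    ∃ ρ > 0, ∀ a ∉ Ω, ∀ w ∈ DD, dist (f w) a ≤ ρ → 1 / 2 < ‖w‖ := by
  have hsub : closedBall (0 : ℂ) (1 / 2) ⊆ DD := closedBall_subset_ball (by norm_num)
  have hK : IsCompact (f '' closedBall 0 (1 / 2)) :=
    (isCompact_closedBall _ _).image_of_continuousOn (hc.hf.continuousOn.mono hsub)
  obtain ⟨ρ, hρ, h⟩ := hK.exists_cthickening_subset_open ho
    (by rintro _ ⟨w, hw, rfl⟩; exact hc.mapsf (hsub hw))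
  refine ⟨ρ, hρ, fun a ha w _ hwa => ?_⟩
  by_contra hcon
  push Not at hcon
  refine ha (h (mem_cthickening_of_dist_le a (f w) ρ _ ⟨w, mem_closedBall_zero_iff.mpr hcon, rfl⟩ ?_))
  rwa [dist_comm]

theorem two_le_exp : 2 * Real.exp (-1) ≤ 1 := by
  rw [Real.exp_neg, ← div_eq_mul_inv, div_le_one (Real.exp_pos _)]
  have := Real.add_one_le_exp (1 : ℝ)
  linarith

/-- The maximum principle step. -/
theorem maxp {f H : ℂ → ℂ} (hf : DifferentiableOn ℂ f DD) {a : ℂ} {r : ℝ}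
    (hw : ∀ w ∈ DD, dist (f w) a ≤ r → 1 / 2 < ‖w‖ ∧ DifferentiableAt ℂ H (f w) ∧
      0 ≤ (H (f w)).re ∧ (dist (f w) a = r → 1 ≤ (H (f w)).re))
    {w₀ : ℂ} (hw₀ : w₀ ∈ DD) (hr : dist (f w₀) a < r) : Real.exp (-(H (f w₀)).re) ≤ ‖w₀‖ := by
  have key : ∀ t : ℝ, ‖w₀‖ < t → t < 1 → t * Real.exp (-(H (f w₀)).re) ≤ ‖w₀‖ := by
    intro t ht0 ht
    have htp : 0 < t := (norm_nonneg _).trans_lt ht0
    set V : Set ℂ := ball 0 t ∩ f ⁻¹' ball a r with hV
    set W : Set ℂ := closedBall 0 t ∩ f ⁻¹' closedBall a r with hW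
    have hsub : closedBall (0 : ℂ) t ⊆ DD := closedBall_subset_ball ht
    have hVo : IsOpen V :=
      (hf.continuousOn.mono (ball_subset_closedBall.trans hsub)).isOpen_inter_preimage
        isOpen_ball isOpen_ball
    have hWc : IsClosed W :=
      (hf.continuousOn.mono hsub).preimage_isClosed_of_isClosed isClosed_closedBall
        isClosed_closedBall
    have hVW : closure V ⊆ W := closure_minimal
      (inter_subset_inter ball_subset_closedBall (preimage_mono ball_subset_closedBall)) hWc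
    have hd : DiffContOnCl ℂ (fun w => Complex.exp (-H (f w)) / w) V := by
      refine DifferentiableOn.diffContOnCl fun w hwV => ?_
      obtain ⟨h1, h2⟩ := hVW hwV
      obtain ⟨h3, h4, -⟩ := hw w (hsub h1) h2
      have h5 : DifferentiableAt ℂ f w := hf.differentiableAt (isOpen_ball.mem_nhds (hsub h1))
      have h6 : w ≠ 0 := norm_pos_iff.mp (by linarith)
      exact ((h4.comp w h5).neg.cexp.div differentiableAt_id h6).differentiableWithinAt
    have hbd : ∀ w ∈ frontier V, ‖Complex.exp (-H (f w)) / w‖ ≤ t⁻¹ := by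
      intro w hwf
      rw [hVo.frontier_eq] at hwf
      obtain ⟨h1, h2⟩ := hVW hwf.1
      obtain ⟨h3, -, h4, h5⟩ := hw w (hsub h1) h2
      have hwp : 0 < ‖w‖ := by linarith
      rw [norm_div, Complex.norm_exp, Complex.neg_re]
      by_cases h6 : ‖w‖ < t
      · have h7 : dist (f w) a = r := by
          refine le_antisymm h2 (not_lt.mp fun h => hwf.2 ⟨mem_ball_zero_iff.mpr h6, h⟩)
        have h8 : Real.exp (-(H (f w)).re) ≤ Real.exp (-1) :=
          Real.exp_le_exp.mpr (neg_le_neg (h5 h7))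
        have h9 : 1 ≤ t⁻¹ := one_le_inv_iff₀.mpr ⟨htp, ht.le⟩
        refine le_trans ?_ h9
        rw [div_le_one hwp]
        linarith [two_le_exp]
      · have h8 : Real.exp (-(H (f w)).re) ≤ 1 := Real.exp_le_one_iff.mpr (by linarith)
        rw [← one_div]
        exact div_le_div₀ zero_le_one h8 htp (not_lt.mp h6)
    have h1 := Complex.norm_le_of_forall_mem_frontier_norm_le
      (isBounded_ball.subset inter_subset_left) hd hbd
      (subset_closure (⟨mem_ball_zero_iff.mpr ht0, hr⟩ : w₀ ∈ V))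
    have hwp : 0 < ‖w₀‖ := by linarith [(hw w₀ hw₀ hr.le).1]
    rw [norm_div, Complex.norm_exp, Complex.neg_re, div_le_iff₀ hwp, le_inv_mul_iff₀ htp] at h1
    exact h1
  have h1 : Tendsto (fun t : ℝ => t * Real.exp (-(H (f w₀)).re)) (𝓝[<] 1)
      (𝓝 (1 * Real.exp (-(H (f w₀)).re))) :=
    (tendsto_id.mul_const _).mono_left nhdsWithin_le_nhds
  rw [one_mul] at h1
  refine le_of_tendsto h1 ?_
  filter_upwards [Ioo_mem_nhdsLT (mem_ball_zero_iff.mp hw₀)] with t ht using key t ht.1 ht.2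

theorem hh_le {w : ℂ} {s : ℝ} (h : Real.exp (-s) ≤ ‖w‖) : hh w ≤ 2 * s := by
  have h1 : Real.exp (-s) ^ 2 ≤ ‖w‖ ^ 2 := pow_le_pow_left₀ (Real.exp_pos _).le h 2
  rw [← Real.exp_nat_mul] at h1
  have h2 := Real.add_one_le_exp ((2 : ℕ) * -s)
  rw [hh]
  push_cast at h1 h2
  linarith

end Barrier

open Barrier in
theorem barrier {Ω : Set ℂ} (ho : IsOpen Ω) (hb : Bornology.IsBounded Ω)
    (hL : IsLipschitzDomain Ω) {f φ : ℂ → ℂ} (hc : Conf Ω f φ) :
    ∃ C γ : ℝ, 0 ≤ C ∧ 1 / 2 < γ ∧ γ ≤ 1 ∧ ∀ x ∈ Ω, hh (φ x) ≤ C * dist' Ω x ^ γ := by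
  obtain ⟨r₀, K, hr₀, hK, hcone⟩ := cone ho hb hL
  obtain ⟨γ, c, hγ1, hγ2, hc0, hc1, hsec⟩ := sector hK
  obtain ⟨ρ, hρ, hnear⟩ := near ho hc
  set r := min (r₀ / 2) ρ with hr
  have hr0 : 0 < r := lt_min (half_pos hr₀) hρ
  have hrγ : 0 < r ^ γ := Real.rpow_pos_of_pos hr0 γ
  set A := 1 / (c * r ^ γ) with hA
  have hA0 : 0 < A := by positivity
  have hA1 : A * (c * r ^ γ) = 1 := by
    rw [hA]
    field_simp
  refine ⟨2 * A, γ, by positivity, hγ1, hγ2, fun x hx => ?_⟩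
  obtain ⟨a, ha, hxa⟩ := exists_mem_frontier_infDist_compl_eq_dist hx (ne_univ hb)
  rw [dist', hxa]
  by_cases hxr : dist x a < r
  · obtain ⟨e, he, h⟩ := hcone a ha
    have ha1 : a ∉ Ω := fun h => (ho.frontier_eq ▸ ha).2 h
    have hn : ∀ z : ℂ, ‖e * (z - a)‖ = dist z a := fun z => by
      rw [norm_mul, he, one_mul, dist_eq_norm]
    have hs := fun z (hz : z ∈ Ω) (hza : dist z a ≤ r) => hsec _ (h z hz
      (mem_ball.mpr (hza.trans_lt ((min_le_left _ _).trans_lt (half_lt_self hr₀)))))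
    have key := maxp (H := fun z => (A : ℂ) * (e * (z - a)) ^ (γ : ℂ)) hc.hf (a := a) (r := r)
      (w₀ := φ x) ?_ (hc.mapsφ hx) (by rwa [hc.right x hx])
    · refine (hh_le key).trans ?_
      rw [hc.right x hx, Complex.re_ofReal_mul, mul_assoc]
      have := (hs x hx hxr.le).2.2
      rw [hn] at this
      gcongr
    · intro w hw hwa
      obtain ⟨h1, h2, -⟩ := hs (f w) (hc.mapsf hw) hwa
      rw [hn] at h2
      refine ⟨hnear a ha1 w hw (hwa.trans (min_le_right _ _)), ?_, ?_, fun h3 => ?_⟩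
      · refine DifferentiableAt.const_mul
          (DifferentiableAt.cpow_const (f := fun z => e * (z - a)) ?_ h1) _
        fun_prop
      · rw [Complex.re_ofReal_mul]
        exact mul_nonneg hA0.le (le_trans (by positivity) h2)
      · rw [Complex.re_ofReal_mul, ← hA1, ← h3]
        exact mul_le_mul_of_nonneg_left h2 hA0.le
  · have h1 : r ^ γ ≤ dist x a ^ γ := Real.rpow_le_rpow hr0.le (not_lt.mp hxr) (by linarith)
    have h2 : hh (φ x) ≤ 1 := by
      rw [hh]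
      nlinarith [norm_nonneg (φ x)]
    have h3 : c * r ^ γ ≤ dist x a ^ γ := (mul_le_of_le_one_left hrγ.le hc1).trans h1
    have h4 := mul_le_mul_of_nonneg_left h3 hA0.le
    nlinarith

end Vale.Agent.P071
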