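import Vale.Agent.P071.Defs

/-! Working definitions for the proof of the hot spots conjecture (not used by the statement). -/

open MeasureTheory Set
open scoped ENNReal ComplexConjugate

namespace Vale.Agent.P071

/-- The open unit disc. -/
abbrev DD : Set ℂ := Metric.ball 0 1

/-- Partial derivative in the real direction. -/
noncomputable def d1 (a : ℂ → ℝ) (z : ℂ) : ℝ := fderiv ℝ a z 1

/-- Partial derivative in the imaginary direction. -/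
noncomputable def d2 (a : ℂ → ℝ) (z : ℂ) : ℝ := fderiv ℝ a z Complex.I

/-- Inner product of gradients. -/
noncomputable def gdot (a b : ℂ → ℝ) (z : ℂ) : ℝ := d1 a z * d1 b z + d2 a z * d2 b z

/-- Laplacian. -/
noncomputable def lap (a : ℂ → ℝ) (z : ℂ) : ℝ := d1 (d1 a) z + d2 (d2 a) z

/-- Defining function of the disc. -/
noncomputable def hh (z : ℂ) : ℝ := 1 - ‖z‖ ^ 2

/-- The shell at scale `δ`. -/
def shell (δ : ℝ) : Set ℂ := {z | δ ≤ hh z ∧ hh z ≤ 2 * δ}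

/-- Distance to the complement. -/
noncomputable def dist' (Ω : Set ℂ) (x : ℂ) : ℝ := Metric.infDist x Ωᶜ

/-- Test functions on `U`. -/
def Test (U : Set ℂ) (ψ : ℂ → ℝ) : Prop :=
  ContDiff ℝ (⊤ : ℕ∞) ψ ∧ HasCompactSupport ψ ∧ tsupport ψ ⊆ U

/-- Bounded `C¹` functions with finite energy. -/
def Adm (U : Set ℂ) (a : ℂ → ℝ) : Prop :=
  ContDiffOn ℝ 1 a U ∧ (∃ C, ∀ z ∈ U, |a z| ≤ C) ∧ IntegrableOn (gdot a a) U

/-- `f` is a conformal map of the disc onto `Ω` with inverse `φ`. -/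
structure Conf (Ω : Set ℂ) (f φ : ℂ → ℂ) : Prop where
  hf : DifferentiableOn ℂ f DD
  hφ : DifferentiableOn ℂ φ Ω
  mapsf : MapsTo f DD Ω
  mapsφ : MapsTo φ Ω DD
  left : ∀ z ∈ DD, φ (f z) = z
  right : ∀ x ∈ Ω, f (φ x) = x

/-- Green's function of the disc (junk value `0` on the diagonal). -/
noncomputable def g0 (x y : ℂ) : ℝ :=
  (2 * Real.pi)⁻¹ * Real.log (‖1 - x * conj y‖ / ‖x - y‖)

/-- Green's function of the disc with values in `ℝ≥0∞`. -/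
noncomputable def g0e (x y : ℂ) : ℝ≥0∞ := if x = y then ⊤ else ENNReal.ofReal (g0 x y)

/-- Iterated kernels. -/
noncomputable def iter (m : Measure ℂ) : ℕ → ℂ → ℂ → ℝ≥0∞
  | 0 => g0e
  | n + 1 => fun x y => ∫⁻ w, g0e x w * iter m n w y ∂m

/-- Green's function for the potential `s • m` (value `0` on the diagonal). -/
noncomputable def GG (m : Measure ℂ) (s : ℝ) (x y : ℂ) : ℝ :=
  (∑' n, ENNReal.ofReal s ^ n * iter m n x y).toReal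

/-- Hypotheses on the potential. -/
structure Pot (m : Measure ℂ) (μ : ℝ) : Prop where
  mu_pos : 0 < μ
  fin : IsFiniteMeasure m
  supp : m DDᶜ = 0
  locBdd : ∀ r < 1, ∃ C : ℝ≥0∞, C ≠ ⊤ ∧ m.restrict (Metric.closedBall 0 r) ≤ C • volume
  noAtoms : ∀ x, m {x} = 0
  sq : ∃ A : ℝ≥0∞, A ≠ ⊤ ∧ ∀ x ∈ DD, ∫⁻ w, (1 + g0e x w) ^ 2 ∂m ≤ A
  small : ∀ ε : ℝ≥0∞, ε ≠ 0 → ∃ r < 1, ∀ x ∈ DD,
    ∫⁻ w in (Metric.closedBall 0 r)ᶜ, (1 + g0e x w) ^ 2 ∂m ≤ ε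
  gap : ∃ θ : ℝ, 0 ≤ θ ∧ μ * θ < 1 ∧ ∀ g : ℂ → ℝ, MemLp g 2 m → (∀ z, 0 ≤ g z) →
    ∫ x, (∫ w, g0 x w * g w ∂m) ^ 2 ∂m ≤ θ ^ 2 * ∫ w, g w ^ 2 ∂m

/-- Analytic properties of the Green kernels. -/
structure GreenAn (m : Measure ℂ) (μ C : ℝ) : Prop where
  meas : ∀ s, Measurable fun p : ℂ × ℂ => GG m s p.1 p.2
  symm : ∀ s x y, GG m s x y = GG m s y x
  diag : ∀ s x, GG m s x x = 0
  zero : ∀ x ∈ DD, ∀ y ∈ DD, GG m 0 x y = g0 x y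
  finite : ∀ s ∈ Icc 0 μ, ∀ x ∈ DD, ∀ y ∈ DD, x ≠ y →
    ∑' n, ENNReal.ofReal s ^ n * iter m n x y ≠ ⊤
  lower : ∀ s ∈ Icc 0 μ, ∀ x ∈ DD, ∀ y ∈ DD, g0 x y ≤ GG m s x y
  upper : ∀ s ∈ Icc 0 μ, ∀ x ∈ DD, ∀ y ∈ DD, GG m s x y ≤ C * g0 x y
  threeG_int : ∀ x ∈ DD, ∀ y ∈ DD, Integrable (fun w => g0 x w * g0 w y) m
  threeG : ∀ x ∈ DD, ∀ y ∈ DD, x ≠ y → ∫ w, g0 x w * g0 w y ∂m ≤ C * g0 x y
  resolvent : ∀ s' s, 0 ≤ s' → s' ≤ s → s ≤ μ → ∀ x ∈ DD, ∀ y ∈ DD, x ≠ y →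
    GG m s x y = GG m s' x y + (s - s') * ∫ w, GG m s x w * GG m s' w y ∂m

/-- The key conditional negativity. -/
def GreenCND (m : Measure ℂ) (s : ℝ) : Prop :=
  ∀ p ∈ DD, ∀ (n : ℕ) (x : Fin n → ℂ) (c : Fin n → ℝ), (∀ i, x i ∈ DD ∧ x i ≠ p) →
    ∑ i, c i = 0 →
    ∑ i, ∑ j, c i * c j * (GG m s (x i) p * GG m s (x j) p / GG m s (x i) (x j)) ≤ 0

end Vale.Agent.P071
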