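import Vale.Agent.P071.Basic

/-! Calculus in the plane: product rules, test functions, integration by parts. -/

open MeasureTheory Set Metric Filter Topology
open scoped ENNReal

namespace Vale.Agent.P071

/-- Smoothness order infinity. -/
abbrev oo : WithTop ℕ∞ := (⊤ : ℕ∞)

/-- Directional derivative. -/
noncomputable def dd (v : ℂ) (a : ℂ → ℝ) (z : ℂ) : ℝ := fderiv ℝ a z v

lemma d1_eq : d1 = dd 1 := rfl
lemma d2_eq : d2 = dd Complex.I := rfl

section rules

variable {a b : ℂ → ℝ} {z v : ℂ}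

lemma dd_add (ha : DifferentiableAt ℝ a z) (hb : DifferentiableAt ℝ b z) :
    dd v (fun x => a x + b x) z = dd v a z + dd v b z := by
  simp [dd, fderiv_fun_add ha hb]

lemma dd_sub (ha : DifferentiableAt ℝ a z) (hb : DifferentiableAt ℝ b z) :
    dd v (fun x => a x - b x) z = dd v a z - dd v b z := by
  simp [dd, fderiv_fun_sub ha hb]

lemma dd_mul (ha : DifferentiableAt ℝ a z) (hb : DifferentiableAt ℝ b z) :
    dd v (fun x => a x * b x) z = dd v a z * b z + a z * dd v b z := by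
  simp [dd, fderiv_fun_mul ha hb]; ring

lemma dd_const (c : ℝ) : dd v (fun _ => c) z = 0 := by simp [dd]

lemma dd_const_mul (c : ℝ) : dd v (fun x => c * a x) z = c * dd v a z := by
  have := fderiv_const_smul_field (𝕜 := ℝ) (f := a) c
  have h : (fun x => c * a x) = c • a := by funext x; simp
  simp only [dd, h, this]
  simp

lemma dd_neg : dd v (fun x => -a x) z = -dd v a z := by simp [dd, fderiv_fun_neg]

lemma dd_comp {g : ℝ → ℝ} {g' : ℝ} (hg : HasDerivAt g g' (a z)) (ha : DifferentiableAt ℝ a z) :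
    dd v (fun x => g (a x)) z = g' * dd v a z := by
  have := (hg.comp_hasFDerivAt z ha.hasFDerivAt).fderiv
  simp only [dd]
  change fderiv ℝ (g ∘ a) z v = _
  rw [this]; simp

lemma dd_congr (h : a =ᶠ[𝓝 z] b) : dd v a z = dd v b z := by simp [dd, h.fderiv_eq]

lemma dd_eventuallyEq (h : a =ᶠ[𝓝 z] b) : dd v a =ᶠ[𝓝 z] dd v b := by
  filter_upwards [h.eventuallyEq_nhds] with x hx using dd_congr hx

lemma dd_sum {ι : Type*} (s : Finset ι) {a : ι → ℂ → ℝ} (h : ∀ i ∈ s, DifferentiableAt ℝ (a i) z) :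
    dd v (fun x => ∑ i ∈ s, a i x) z = ∑ i ∈ s, dd v (a i) z := by
  simp [dd, fderiv_fun_sum h]

lemma dd_re : dd v (fun x => x.re) z = v.re := by
  have := (Complex.reCLM.hasFDerivAt (x := z)).fderiv
  simp only [dd]
  change fderiv ℝ Complex.reCLM z v = _
  rw [this]; rfl

lemma dd_im : dd v (fun x => x.im) z = v.im := by
  have := (Complex.imCLM.hasFDerivAt (x := z)).fderiv
  simp only [dd]
  change fderiv ℝ Complex.imCLM z v = _
  rw [this]; rfl

lemma ContDiffAt.dd' {n m : WithTop ℕ∞} (ha : ContDiffAt ℝ n a z) (h : m + 1 ≤ n) :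
    ContDiffAt ℝ m (dd v a) z :=
  (ha.fderiv_right h).clm_apply contDiffAt_const

lemma contDiffOn_dd {U : Set ℂ} (hU : IsOpen U) {n m : WithTop ℕ∞} (ha : ContDiffOn ℝ n a U)
    (h : m + 1 ≤ n) : ContDiffOn ℝ m (dd v a) U := fun _ hz =>
  (ContDiffAt.dd' (ha.contDiffAt (hU.mem_nhds hz)) h).contDiffWithinAt

lemma contDiff_dd {n m : WithTop ℕ∞} (ha : ContDiff ℝ n a) (h : m + 1 ≤ n) :
    ContDiff ℝ m (dd v a) :=
  contDiff_iff_contDiffAt.2 fun _ => ContDiffAt.dd' ha.contDiffAt h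

lemma oo_add_one : oo + 1 ≤ oo := le_of_eq rfl

lemma one_le_oo : (1 : WithTop ℕ∞) ≤ oo := WithTop.coe_le_coe.2 (le_top (a := (1 : ℕ∞)))
lemma two_le_oo : (2 : WithTop ℕ∞) ≤ oo := WithTop.coe_le_coe.2 (le_top (a := (2 : ℕ∞)))
lemma oo_ne_zero : oo ≠ 0 := by simp

lemma dd_comm {v' : ℂ} (ha : ContDiffAt ℝ 2 a z) : dd v (dd v' a) z = dd v' (dd v a) z := by
  have h1 : DifferentiableAt ℝ (fderiv ℝ a) z :=
    (ha.fderiv_right (m := 1) le_rfl).differentiableAt one_ne_zero
  have key : ∀ u u' : ℂ, dd u (dd u' a) z = fderiv ℝ (fderiv ℝ a) z u u' := by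
    intro u u'
    simp only [dd]
    change fderiv ℝ (fun x => fderiv ℝ a x u') z u = _
    rw [fderiv_clm_apply h1 (differentiableAt_const _)]
    simp
  rw [key, key]
  exact ha.isSymmSndFDerivAt (by simp) v v'

lemma dd_eq_zero_of_notMem_tsupport (h : z ∉ tsupport a) : dd v a z = 0 := by
  rw [dd_congr (notMem_tsupport_iff_eventuallyEq.1 h)]
  exact dd_const 0

lemma tsupport_dd_subset : tsupport (dd v a) ⊆ tsupport a :=
  closure_minimal (fun _ hz => by
    by_contra h
    exact hz (dd_eq_zero_of_notMem_tsupport h)) (isClosed_tsupport a)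

lemma gdot_comm : gdot a b z = gdot b a z := by simp [gdot, mul_comm]

lemma gdot_self_nonneg : 0 ≤ gdot a a z := add_nonneg (mul_self_nonneg _) (mul_self_nonneg _)

lemma abs_gdot_le : |gdot a b z| ≤ √(gdot a a z) * √(gdot b b z) := by
  rw [← Real.sqrt_mul gdot_self_nonneg]
  refine Real.abs_le_sqrt ?_
  unfold gdot
  nlinarith [sq_nonneg (d1 a z * d2 b z - d2 a z * d1 b z)]

lemma gdot_mul_left {c : ℂ → ℝ} (ha : DifferentiableAt ℝ a z) (hb : DifferentiableAt ℝ b z) :
    gdot (fun x => a x * b x) c z = b z * gdot a c z + a z * gdot b c z := by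
  simp only [gdot, d1_eq, d2_eq, dd_mul ha hb]; ring

lemma gdot_add_left {c : ℂ → ℝ} (ha : DifferentiableAt ℝ a z) (hb : DifferentiableAt ℝ b z) :
    gdot (fun x => a x + b x) c z = gdot a c z + gdot b c z := by
  simp only [gdot, d1_eq, d2_eq, dd_add ha hb]; ring

lemma gdot_sub_left {c : ℂ → ℝ} (ha : DifferentiableAt ℝ a z) (hb : DifferentiableAt ℝ b z) :
    gdot (fun x => a x - b x) c z = gdot a c z - gdot b c z := by
  simp only [gdot, d1_eq, d2_eq, dd_sub ha hb]; ring

lemma lap_mul (ha : ContDiffAt ℝ 2 a z) (hb : ContDiffAt ℝ 2 b z) :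
    lap (fun x => a x * b x) z = lap a z * b z + 2 * gdot a b z + a z * lap b z := by
  have key : ∀ v : ℂ, dd v (dd v fun x => a x * b x) z =
      dd v (dd v a) z * b z + 2 * (dd v a z * dd v b z) + a z * dd v (dd v b) z := by
    intro v
    have e : dd v (fun x => a x * b x) =ᶠ[𝓝 z] fun x => dd v a x * b x + a x * dd v b x := by
      filter_upwards [ha.eventually (by simp), hb.eventually (by simp)] with x hx hx'
      exact dd_mul (hx.differentiableAt two_ne_zero) (hx'.differentiableAt two_ne_zero)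
    have ha1 := ha.differentiableAt two_ne_zero
    have hb1 := hb.differentiableAt two_ne_zero
    have ha2 : DifferentiableAt ℝ (dd v a) z :=
      (ContDiffAt.dd' (m := 1) ha le_rfl).differentiableAt one_ne_zero
    have hb2 : DifferentiableAt ℝ (dd v b) z :=
      (ContDiffAt.dd' (m := 1) hb le_rfl).differentiableAt one_ne_zero
    rw [dd_congr e, dd_add (ha2.fun_mul hb1) (ha1.fun_mul hb2), dd_mul ha2 hb1, dd_mul ha1 hb2]
    ring
  simp only [lap, gdot, d1_eq, d2_eq, key]
  ring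

lemma lap_add (ha : ContDiffAt ℝ 2 a z) (hb : ContDiffAt ℝ 2 b z) :
    lap (fun x => a x + b x) z = lap a z + lap b z := by
  have key : ∀ v : ℂ, dd v (dd v fun x => a x + b x) z = dd v (dd v a) z + dd v (dd v b) z := by
    intro v
    have e : dd v (fun x => a x + b x) =ᶠ[𝓝 z] fun x => dd v a x + dd v b x := by
      filter_upwards [ha.eventually (by simp), hb.eventually (by simp)] with x hx hx'
      exact dd_add (hx.differentiableAt two_ne_zero) (hx'.differentiableAt two_ne_zero)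
    rw [dd_congr e, dd_add ((ContDiffAt.dd' (m := 1) ha le_rfl).differentiableAt one_ne_zero)
      ((ContDiffAt.dd' (m := 1) hb le_rfl).differentiableAt one_ne_zero)]
  simp only [lap, d1_eq, d2_eq, key]
  ring

lemma lap_const_mul (c : ℝ) : lap (fun x => c * a x) z = c * lap a z := by
  have key : ∀ v : ℂ, dd v (fun x => c * a x) = fun x => c * dd v a x := fun v =>
    funext fun _ => dd_const_mul c
  simp only [lap, d1_eq, d2_eq, key, dd_const_mul]
  ring

lemma lap_congr (h : a =ᶠ[𝓝 z] b) : lap a z = lap b z := by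
  simp only [lap, d1_eq, d2_eq, dd_congr (dd_eventuallyEq h)]

lemma gdot_congr {c e : ℂ → ℝ} (h : a =ᶠ[𝓝 z] b) (h' : c =ᶠ[𝓝 z] e) :
    gdot a c z = gdot b e z := by
  simp only [gdot, d1_eq, d2_eq, dd_congr h, dd_congr h']

lemma contDiffOn_lap {U : Set ℂ} (hU : IsOpen U) (ha : ContDiffOn ℝ oo a U) :
    ContDiffOn ℝ oo (lap a) U :=
  (contDiffOn_dd hU (contDiffOn_dd hU ha oo_add_one) oo_add_one).add
    (contDiffOn_dd hU (contDiffOn_dd hU ha oo_add_one) oo_add_one)

lemma contDiffOn_gdot {U : Set ℂ} (hU : IsOpen U) {n m : WithTop ℕ∞} (ha : ContDiffOn ℝ n a U)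
    (hb : ContDiffOn ℝ n b U) (h : m + 1 ≤ n) : ContDiffOn ℝ m (gdot a b) U :=
  ((contDiffOn_dd hU ha h).mul (contDiffOn_dd hU hb h)).add
    ((contDiffOn_dd hU ha h).mul (contDiffOn_dd hU hb h))

lemma continuousOn_gdot {U : Set ℂ} (hU : IsOpen U) (ha : ContDiffOn ℝ 1 a U)
    (hb : ContDiffOn ℝ 1 b U) : ContinuousOn (gdot a b) U :=
  (contDiffOn_gdot (m := 0) hU ha hb (by simp)).continuousOn

lemma measurable_dd : Measurable (dd v a) := measurable_fderiv_apply_const ℝ a v

lemma measurable_gdot : Measurable (gdot a b) :=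
  (measurable_dd.mul measurable_dd).add (measurable_dd.mul measurable_dd)

end rules

section test

variable {U : Set ℂ} {a ψ : ℂ → ℝ}

lemma contDiff_mul_of_tsupport {n : WithTop ℕ∞} (hU : IsOpen U) (ha : ContDiffOn ℝ n a U)
    (hψ : ContDiff ℝ n ψ) (hs : tsupport ψ ⊆ U) : ContDiff ℝ n fun z => a z * ψ z := by
  refine contDiff_iff_contDiffAt.2 fun z => ?_
  by_cases hz : z ∈ tsupport ψ
  · exact (ha.contDiffAt (hU.mem_nhds (hs hz))).mul hψ.contDiffAt
  · refine (contDiffAt_const (c := (0 : ℝ))).congr_of_eventuallyEq ?_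
    filter_upwards [notMem_tsupport_iff_eventuallyEq.1 hz] with x hx
    simp [hx]

lemma continuous_mul_of_tsupport (hU : IsOpen U) (ha : ContinuousOn a U)
    (hψ : Continuous ψ) (hs : tsupport ψ ⊆ U) : Continuous fun z => a z * ψ z :=
  (contDiff_mul_of_tsupport (n := 0) hU (contDiffOn_zero.2 ha) (contDiff_zero.2 hψ) hs).continuous

lemma Test.mul_left (hU : IsOpen U) (ha : ContDiffOn ℝ oo a U) (hψ : Test U ψ) :
    Test U fun z => a z * ψ z :=
  ⟨contDiff_mul_of_tsupport hU ha hψ.1 hψ.2.2, hψ.2.1.mul_left,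
    (tsupport_mul_subset_right).trans hψ.2.2⟩

lemma Test.mul_right (hU : IsOpen U) (ha : ContDiffOn ℝ oo a U) (hψ : Test U ψ) :
    Test U fun z => ψ z * a z := by
  simpa only [mul_comm] using hψ.mul_left hU ha

lemma Test.dd (hψ : Test U ψ) (v : ℂ) : Test U (dd v ψ) :=
  ⟨contDiff_dd hψ.1 oo_add_one, hψ.2.1.mono' ((subset_tsupport _).trans tsupport_dd_subset),
    tsupport_dd_subset.trans hψ.2.2⟩

lemma Test.add {ψ' : ℂ → ℝ} (hψ : Test U ψ) (hψ' : Test U ψ') : Test U fun z => ψ z + ψ' z :=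
  ⟨hψ.1.add hψ'.1, hψ.2.1.add hψ'.2.1,
    (tsupport_add ψ ψ').trans (union_subset hψ.2.2 hψ'.2.2)⟩

lemma Test.const_mul (hψ : Test U ψ) (c : ℝ) : Test U fun z => c * ψ z :=
  ⟨contDiff_const.mul hψ.1, hψ.2.1.mul_left, (tsupport_mul_subset_right).trans hψ.2.2⟩

lemma Test.neg (hψ : Test U ψ) : Test U fun z => -ψ z := by
  simpa using hψ.const_mul (-1)

lemma Test.sub {ψ' : ℂ → ℝ} (hψ : Test U ψ) (hψ' : Test U ψ') : Test U fun z => ψ z - ψ' z := by
  simpa only [sub_eq_add_neg] using hψ.add hψ'.neg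

lemma Test.lap (hψ : Test U ψ) : Test U (lap ψ) :=
  ((hψ.dd 1).dd 1).add ((hψ.dd Complex.I).dd Complex.I)

lemma Test.continuous (hψ : Test U ψ) : Continuous ψ := hψ.1.continuous

lemma Test.integrable (hψ : Test U ψ) : Integrable ψ :=
  hψ.continuous.integrable_of_hasCompactSupport hψ.2.1

lemma Test.bdd (hψ : Test U ψ) : ∃ C, ∀ z, |ψ z| ≤ C :=
  hψ.continuous.bounded_above_of_compact_support hψ.2.1

lemma Test.eq_zero (hψ : Test U ψ) {z : ℂ} (hz : z ∉ U) : ψ z = 0 :=
  image_eq_zero_of_notMem_tsupport fun h => hz (hψ.2.2 h)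

lemma Test.diffAt (hψ : Test U ψ) (z : ℂ) : DifferentiableAt ℝ ψ z :=
  hψ.1.differentiable oo_ne_zero z

lemma Test.contDiffOn (hψ : Test U ψ) {V : Set ℂ} : ContDiffOn ℝ oo ψ V := hψ.1.contDiffOn

lemma Test.integrableOn_mul (hU : IsOpen U) (ha : ContinuousOn a U) (hψ : Test U ψ) :
    IntegrableOn (fun z => a z * ψ z) U :=
  ((continuous_mul_of_tsupport hU ha hψ.continuous hψ.2.2).integrable_of_hasCompactSupport
    hψ.2.1.mul_left).integrableOn

lemma Test.integrableOn_gdot (hU : IsOpen U) (ha : ContDiffOn ℝ 1 a U) (hψ : Test U ψ) :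
    IntegrableOn (gdot a ψ) U :=
  ((hψ.dd 1).integrableOn_mul hU (contDiffOn_dd (m := 0) hU ha (by simp)).continuousOn).add
    ((hψ.dd Complex.I).integrableOn_mul hU (contDiffOn_dd (m := 0) hU ha (by simp)).continuousOn)

lemma Test.adm (hU : IsOpen U) (hψ : Test U ψ) : Adm U ψ :=
  ⟨(hψ.1.of_le one_le_oo).contDiffOn, let ⟨C, hC⟩ := hψ.bdd; ⟨C, fun z _ => hC z⟩,
    hψ.integrableOn_gdot hU (hψ.1.of_le one_le_oo).contDiffOn⟩

lemma integral_dd_eq_zero {F : ℂ → ℝ} (hF : ContDiff ℝ 1 F) (hc : HasCompactSupport F) (v : ℂ) :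
    ∫ z, dd v F z = 0 := by
  have h1 : Integrable (dd v F) :=
    (contDiff_dd (m := 0) hF (by simp)).continuous.integrable_of_hasCompactSupport
      (hc.mono' ((subset_tsupport _).trans tsupport_dd_subset))
  have := integral_mul_fderiv_eq_neg_fderiv_mul_of_integrable (μ := volume) (f := fun _ : ℂ => (1 : ℝ))
    (g := F) (v := v) (by simp) (by simp only [one_mul]; exact h1)
    (by simpa using hF.continuous.integrable_of_hasCompactSupport hc)
    (fun _ _ => differentiableAt_const _) (fun z _ => hF.differentiable one_ne_zero z)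
  simpa [dd] using this

/-- Integration by parts against a test function. -/
lemma ibp (hU : IsOpen U) (ha : ContDiffOn ℝ 1 a U) (hψ : Test U ψ) (v : ℂ) :
    ∫ z in U, a z * dd v ψ z = -∫ z in U, dd v a z * ψ z := by
  have h1 := integral_dd_eq_zero
    (contDiff_mul_of_tsupport hU ha (hψ.1.of_le one_le_oo) hψ.2.2) hψ.2.1.mul_left v
  rw [← setIntegral_eq_integral_of_forall_compl_eq_zero (s := U)] at h1
  · rw [setIntegral_congr_fun hU.measurableSet (g := fun z => dd v a z * ψ z + a z * dd v ψ z),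
      integral_add] at h1
    · linarith
    · exact hψ.integrableOn_mul hU (contDiffOn_dd (m := 0) hU ha (by simp)).continuousOn
    · exact (hψ.dd v).integrableOn_mul hU ha.continuousOn
    · intro z hz
      exact dd_mul ((ha.contDiffAt (hU.mem_nhds hz)).differentiableAt one_ne_zero) (hψ.diffAt z)
  · intro z hz
    exact dd_eq_zero_of_notMem_tsupport fun h => hz (hψ.2.2 (tsupport_mul_subset_right h))

/-- Green's first identity against a test function. -/
lemma green1 (hU : IsOpen U) (ha : ContDiffOn ℝ 2 a U) (hψ : Test U ψ) :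
    ∫ z in U, gdot a ψ z = -∫ z in U, lap a z * ψ z := by
  have h1 : ∀ v, ContDiffOn ℝ 1 (dd v a) U := fun v => contDiffOn_dd hU ha le_rfl
  have h2 : ∀ v, ContinuousOn (dd v (dd v a)) U := fun v =>
    (contDiffOn_dd (m := 0) hU (h1 v) (by simp)).continuousOn
  simp only [gdot, lap, d1_eq, d2_eq, add_mul]
  rw [integral_add ((hψ.dd _).integrableOn_mul hU (h1 _).continuousOn)
    ((hψ.dd _).integrableOn_mul hU (h1 _).continuousOn),
    integral_add (hψ.integrableOn_mul hU (h2 _)) (hψ.integrableOn_mul hU (h2 _)),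
    ibp hU (h1 _) hψ, ibp hU (h1 _) hψ]
  ring

/-- Green's first identity, derivatives on the test function. -/
lemma green2 (hU : IsOpen U) (ha : ContDiffOn ℝ 1 a U) (hψ : Test U ψ) :
    ∫ z in U, gdot a ψ z = -∫ z in U, a z * lap ψ z := by
  have h1 : ∀ v, ContinuousOn (dd v a) U := fun v =>
    (contDiffOn_dd (m := 0) hU ha (by simp)).continuousOn
  simp only [gdot, lap, d1_eq, d2_eq, mul_add]
  rw [integral_add ((hψ.dd _).integrableOn_mul hU (h1 _)) ((hψ.dd _).integrableOn_mul hU (h1 _)),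
    integral_add (((hψ.dd _).dd _).integrableOn_mul hU ha.continuousOn)
      (((hψ.dd _).dd _).integrableOn_mul hU ha.continuousOn),
    ibp hU ha (hψ.dd _), ibp hU ha (hψ.dd _)]
  ring

end test

end Vale.Agent.P071
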