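import Vale.Agent.P071.Calc

/-! Radial cutoffs in the disc. -/

open MeasureTheory Set Metric Filter Topology
open scoped ENNReal

namespace Vale.Agent.P071

lemma isOpen_DD : IsOpen DD := isOpen_ball

lemma measurableSet_DD : MeasurableSet DD := isOpen_DD.measurableSet

lemma mem_DD {z : ℂ} : z ∈ DD ↔ ‖z‖ < 1 := by simp [DD]

lemma hh_eq (z : ℂ) : hh z = 1 - (z.re * z.re + z.im * z.im) := by
  rw [hh, Complex.sq_norm, Complex.normSq_apply]

lemma contDiff_hh {n : WithTop ℕ∞} : ContDiff ℝ n hh := by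
  have : hh = fun z : ℂ => 1 - (z.re * z.re + z.im * z.im) := funext hh_eq
  rw [this]
  have h1 : ContDiff ℝ n fun z : ℂ => z.re := Complex.reCLM.contDiff
  have h2 : ContDiff ℝ n fun z : ℂ => z.im := Complex.imCLM.contDiff
  exact contDiff_const.sub ((h1.mul h1).add (h2.mul h2))

lemma continuous_hh : Continuous hh := (contDiff_hh (n := 0)).continuous

lemma diff_re (z : ℂ) : DifferentiableAt ℝ (fun z : ℂ => z.re) z :=
  Complex.reCLM.differentiableAt

lemma diff_im (z : ℂ) : DifferentiableAt ℝ (fun z : ℂ => z.im) z :=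
  Complex.imCLM.differentiableAt

lemma diff_hh (z : ℂ) : DifferentiableAt ℝ hh z :=
  (contDiff_hh (n := 1)).differentiable one_ne_zero z

lemma dd_hh (v z : ℂ) : dd v hh z = -2 * (z.re * v.re + z.im * v.im) := by
  have : hh = fun z : ℂ => 1 - (z.re * z.re + z.im * z.im) := funext hh_eq
  rw [this, dd_sub (differentiableAt_const _) (((diff_re z).fun_mul (diff_re z)).fun_add
    ((diff_im z).fun_mul (diff_im z))), dd_add ((diff_re z).fun_mul (diff_re z))
    ((diff_im z).fun_mul (diff_im z)), dd_mul (diff_re z) (diff_re z),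
    dd_mul (diff_im z) (diff_im z), dd_const, dd_re, dd_im]
  ring

lemma hh_pos {z : ℂ} (hz : z ∈ DD) : 0 < hh z := by
  have := mem_DD.1 hz
  have h0 := norm_nonneg z
  unfold hh; nlinarith

lemma hh_le_one (z : ℂ) : hh z ≤ 1 := by unfold hh; nlinarith [sq_nonneg ‖z‖]

lemma mem_DD_of_hh_pos {z : ℂ} (h : 0 < hh z) : z ∈ DD := by
  rw [mem_DD]
  unfold hh at h
  nlinarith [norm_nonneg z]

lemma shell_subset {δ : ℝ} (hδ : 0 < δ) : shell δ ⊆ DD := fun _ hz =>
  mem_DD_of_hh_pos (hδ.trans_le hz.1)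

lemma isClosed_shell (δ : ℝ) : IsClosed (shell δ) :=
  (isClosed_le continuous_const continuous_hh).inter (isClosed_le continuous_hh continuous_const)

lemma isCompact_hh_ge {δ : ℝ} (hδ : 0 < δ) : IsCompact {z | δ ≤ hh z} :=
  (isCompact_closedBall (0 : ℂ) 1).of_isClosed_subset (isClosed_le continuous_const continuous_hh)
    fun _ hz => ball_subset_closedBall (mem_DD_of_hh_pos (hδ.trans_le hz))

lemma isCompact_shell {δ : ℝ} (hδ : 0 < δ) : IsCompact (shell δ) :=
  (isCompact_hh_ge hδ).of_isClosed_subset (isClosed_shell δ) fun _ hz => hz.1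

lemma lap_comp {a : ℂ → ℝ} {g : ℝ → ℝ} {z : ℂ} (ha : ContDiffAt ℝ 2 a z)
    (hg : ContDiffAt ℝ 2 g (a z)) :
    lap (fun x => g (a x)) z = deriv (deriv g) (a z) * gdot a a z + deriv g (a z) * lap a z := by
  have hg' : DifferentiableAt ℝ (deriv g) (a z) :=
    (hg.derivWithin (m := 1) le_rfl).differentiableAt one_ne_zero
  have ha1 := ha.differentiableAt two_ne_zero
  have key : ∀ v : ℂ, dd v (dd v fun x => g (a x)) z =
      deriv (deriv g) (a z) * (dd v a z * dd v a z) + deriv g (a z) * dd v (dd v a) z := by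
    intro v
    have e : dd v (fun x => g (a x)) =ᶠ[𝓝 z] fun x => deriv g (a x) * dd v a x := by
      filter_upwards [ha.eventually (by simp),
        ha.continuousAt.eventually (hg.eventually (by simp))] with x hx hx'
      exact dd_comp (hx'.differentiableAt two_ne_zero).hasDerivAt (hx.differentiableAt two_ne_zero)
    rw [dd_congr e, dd_mul (a := fun x => deriv g (a x)) (hg'.comp z ha1)
      ((ContDiffAt.dd' (m := 1) ha le_rfl).differentiableAt one_ne_zero), dd_comp hg'.hasDerivAt ha1]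
    ring
  simp only [lap, gdot, d1_eq, d2_eq, key]
  ring

lemma lap_hh (z : ℂ) : lap hh z = -4 := by
  have h : ∀ v : ℂ, dd v hh = fun z => -2 * (z.re * v.re + z.im * v.im) := fun v =>
    funext (dd_hh v)
  simp only [lap, d1_eq, d2_eq, h, dd_const_mul]
  simp only [Complex.one_re, Complex.one_im, Complex.I_re, Complex.I_im, mul_one, mul_zero,
    add_zero, zero_add, dd_re, dd_im]
  norm_num

lemma gdot_hh (z : ℂ) : gdot hh hh z = 4 * ‖z‖ ^ 2 := by
  simp only [gdot, d1_eq, d2_eq, dd_hh, Complex.sq_norm, Complex.normSq_apply]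
  simp; ring

/-- Radial cutoff: `1` where `hh ≥ 2δ`, `0` where `hh ≤ δ`. -/
noncomputable def chi (δ : ℝ) (z : ℂ) : ℝ := Real.smoothTransition (hh z / δ - 1)

lemma chi_nonneg (δ : ℝ) (z : ℂ) : 0 ≤ chi δ z := Real.smoothTransition.nonneg _

lemma chi_le_one (δ : ℝ) (z : ℂ) : chi δ z ≤ 1 := Real.smoothTransition.le_one _

lemma abs_chi_le (δ : ℝ) (z : ℂ) : |chi δ z| ≤ 1 := by
  rw [abs_of_nonneg (chi_nonneg δ z)]; exact chi_le_one δ z

lemma chi_eq_one {δ : ℝ} (hδ : 0 < δ) {z : ℂ} (h : 2 * δ ≤ hh z) : chi δ z = 1 := by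
  refine Real.smoothTransition.one_of_one_le ?_
  rw [le_sub_iff_add_le, le_div_iff₀ hδ]; linarith

lemma chi_eq_zero {δ : ℝ} (hδ : 0 < δ) {z : ℂ} (h : hh z ≤ δ) : chi δ z = 0 := by
  refine Real.smoothTransition.zero_of_nonpos ?_
  rw [sub_nonpos, div_le_one hδ]; exact h

lemma contDiff_chi (δ : ℝ) : ContDiff ℝ oo (chi δ) :=
  Real.smoothTransition.contDiff.comp ((contDiff_hh.div_const δ).sub contDiff_const)

lemma chi_test {δ : ℝ} (hδ : 0 < δ) : Test DD (chi δ) := by
  have h : tsupport (chi δ) ⊆ {z | δ ≤ hh z} :=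
    closure_minimal (fun z hz => by
      by_contra h
      exact hz (chi_eq_zero hδ (not_le.1 h).le)) (isClosed_le continuous_const continuous_hh)
  exact ⟨contDiff_chi δ, (isCompact_hh_ge hδ).of_isClosed_subset (isClosed_tsupport _) h,
    fun z hz => mem_DD_of_hh_pos (hδ.trans_le (h hz))⟩

lemma chi_locally_const {δ : ℝ} (hδ : 0 < δ) {z : ℂ} (hz : z ∉ shell δ) :
    ∃ c, chi δ =ᶠ[𝓝 z] fun _ => c := by
  rcases not_and_or.1 hz with h | h
  · refine ⟨0, ?_⟩
    filter_upwards [continuous_hh.continuousAt.eventually (gt_mem_nhds (not_le.1 h))] with x hx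
    exact chi_eq_zero hδ hx.le
  · refine ⟨1, ?_⟩
    filter_upwards [continuous_hh.continuousAt.eventually (lt_mem_nhds (not_le.1 h))] with x hx
    exact chi_eq_one hδ hx.le

lemma dd_chi_eq_zero {δ : ℝ} (hδ : 0 < δ) {z : ℂ} (hz : z ∉ shell δ) (v : ℂ) :
    dd v (chi δ) z = 0 := by
  obtain ⟨c, hc⟩ := chi_locally_const hδ hz
  rw [dd_congr hc, dd_const]

lemma lap_const (c : ℝ) (z : ℂ) : lap (fun _ => c) z = 0 := by
  have : ∀ v : ℂ, dd v (fun _ => c) = fun _ => 0 := fun v => funext fun _ => dd_const c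
  simp [lap, d1_eq, d2_eq, this, dd_const]

lemma lap_chi_eq_zero {δ : ℝ} (hδ : 0 < δ) {z : ℂ} (hz : z ∉ shell δ) : lap (chi δ) z = 0 := by
  obtain ⟨c, hc⟩ := chi_locally_const hδ hz
  rw [lap_congr hc, lap_const]

lemma chi_bounds : ∃ K : ℝ, 0 < K ∧ ∀ δ, 0 < δ → δ ≤ 1 → ∀ z,
    gdot (chi δ) (chi δ) z ≤ K ^ 2 / δ ^ 2 ∧ |lap (chi δ) z| ≤ K / δ ^ 2 := by
  have hs : ContDiff ℝ oo Real.smoothTransition := Real.smoothTransition.contDiff
  have h1 : ContDiff ℝ oo (deriv Real.smoothTransition) := hs.deriv'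
  have h2 : Continuous (deriv (deriv Real.smoothTransition)) := h1.continuous_deriv one_le_oo
  obtain ⟨A, hA⟩ := (isCompact_Icc (a := (0 : ℝ)) (b := 1)).exists_bound_of_continuousOn
    h1.continuous.continuousOn
  obtain ⟨B, hB⟩ := (isCompact_Icc (a := (0 : ℝ)) (b := 1)).exists_bound_of_continuousOn
    h2.continuousOn
  have hA0 : 0 ≤ A := (norm_nonneg _).trans (hA 0 (by simp))
  have hB0 : 0 ≤ B := (norm_nonneg _).trans (hB 0 (by simp))
  refine ⟨4 * A + 4 * B + 1, by positivity, fun δ hδ hδ1 z => ?_⟩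
  by_cases hz : z ∈ shell δ
  swap
  · rw [lap_chi_eq_zero hδ hz]
    simp only [gdot, d1_eq, d2_eq, dd_chi_eq_zero hδ hz]
    constructor <;> simp <;> positivity
  set a : ℂ → ℝ := fun x => hh x / δ - 1 with ha
  have hac : ContDiff ℝ 2 a := (contDiff_hh.div_const δ).sub contDiff_const
  have hmem : a z ∈ Icc (0 : ℝ) 1 := by
    constructor
    · rw [ha, sub_nonneg, le_div_iff₀ hδ]; linarith [hz.1]
    · rw [ha, sub_le_iff_le_add, div_le_iff₀ hδ]; linarith [hz.2]
  have hae : a = fun x => δ⁻¹ * hh x + (-1) := by funext x; simp [ha]; ring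
  have hda : ∀ v, dd v a = fun x => δ⁻¹ * dd v hh x := by
    intro v; funext x
    rw [hae, dd_add ((diff_hh x).const_mul _) (differentiableAt_const _), dd_const_mul, dd_const,
      add_zero]
  have hz1 : ‖z‖ ^ 2 ≤ 1 := by have := hz.1; unfold hh at this; linarith
  have hg : gdot a a z ≤ 4 / δ ^ 2 := by
    have : gdot a a z = δ⁻¹ ^ 2 * gdot hh hh z := by simp only [gdot, d1_eq, d2_eq, hda]; ring
    rw [this, gdot_hh, inv_pow, ← div_eq_inv_mul]
    gcongr; linarith
  have hl : lap a z = -4 / δ := by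
    have : lap a z = δ⁻¹ * lap hh z := by simp only [lap, d1_eq, d2_eq, hda, dd_const_mul]; ring
    rw [this, lap_hh]; ring
  have hA' := hA _ hmem
  have hB' := hB _ hmem
  rw [Real.norm_eq_abs] at hA' hB'
  have hchi : chi δ = fun x => Real.smoothTransition (a x) := rfl
  constructor
  · have : gdot (chi δ) (chi δ) z = deriv Real.smoothTransition (a z) ^ 2 * gdot a a z := by
      have := fun v => dd_comp (v := v) (hs.differentiable oo_ne_zero (a z)).hasDerivAt
        (hac.differentiable two_ne_zero z)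
      simp only [gdot, d1_eq, d2_eq, hchi, this]; ring
    rw [this]
    calc deriv Real.smoothTransition (a z) ^ 2 * gdot a a z ≤ A ^ 2 * (4 / δ ^ 2) :=
          mul_le_mul (by rw [← sq_abs]; gcongr) hg gdot_self_nonneg (by positivity)
      _ = (2 * A) ^ 2 / δ ^ 2 := by ring
      _ ≤ _ := by gcongr; linarith
  · rw [hchi, lap_comp hac.contDiffAt (hs.of_le two_le_oo).contDiffAt, hl]
    have h0 : 0 ≤ gdot a a z := gdot_self_nonneg
    have h4 : 4 / δ ≤ 4 / δ ^ 2 := by gcongr; nlinarith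
    calc |deriv (deriv Real.smoothTransition) (a z) * gdot a a z +
          deriv Real.smoothTransition (a z) * (-4 / δ)|
        ≤ |deriv (deriv Real.smoothTransition) (a z)| * gdot a a z +
          |deriv Real.smoothTransition (a z)| * (4 / δ) := by
          refine (abs_add_le _ _).trans (le_of_eq ?_)
          rw [abs_mul, abs_mul, abs_of_nonneg h0, neg_div, abs_neg,
            abs_of_nonneg (show 0 ≤ 4 / δ by positivity)]
      _ ≤ B * (4 / δ ^ 2) + A * (4 / δ ^ 2) := by gcongr
      _ = (4 * A + 4 * B) / δ ^ 2 := by ring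
      _ ≤ _ := div_le_div_of_nonneg_right (by linarith) (by positivity)

lemma eventually_chi_eq_one {z : ℂ} (hz : z ∈ DD) : ∀ᶠ δ in 𝓝[>] (0 : ℝ), chi δ z = 1 := by
  have := hh_pos hz
  filter_upwards [Ioo_mem_nhdsGT (show (0 : ℝ) < hh z / 2 by positivity)] with δ hδ
  exact chi_eq_one hδ.1 (by linarith [hδ.2])

/-- The outer region at scale `δ`. -/
def outer (δ : ℝ) : Set ℂ := DD ∩ {z | hh z ≤ 2 * δ}

lemma measurableSet_outer (δ : ℝ) : MeasurableSet (outer δ) :=
  measurableSet_DD.inter (isClosed_le continuous_hh continuous_const).measurableSet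

lemma shell_subset_outer {δ : ℝ} (hδ : 0 < δ) : shell δ ⊆ outer δ := fun _ hz =>
  ⟨shell_subset hδ hz, hz.2⟩

lemma tendsto_outer {F : ℂ → ℝ} (hF : IntegrableOn F DD) :
    Tendsto (fun δ => ∫ z in outer δ, F z) (𝓝[>] 0) (𝓝 0) := by
  have h := tendsto_integral_filter_of_dominated_convergence (μ := volume.restrict DD)
    (l := 𝓝[>] (0 : ℝ)) (F := fun δ => (outer δ).indicator F) (f := fun _ => 0) (fun z => ‖F z‖)
    (Eventually.of_forall fun δ => hF.1.indicator (measurableSet_outer δ))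
    (Eventually.of_forall fun δ => Eventually.of_forall fun z => norm_indicator_le_norm_self _ _)
    hF.norm ?_
  · simp only [integral_zero] at h
    refine h.congr fun δ => ?_
    rw [integral_indicator (measurableSet_outer δ), Measure.restrict_restrict
      (measurableSet_outer δ), inter_eq_left.2 (show outer δ ⊆ DD from inter_subset_left)]
  · filter_upwards [ae_restrict_mem measurableSet_DD] with z hz
    refine tendsto_const_nhds.congr' ?_
    have := hh_pos hz
    filter_upwards [Ioo_mem_nhdsGT (show (0 : ℝ) < hh z / 2 by positivity)] with δ hδ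
    rw [indicator_of_notMem]
    intro h
    have := h.2
    simp only [mem_ofPred_eq] at this
    linarith [hδ.2]

lemma tendsto_chi_mul {F : ℂ → ℝ} (hF : IntegrableOn F DD) (n : ℕ) :
    Tendsto (fun δ => ∫ z in DD, chi δ z ^ n * F z) (𝓝[>] 0) (𝓝 (∫ z in DD, F z)) := by
  refine tendsto_integral_filter_of_dominated_convergence (fun z => ‖F z‖)
    (Eventually.of_forall fun δ =>
      ((contDiff_chi δ).continuous.pow n).aestronglyMeasurable.mul hF.1)
    (Eventually.of_forall fun δ => Eventually.of_forall fun z => ?_) hF.norm ?_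
  · rw [norm_mul, norm_pow, Real.norm_eq_abs]
    exact mul_le_of_le_one_left (norm_nonneg _) (pow_le_one₀ (abs_nonneg _) (abs_chi_le δ z))
  · filter_upwards [ae_restrict_mem measurableSet_DD] with z hz
    refine tendsto_const_nhds.congr' ?_
    filter_upwards [eventually_chi_eq_one hz] with δ hδ
    simp [hδ]

lemma volume_DD_lt_top : volume DD < ⊤ := measure_ball_lt_top

instance : IsFiniteMeasure (volume.restrict DD) := isFiniteMeasure_restrict.2 volume_DD_lt_top.ne

end Vale.Agent.P071
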