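import Vale.Agent.P071.Transport

/-! Strict Dirichlet bound by plane waves. -/

open MeasureTheory Set Metric Filter Topology
open scoped ENNReal

namespace Vale.Agent.P071

namespace DPplus

theorem int_gdot {U : Set ℂ} {a b : ℂ → ℝ} (ha : Adm U a) (hb : Adm U b) :
    IntegrableOn (gdot a b) U := by
  refine (ha.2.2.add hb.2.2).mono' measurable_gdot.aestronglyMeasurable
    (Eventually.of_forall fun x => ?_)
  have := Patch.gdot_le a b x
  rw [Real.norm_eq_abs, Pi.add_apply]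
  linarith [abs_nonneg (gdot a b x)]

theorem int_mul {U : Set ℂ} (hU : IsOpen U) {g a : ℂ → ℝ} (hg : IntegrableOn g U)
    (ha : Adm U a) : IntegrableOn (fun z => g z * a z) U := by
  obtain ⟨A, hA⟩ := ha.2.1
  refine hg.mul_bdd (c := A) (ha.1.continuousOn.aestronglyMeasurable hU.measurableSet) ?_
  filter_upwards [self_mem_ae_restrict hU.measurableSet] with x hx using hA x hx

theorem EE_eq {ρ : ℂ → ℝ} (hρ : IntegrableOn ρ DD) (μ : ℝ) {a b : ℂ → ℝ} (ha : Adm DD a)
    (hb : Adm DD b) :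
    EE ρ μ a b = (∫ z in DD, gdot a b z) - μ * ∫ z in DD, ρ z * a z * b z := by
  rw [EE, ← integral_const_mul, ← integral_sub (int_gdot ha hb)
    ((int_mul isOpen_ball (int_mul isOpen_ball hρ ha) hb).const_mul μ)]
  simp only [mul_assoc]

theorem EE_nonneg {ρ : ℂ → ℝ} (hρ : IntegrableOn ρ DD) {μ : ℝ} (h : NP ρ μ) {a : ℂ → ℝ}
    (ha : Adm DD a) (h0 : ∫ z in DD, ρ z * a z = 0) : 0 ≤ EE ρ μ a a := by
  have := h a ha
  rw [h0] at this
  rw [EE_eq hρ μ ha ha]
  simp only [mul_assoc, ← sq]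
  simp only [ne_eq, OfNat.ofNat_ne_zero, not_false_eq_true, zero_pow, zero_div, sub_zero] at this
  linarith

theorem gdot_comb {a b : ℂ → ℝ} {z : ℂ} (ha : DifferentiableAt ℝ a z)
    (hb : DifferentiableAt ℝ b z) (c : ℝ) :
    gdot (fun x => a x + c * b x) (fun x => a x + c * b x) z =
      gdot a a z + 2 * c * gdot b a z + c ^ 2 * gdot b b z := by
  simp only [gdot, d1_eq, d2_eq, dd_add ha (hb.const_mul c), dd_const_mul]
  ring

theorem abstract {ρ : ℂ → ℝ} (hρ : IntegrableOn ρ DD) {μ : ℝ} (h : NP ρ μ) {G : ℂ → ℝ}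
    (hG : Adm DD G) (hG2 : ContDiffOn ℝ oo G DD) (hl : ∀ z ∈ DD, lap G z = -μ * ρ z * G z)
    (hQ : EE ρ μ G G < 0) :
    ∃ c > 0, ∀ ψ, Test DD ψ → c * (∫ z in DD, ρ z * ψ z) ^ 2 ≤ EE ρ μ ψ ψ := by
  set s := ∫ z in DD, ρ z * G z with hs
  have hs0 : s ≠ 0 := fun h0 => absurd (EE_nonneg hρ h hG h0) (not_le.mpr hQ)
  refine ⟨-EE ρ μ G G / s ^ 2, div_pos (neg_pos.mpr hQ) (by positivity), fun ψ hψ => ?_⟩
  have hψa := hψ.adm isOpen_ball
  set c := -(∫ z in DD, ρ z * ψ z) / s with hc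
  have hgd : ∀ z ∈ DD, gdot (fun x => ψ x + c * G x) (fun x => ψ x + c * G x) z =
      gdot ψ ψ z + 2 * c * gdot G ψ z + c ^ 2 * gdot G G z := fun z hz =>
    gdot_comb (hψ.diffAt z) (Transport.adm_diff isOpen_ball hG.1 hz) c
  have i1 := (hψa.2.2.add ((int_gdot hG hψa).const_mul (2 * c))).add (hG.2.2.const_mul (c ^ 2))
  have ha : Adm DD fun x => ψ x + c * G x := by
    obtain ⟨A, hA⟩ := hψa.2.1
    obtain ⟨B, hB⟩ := hG.2.1
    refine ⟨hψa.1.add (contDiffOn_const.mul hG.1), ⟨A + |c| * B, fun z hz => ?_⟩,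
      IntegrableOn.congr_fun i1 (fun z hz => (hgd z hz).symm) measurableSet_ball⟩
    refine (abs_add_le _ _).trans (add_le_add (hA z hz) ?_)
    rw [abs_mul]
    exact mul_le_mul_of_nonneg_left (hB z hz) (abs_nonneg _)
  have h0 : ∫ z in DD, ρ z * (ψ z + c * G z) = 0 := by
    simp only [mul_add, mul_left_comm (ρ _) c]
    rw [integral_add (int_mul isOpen_ball hρ hψa) ((int_mul isOpen_ball hρ hG).const_mul c),
      integral_const_mul, ← hs, hc]
    field_simp
    ring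
  have h1 := EE_nonneg hρ h ha h0
  have h2 : EE ρ μ G ψ = 0 := by
    rw [EE_eq hρ μ hG hψa, green1 isOpen_ball (hG2.of_le two_le_oo) hψ, ← integral_const_mul,
      ← integral_neg, sub_eq_zero]
    refine setIntegral_congr_fun measurableSet_ball fun z hz => ?_
    simp only [hl z hz]
    ring
  have j : ∀ {a b : ℂ → ℝ}, Adm DD a → Adm DD b →
      IntegrableOn (fun z => gdot a b z - μ * ρ z * a z * b z) DD := fun ha hb => by
    have := (int_gdot ha hb).sub ((int_mul isOpen_ball (int_mul isOpen_ball hρ ha) hb).const_mul μ)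
    refine this.congr_fun (fun z _ => ?_) measurableSet_ball
    simp only [Pi.sub_apply, mul_assoc]
  have h3 : EE ρ μ (fun x => ψ x + c * G x) (fun x => ψ x + c * G x) =
      EE ρ μ ψ ψ + 2 * c * EE ρ μ G ψ + c ^ 2 * EE ρ μ G G := by
    simp only [EE]
    rw [← integral_const_mul, ← integral_const_mul,
      ← integral_add' (j hψa hψa) ((j hG hψa).const_mul _),
      ← integral_add' ((j hψa hψa).add ((j hG hψa).const_mul _)) ((j hG hG).const_mul _)]
    refine setIntegral_congr_fun measurableSet_ball fun z hz => ?_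
    simp only [hgd z hz, Pi.add_apply]
    ring
  rw [h3, h2] at h1
  have h4 : -EE ρ μ G G / s ^ 2 * (∫ z in DD, ρ z * ψ z) ^ 2 = -(c ^ 2 * EE ρ μ G G) := by
    rw [hc]
    field_simp
  rw [h4]
  linarith

/-- Plane waves. -/
noncomputable def wave (a b t : ℝ) (c s : ℝ → ℝ) (z : ℂ) : ℝ := c (a * z.re + t) * s (b * z.im)

theorem dd_wave {a b t : ℝ} {c s c' s' : ℝ → ℝ} (hc : ∀ x, HasDerivAt c (c' x) x)
    (hs : ∀ x, HasDerivAt s (s' x) x) :
    d1 (wave a b t c s) = (fun z => a * wave a b t c' s z) ∧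
      d2 (wave a b t c s) = fun z => b * wave a b t c s' z := by
  have key : ∀ v z : ℂ, dd v (wave a b t c s) z =
      v.re * (a * wave a b t c' s z) + v.im * (b * wave a b t c s' z) := by
    intro v z
    have h1 : HasFDerivAt (fun z : ℂ => a * z.re + t) (a • Complex.reCLM) z :=
      (Complex.reCLM.hasFDerivAt.const_mul a).add_const t
    have h2 : HasFDerivAt (fun z : ℂ => b * z.im) (b • Complex.imCLM) z :=
      Complex.imCLM.hasFDerivAt.const_mul b
    have h3 := (((hc _).comp_hasFDerivAt z h1).mul ((hs _).comp_hasFDerivAt z h2)).fderiv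
    have h4 : wave a b t c s = (c ∘ fun z : ℂ => a * z.re + t) * s ∘ fun z : ℂ => b * z.im := rfl
    rw [dd, h4, h3]
    simp [wave]
    ring
  constructor
  · funext z
    rw [d1_eq, key]
    simp
  · funext z
    rw [d2_eq, key]
    simp

theorem wave_facts (a b t : ℝ) (z : ℂ) :
    lap (wave a b t Real.cos Real.cos) z = -(a ^ 2 + b ^ 2) * wave a b t Real.cos Real.cos z ∧
      gdot (wave a b t Real.cos Real.cos) (wave a b t Real.cos Real.cos) z =
        (a * Real.sin (a * z.re + t) * Real.cos (b * z.im)) ^ 2 +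
          (b * Real.cos (a * z.re + t) * Real.sin (b * z.im)) ^ 2 := by
  have hc := Real.hasDerivAt_cos
  have hs : ∀ x, HasDerivAt (fun x => -Real.sin x) (-Real.cos x) x := fun x =>
    (Real.hasDerivAt_sin x).neg
  obtain ⟨e1, e2⟩ := dd_wave (a := a) (b := b) (t := t) hc hc
  constructor
  · rw [lap, e1, e2, d1_eq, d2_eq, dd_const_mul, dd_const_mul, ← d1_eq, ← d2_eq,
      (dd_wave hs hc).1, (dd_wave hc hs).2]
    simp only [wave]
    ring
  · rw [gdot, e1, e2]
    simp only [wave]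
    ring

theorem wave_smooth (a b t : ℝ) : ContDiff ℝ oo (wave a b t Real.cos Real.cos) :=
  (Real.contDiff_cos.comp ((contDiff_const.mul Complex.reCLM.contDiff).add contDiff_const)).mul
    (Real.contDiff_cos.comp (contDiff_const.mul Complex.imCLM.contDiff))

theorem int_cont {Ω : Set ℂ} (hb : Bornology.IsBounded Ω) {g : ℂ → ℝ} (hg : Continuous g) :
    IntegrableOn g Ω :=
  (hg.continuousOn.integrableOn_compact hb.isCompact_closure).mono_set subset_closure

theorem wave_cont (a b t : ℝ) :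
    Continuous (gdot (wave a b t Real.cos Real.cos) (wave a b t Real.cos Real.cos)) :=
  continuousOn_univ.mp (continuousOn_gdot isOpen_univ
    ((wave_smooth a b t).of_le one_le_oo).contDiffOn
    ((wave_smooth a b t).of_le one_le_oo).contDiffOn)

theorem wave_adm {Ω : Set ℂ} (hb : Bornology.IsBounded Ω) (a b t : ℝ) :
    Adm Ω (wave a b t Real.cos Real.cos) := by
  refine ⟨((wave_smooth a b t).of_le one_le_oo).contDiffOn, ⟨1, fun z _ => ?_⟩,
    int_cont hb (wave_cont a b t)⟩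
  rw [wave, abs_mul]
  exact mul_le_one₀ (Real.abs_cos_le_one _) (abs_nonneg _) (Real.abs_cos_le_one _)

theorem sum_aux {a b S C s c : ℝ} (h1 : S ^ 2 + C ^ 2 = 1) (h2 : s ^ 2 + c ^ 2 = 1)
    (h3 : s ^ 2 ≤ 1 / 4) :
    ((a * S * c) ^ 2 + (b * C * s) ^ 2 - (a ^ 2 + b ^ 2) * (C * c) ^ 2) +
      ((a * C * c) ^ 2 + (b * -S * s) ^ 2 - (a ^ 2 + b ^ 2) * (-S * c) ^ 2) ≤ -(b ^ 2 / 2) := by
  have e : ((a * S * c) ^ 2 + (b * C * s) ^ 2 - (a ^ 2 + b ^ 2) * (C * c) ^ 2) +
      ((a * C * c) ^ 2 + (b * -S * s) ^ 2 - (a ^ 2 + b ^ 2) * (-S * c) ^ 2)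
      = (S ^ 2 + C ^ 2) * (b ^ 2 * (s ^ 2 - c ^ 2)) := by ring
  rw [e, h1]
  nlinarith [sq_nonneg b]

theorem exists_wave {Ω : Set ℂ} (ho : IsOpen Ω) (hne : Ω.Nonempty) (hb : Bornology.IsBounded Ω)
    {μ : ℝ} (hμ : 0 < μ) : ∃ H : ℂ → ℝ, ContDiff ℝ oo H ∧ Adm Ω H ∧ (∀ z, lap H z = -μ * H z) ∧
      ∫ z in Ω, (gdot H H z - μ * H z ^ 2) < 0 := by
  obtain ⟨R, hR, hsub⟩ := hb.subset_ball_lt 0 0
  set b := min √μ (1 / (2 * R)) with hbdef
  have hb0 : 0 < b := lt_min (Real.sqrt_pos.mpr hμ) (by positivity)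
  have hb1 : b ^ 2 ≤ μ := (pow_le_pow_left₀ hb0.le (min_le_left _ _) 2).trans_eq (Real.sq_sqrt hμ.le)
  have hb2 : b * R ≤ 1 / 2 := by
    have : b ≤ 1 / (2 * R) := min_le_right _ _
    rw [le_div_iff₀ (by positivity)] at this
    linarith
  set a := √(μ - b ^ 2) with ha
  have hab : a ^ 2 + b ^ 2 = μ := by
    rw [ha, Real.sq_sqrt (by linarith)]
    ring
  have hi : ∀ t, IntegrableOn (fun z => gdot (wave a b t Real.cos Real.cos)
      (wave a b t Real.cos Real.cos) z - μ * wave a b t Real.cos Real.cos z ^ 2) Ω := fun t =>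
    int_cont hb ((wave_cont a b t).sub
      (continuous_const.mul ((wave_smooth a b t).continuous.pow 2)))
  by_contra hcon
  push Not at hcon
  have h1 := fun t => hcon _ (wave_smooth a b t) (wave_adm hb a b t)
    fun z => hab ▸ (wave_facts a b t z).1
  have h2 := add_nonneg (h1 0) (h1 (Real.pi / 2))
  rw [← integral_add (hi _) (hi _)] at h2
  have h3 := setIntegral_mono_on ((hi 0).add (hi (Real.pi / 2)))
    (integrableOn_const (C := -(b ^ 2 / 2)) hb.measure_lt_top.ne) ho.measurableSet ?_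
  · have h4 : 0 < volume.real Ω :=
      ENNReal.toReal_pos (ho.measure_pos volume hne).ne' hb.measure_lt_top.ne
    rw [setIntegral_const, smul_eq_mul] at h3
    have h5 : 0 < volume.real Ω * (b ^ 2 / 2) := by positivity
    have h6 := h2.trans h3
    linarith
  · intro z hz
    simp only [Pi.add_apply, (wave_facts a b _ z).2, wave, add_zero, Real.sin_add_pi_div_two,
      Real.cos_add_pi_div_two, ← hab]
    refine sum_aux (Real.sin_sq_add_cos_sq _) (Real.sin_sq_add_cos_sq _) ?_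
    have k1 : |b * z.im| ≤ 1 / 2 := by
      rw [abs_mul, abs_of_pos hb0]
      refine le_trans (mul_le_mul_of_nonneg_left ?_ hb0.le) hb2
      exact (Complex.abs_im_le_norm z).trans (mem_ball_zero_iff.mp (hsub hz)).le
    have k2 := (Real.abs_sin_le_abs (x := b * z.im)).trans k1
    rw [← sq_abs]
    nlinarith [abs_nonneg (Real.sin (b * z.im))]

end DPplus

open DPplus in
theorem Conf.dp_plus {Ω : Set ℂ} {f φ : ℂ → ℂ} (hc : Conf Ω f φ) (ho : IsOpen Ω)
    (hb : Bornology.IsBounded Ω) {μ : ℝ} (hμ : 0 < μ) (h : NP (fun z => ‖deriv f z‖ ^ 2) μ) :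
    ∃ c > 0, ∀ ψ, Test DD ψ → c * (∫ z in DD, ‖deriv f z‖ ^ 2 * ψ z) ^ 2 ≤
      EE (fun z => ‖deriv f z‖ ^ 2) μ ψ ψ := by
  obtain ⟨H, h1, h2, h3, h4⟩ := exists_wave ho ⟨f 0, hc.mapsf (mem_ball_self one_pos)⟩ hb hμ
  obtain ⟨h5, h6⟩ := hc.lap_comp ho h1.contDiffOn
  refine abstract (hc.wt ho hb).int h (hc.adm_comp ho h2) h5 (fun z hz => ?_) ?_
  · rw [(h6 z hz).1, h3, Function.comp_apply]
    ring
  · rw [hc.integral_eq ho] at h4
    refine lt_of_eq_of_lt (setIntegral_congr_fun measurableSet_ball fun z hz => ?_) h4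
    have := h1.differentiable oo_ne_zero (f z)
    simp only [Transport.gdot_hol (Transport.diffAt hc hz) this this, Function.comp_apply]
    ring

end Vale.Agent.P071
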