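import Mathlib

open MeasureTheory Set
open scoped ContDiff

namespace Vale.Agent.P071

/-- Lipschitz boundary: near every boundary point, after a rotation `z ↦ e * z`, the set is the
region above the graph of a Lipschitz function. -/
def IsLipschitzDomain (Ω : Set ℂ) : Prop :=
  ∀ p ∈ frontier Ω, ∃ r : ℝ, 0 < r ∧ ∃ e : ℂ, ‖e‖ = 1 ∧ ∃ (K : NNReal) (γ : ℝ → ℝ),
    LipschitzWith K γ ∧ ∀ z ∈ Metric.ball p r, (z ∈ Ω ↔ γ (e * z).re < (e * z).im)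

/-- `v ∈ H¹(Ω)` with weak gradient `(g₁, g₂)`. -/
def IsH1 (Ω : Set ℂ) (v g₁ g₂ : ℂ → ℝ) : Prop :=
  MemLp v 2 (volume.restrict Ω) ∧ MemLp g₁ 2 (volume.restrict Ω) ∧
    MemLp g₂ 2 (volume.restrict Ω) ∧
    ∀ ψ : ℂ → ℝ, ContDiff ℝ ∞ ψ → HasCompactSupport ψ → tsupport ψ ⊆ Ω →
      ∫ z in Ω, v z * fderiv ℝ ψ z 1 = -∫ z in Ω, g₁ z * ψ z ∧
      ∫ z in Ω, v z * fderiv ℝ ψ z Complex.I = -∫ z in Ω, g₂ z * ψ z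

/-- The first positive Neumann eigenvalue, as the infimum of Rayleigh quotients. -/
noncomputable def mu1 (Ω : Set ℂ) : ℝ :=
  sInf {R : ℝ | ∃ v g₁ g₂ : ℂ → ℝ, IsH1 Ω v g₁ g₂ ∧ ¬ v =ᵐ[volume.restrict Ω] 0 ∧
    ∫ z in Ω, v z = 0 ∧ R = (∫ z in Ω, (g₁ z ^ 2 + g₂ z ^ 2)) / ∫ z in Ω, v z ^ 2}

/-- Weak solutions of `-Δ u = μ₁ u` in `Ω` with `∂_ν u = 0` on the boundary. -/
def IsEigenfunction (Ω : Set ℂ) (u : ℂ → ℝ) : Prop :=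
  ∃ g₁ g₂ : ℂ → ℝ, IsH1 Ω u g₁ g₂ ∧ ∀ v h₁ h₂ : ℂ → ℝ, IsH1 Ω v h₁ h₂ →
    ∫ z in Ω, (g₁ z * h₁ z + g₂ z * h₂ z) = mu1 Ω * ∫ z in Ω, u z * v z

end Vale.Agent.P071
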