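import Vale.Agent.P071.Patch

/-! Energy of the Riemann map near a Lipschitz boundary. -/

open MeasureTheory Set Metric Filter Topology
open scoped ENNReal ComplexConjugate

namespace Vale.Agent.P071

namespace Dirichlet

open Patch

theorem int_smul {c : ℂ → ℝ} (hc : Continuous c) {K U : Set ℂ} (hK : IsCompact K) (hKU : K ⊆ U)
    (hs : Function.support c ⊆ K) {Q : ℂ → ℂ} (hQ : ContinuousOn Q U) :
    Integrable fun x => c x • Q x := by
  refine (integrableOn_iff_integrable_of_support_subset (s := K) fun x hx => hs fun h => ?_).mp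
    ((hc.continuousOn.smul (hQ.mono hKU)).integrableOn_compact hK)
  exact hx (by simp [h])

theorem fderiv_hol {q : ℂ → ℂ} {x : ℂ} (hq : DifferentiableAt ℂ q x) (v : ℂ) :
    fderiv ℝ q x v = v * deriv q x := by
  rw [(hq.hasDerivAt.hasFDerivAt.restrictScalars ℝ).fderiv]
  simp

/-- Weak form of the Cauchy-Riemann equations. -/
theorem weak {U : Set ℂ} (hU : IsOpen U) {q : ℂ → ℂ} (hq : DifferentiableOn ℂ q U) {ψ : ℂ → ℝ}
    (hψ : ContDiff ℝ 1 ψ) {K : Set ℂ} (hK : IsCompact K) (hKU : K ⊆ U)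
    (hs : Function.support ψ ⊆ K) :
    Integrable (fun x => d1 ψ x * (q x).re - d2 ψ x * (q x).im) ∧
      (∀ x ∉ K, d1 ψ x * (q x).re - d2 ψ x * (q x).im = 0) ∧
      ∫ x, (d1 ψ x * (q x).re - d2 ψ x * (q x).im) = 0 := by
  have hts : tsupport ψ ⊆ K := closure_minimal hs hK.isClosed
  have hqa : ∀ x ∈ U, DifferentiableAt ℂ q x := fun x hx => hq.differentiableAt (hU.mem_nhds hx)
  have hsd : ∀ v, Function.support (fun x => fderiv ℝ ψ x v) ⊆ K := fun v x hx => by
    refine hts (support_fderiv_subset ℝ fun h => hx ?_)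
    simp [h]
  have i1 : ∀ v, Integrable fun x => fderiv ℝ ψ x v • q x := fun v =>
    int_smul ((hψ.continuous_fderiv one_ne_zero).clm_apply continuous_const) hK hKU (hsd v)
      hq.continuousOn
  have i2 : ∀ v, Integrable fun x => ψ x • fderiv ℝ q x v := fun v =>
    int_smul hψ.continuous hK hKU hs
      ((continuousOn_const.mul (hq.deriv hU).continuousOn).congr
        fun x hx => fderiv_hol (hqa x hx) v)
  have e := fun v => integral_smul_fderiv_eq_neg_fderiv_smul_of_integrable (i1 v) (i2 v)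
    (int_smul hψ.continuous hK hKU hs hq.continuousOn)
    (fun x _ => hψ.differentiable one_ne_zero x)
    (fun x hx => (hqa x (hKU (hts hx))).restrictScalars ℝ)
  have e2 : ∫ x, ψ x • fderiv ℝ q x Complex.I = Complex.I * ∫ x, ψ x • fderiv ℝ q x 1 := by
    rw [← integral_const_mul]
    refine integral_congr_ae (Eventually.of_forall fun x => ?_)
    by_cases hx : ψ x = 0
    · simp [hx]
    · have := hqa x (hKU (hs hx))
      simp only [fderiv_hol this, Complex.real_smul]
      ring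
  rw [e, e, mul_neg, neg_inj] at e2
  have e3 := congrArg Complex.im e2
  have j1 : Integrable fun x => d1 ψ x * (q x).re := by
    simpa [d1] using (i1 1).re
  have j2 : Integrable fun x => d2 ψ x * (q x).im := by
    simpa [d2] using (i1 Complex.I).im
  refine ⟨j1.sub j2, fun x hx => ?_, ?_⟩
  · have h1 : fderiv ℝ ψ x 1 = 0 := by
      by_contra h
      exact hx (hsd 1 h)
    have h2 : fderiv ℝ ψ x Complex.I = 0 := by
      by_contra h
      exact hx (hsd _ h)
    simp [d1, d2, h1, h2]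
  · have k1 := integral_re (i1 1)
    have k2 := integral_im (i1 Complex.I)
    simp only [RCLike.re_to_complex, RCLike.im_to_complex, Complex.smul_re, Complex.smul_im,
      smul_eq_mul] at k1 k2
    rw [integral_sub j1 j2]
    simp only [d1, d2]
    rw [k1, k2, e3]
    simp

/-- Admissible cut-off profiles. -/
structure Prof (lam : ℝ → ℝ) (t : ℝ) : Prop where
  cont : Continuous lam
  nn : ∀ s, 0 ≤ lam s
  le : ∀ s, lam s ≤ 1
  t0 : 0 ≤ t
  t1 : t < 1
  zero : ∀ s, t ^ 2 ≤ s → lam s = 0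

theorem Prof.exists_prim {lam : ℝ → ℝ} {t : ℝ} (h : Prof lam t) :
    ∃ k : ℝ → ℝ, ContDiff ℝ 1 k ∧ (∀ s, t ^ 2 ≤ s → k s = 0) ∧
      ∀ s, 1 / 4 ≤ s → HasDerivAt k (-(lam s / (2 * s))) s := by
  set w : ℝ → ℝ := fun s => -(lam s / (2 * max s (1 / 4))) with hw
  have hwc : Continuous w := by
    refine (h.cont.div (by fun_prop) fun s => ?_).neg
    have := le_max_right s (1 / 4)
    positivity
  have hd : ∀ s, HasDerivAt (fun s => ∫ σ in (1 : ℝ)..s, w σ) (w s) s := fun s =>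
    (hwc.integral_hasStrictDerivAt 1 s).hasDerivAt
  refine ⟨fun s => ∫ σ in (1 : ℝ)..s, w σ, ?_, fun s hs => ?_, fun s hs => ?_⟩
  · rw [contDiff_one_iff_deriv]
    refine ⟨fun s => (hd s).differentiableAt, ?_⟩
    rwa [funext fun s => (hd s).deriv]
  · change ∫ σ in (1 : ℝ)..s, w σ = 0
    rw [intervalIntegral.integral_congr (g := fun _ => (0 : ℝ))]
    · simp
    · intro σ hσ
      have h1 : t ^ 2 ≤ 1 := pow_le_one₀ h.t0 h.t1.le
      have h2 : t ^ 2 ≤ σ := (le_min h1 hs).trans hσ.1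
      simp [hw, h.zero σ h2]
  · have := hd s
    simp only [hw, max_eq_left hs] at this
    exact this

variable {Ω : Set ℂ} {f φ : ℂ → ℂ}

theorem compact_image (hc : Conf Ω f φ) {t : ℝ} (ht : t < 1) :
    IsCompact (f '' closedBall 0 t) :=
  (isCompact_closedBall _ _).image_of_continuousOn
    (hc.hf.continuousOn.mono (closedBall_subset_ball ht))

theorem image_subset (hc : Conf Ω f φ) {t : ℝ} (ht : t < 1) : f '' closedBall 0 t ⊆ Ω := by
  rintro _ ⟨w, hw, rfl⟩
  exact hc.mapsf (closedBall_subset_ball ht hw)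

theorem lt_norm (hc : Conf Ω f φ) {t : ℝ} {x : ℂ} (hx : x ∈ Ω) (h : x ∉ f '' closedBall 0 t) :
    t < ‖φ x‖ := by
  by_contra hcon
  exact h ⟨φ x, mem_closedBall_zero_iff.mpr (not_lt.mp hcon), hc.right x hx⟩

theorem fd_aux {a b w : ℂ} (ha : a ≠ 0) (l : ℝ) :
    -(l / (2 * ‖a‖ ^ 2)) * (2 * (w * b * conj a).re) = -l * (b / a * w).re := by
  have h1 : (0 : ℝ) < ‖a‖ ^ 2 := by positivity
  have h2 : b / a * w = ((‖a‖ ^ 2)⁻¹ : ℝ) * (w * b * conj a) := by
    rw [div_eq_mul_inv, Complex.inv_def, Complex.normSq_eq_norm_sq]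
    ring
  rw [h2, Complex.re_ofReal_mul]
  field_simp

/-- Truncated Green function. -/
theorem exists_trunc (ho : IsOpen Ω) (hc : Conf Ω f φ) {lam : ℝ → ℝ} {t : ℝ} (h : Prof lam t) :
    ∃ a : ℂ → ℝ, ContDiff ℝ 1 a ∧ Function.support a ⊆ f '' closedBall 0 t ∧
      ∀ x ∈ Ω, 1 / 2 < ‖φ x‖ → ∀ w,
        fderiv ℝ a x w = -lam (‖φ x‖ ^ 2) * (deriv φ x / φ x * w).re := by
  obtain ⟨k, hk, hk0, hkd⟩ := h.exists_prim
  have hev : ∀ x ∈ Ω, indicator Ω (fun x => k (‖φ x‖ ^ 2)) =ᶠ[𝓝 x] fun x => k (‖φ x‖ ^ 2) := by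
    intro x hx
    filter_upwards [ho.mem_nhds hx] with y hy using indicator_of_mem hy _
  have hs : Function.support (indicator Ω fun x => k (‖φ x‖ ^ 2)) ⊆ f '' closedBall 0 t := by
    intro x hx
    rw [support_indicator] at hx
    by_contra hcon
    exact hx.2 (hk0 _ (pow_le_pow_left₀ h.t0 (lt_norm hc hx.1 hcon).le 2))
  refine ⟨_, contDiff_iff_contDiffAt.mpr fun x => ?_, hs, fun x hx hx2 w => ?_⟩
  · by_cases hx : x ∈ Ω
    · refine ContDiffAt.congr_of_eventuallyEq ?_ (hev x hx)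
      have h1 : ContDiffAt ℝ 1 φ x :=
        (hc.hφ.analyticAt (ho.mem_nhds hx)).contDiffAt.restrict_scalars ℝ
      exact hk.contDiffAt.comp x (h1.norm_sq ℝ)
    · refine (contDiffAt_const (c := 0)).congr_of_eventuallyEq ?_
      have h1 : (f '' closedBall 0 t)ᶜ ∈ 𝓝 x :=
        (compact_image hc h.t1).isClosed.isOpen_compl.mem_nhds fun h2 =>
          hx (image_subset hc h.t1 h2)
      filter_upwards [h1] with y hy
      by_contra h2
      exact hy (hs h2)
  · have h1 := ((hc.hφ.differentiableAt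
      (ho.mem_nhds hx)).hasDerivAt.hasFDerivAt.restrictScalars ℝ).norm_sq
    have h2 := (hkd (‖φ x‖ ^ 2) (by nlinarith)).comp_hasFDerivAt x h1
    rw [(hev x hx).fderiv_eq, show (fun x => k (‖φ x‖ ^ 2)) = k ∘ fun x => ‖φ x‖ ^ 2 from rfl,
      h2.fderiv, ← fd_aux (norm_pos_iff.mp (by linarith))]
    simp only [smul_apply, ContinuousLinearMap.comp_apply, innerSL_apply_apply,
      Complex.inner, ContinuousLinearMap.coe_restrictScalars',
      ContinuousLinearMap.toSpanSingleton_apply, smul_eq_mul, nsmul_eq_mul, Nat.cast_ofNat]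

theorem integrable_deriv (ho : IsOpen Ω) (hc : Conf Ω f φ) :
    IntegrableOn (fun x => ‖deriv φ x‖ ^ 2) Ω := by
  have hf' := fun x (hx : x ∈ Ω) => ((hc.hφ.differentiableAt
    (ho.mem_nhds hx)).hasDerivAt.hasFDerivAt.restrictScalars ℝ).hasFDerivWithinAt (s := Ω)
  have hinj : InjOn φ Ω := fun x hx y hy hxy => by rw [← hc.right x hx, hxy, hc.right y hy]
  have h1 := (integrableOn_image_iff_integrableOn_abs_det_fderiv_smul volume ho.measurableSet hf'
    hinj (fun _ => (1 : ℝ))).mp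
    (integrableOn_const ((measure_mono hc.mapsφ.image_subset).trans_lt measure_ball_lt_top).ne)
  refine h1.congr_fun (fun x _ => ?_) ho.measurableSet
  have h2 : ‖deriv φ x‖ ^ 2 = (deriv φ x).re ^ 2 + (deriv φ x).im ^ 2 := by
    rw [Complex.sq_norm, Complex.normSq_apply]
    ring
  simp only [det_eq, h2]
  simp only [ContinuousLinearMap.coe_restrictScalars', ContinuousLinearMap.toSpanSingleton_apply,
    smul_eq_mul, one_mul, mul_one, Complex.mul_re, Complex.mul_im, Complex.I_re, Complex.I_im,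
    zero_mul, zero_sub, zero_add]
  rw [abs_of_nonneg (by nlinarith)]
  ring

/-- The outer part of the domain. -/
def Out (Ω : Set ℂ) (φ : ℂ → ℂ) : Set ℂ := Ω ∩ φ ⁻¹' (closedBall 0 (1 / 2))ᶜ

theorem mem_Out {x : ℂ} : x ∈ Out Ω φ ↔ x ∈ Ω ∧ 1 / 2 < ‖φ x‖ := by
  simp [Out]

theorem isOpen_Out (ho : IsOpen Ω) (hc : Conf Ω f φ) : IsOpen (Out Ω φ) :=
  hc.hφ.continuousOn.isOpen_inter_preimage ho isClosed_closedBall.isOpen_compl

theorem diff_q (ho : IsOpen Ω) (hc : Conf Ω f φ) :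
    DifferentiableOn ℂ (fun x => deriv φ x / φ x) (Out Ω φ) :=
  ((hc.hφ.deriv ho).mono inter_subset_left).div (hc.hφ.mono inter_subset_left)
    fun x hx => norm_pos_iff.mp (by linarith [(mem_Out.mp hx).2])

theorem integrable_q (ho : IsOpen Ω) (hc : Conf Ω f φ) :
    IntegrableOn (fun x => ‖deriv φ x / φ x‖ ^ 2) (Out Ω φ) := by
  have hm := (isOpen_Out ho hc).measurableSet
  refine (((integrable_deriv ho hc).mono_set inter_subset_left).const_mul 4).mono'
    (((diff_q ho hc).continuousOn.norm.pow 2).aestronglyMeasurable hm) ?_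
  filter_upwards [self_mem_ae_restrict hm] with x hx
  have h1 := (mem_Out.mp hx).2
  rw [Real.norm_of_nonneg (by positivity), norm_div, div_pow, div_le_iff₀ (by positivity)]
  have h2 : 1 / 4 ≤ ‖φ x‖ ^ 2 := by nlinarith
  nlinarith [sq_nonneg ‖deriv φ x‖]

theorem sq_norm_eq (q : ℂ) : ‖q‖ ^ 2 = q.re ^ 2 + q.im ^ 2 := by
  rw [Complex.sq_norm, Complex.normSq_apply]
  ring

theorem trunc_energy (ho : IsOpen Ω) (hc : Conf Ω f φ) {lam : ℝ → ℝ} {t : ℝ} (h : Prof lam t)
    {a : ℂ → ℝ} (ha : ContDiff ℝ 1 a) (hs : Function.support a ⊆ f '' closedBall 0 t)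
    (hd : ∀ x ∈ Ω, 1 / 2 < ‖φ x‖ → ∀ w,
      fderiv ℝ a x w = -lam (‖φ x‖ ^ 2) * (deriv φ x / φ x * w).re) :
    (∀ x ∉ Ω, fderiv ℝ a x = 0) ∧ Integrable (gdot a a) ∧
      ∫ x in (f '' closedBall 0 (1 / 2))ᶜ, gdot a a x ≤
        ∫ x in Out Ω φ, ‖deriv φ x / φ x‖ ^ 2 := by
  have hK := compact_image hc h.t1
  have hz : ∀ x ∉ f '' closedBall 0 t, fderiv ℝ a x = 0 := by
    intro x hx
    by_contra hcon
    exact hx (closure_minimal hs hK.isClosed (support_fderiv_subset ℝ hcon))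
  have hz' : ∀ x ∉ Ω, fderiv ℝ a x = 0 := fun x hx => hz x fun h2 => hx (image_subset hc h.t1 h2)
  have hcont : Continuous (gdot a a) := by
    have := ha.continuous_fderiv one_ne_zero
    unfold gdot d1 d2
    fun_prop
  have hi : Integrable (gdot a a) := by
    refine hcont.integrable_of_hasCompactSupport (HasCompactSupport.intro hK fun x hx => ?_)
    simp [gdot, d1, d2, hz x hx]
  have hm := (isOpen_Out ho hc).measurableSet
  refine ⟨hz', hi, ?_⟩
  rw [setIntegral_eq_of_subset_of_forall_sdiff_eq_zero (s := Out Ω φ)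
    (compact_image hc (by norm_num)).measurableSet.compl]
  · refine setIntegral_mono_on hi.integrableOn (integrable_q ho hc) hm fun x hx => ?_
    obtain ⟨hx1, hx2⟩ := mem_Out.mp hx
    simp only [gdot, d1, d2, hd x hx1 hx2, sq_norm_eq, mul_one, Complex.mul_re, Complex.I_re,
      Complex.I_im, mul_zero, zero_sub]
    have h1 : lam ((φ x).re ^ 2 + (φ x).im ^ 2) ^ 2 ≤ 1 := pow_le_one₀ (h.nn _) (h.le _)
    nlinarith [sq_nonneg (deriv φ x / φ x).re, sq_nonneg (deriv φ x / φ x).im]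
  · rintro x hx ⟨w, hw, rfl⟩
    obtain ⟨-, hx2⟩ := mem_Out.mp hx
    rw [hc.left w (closedBall_subset_ball (by norm_num) hw)] at hx2
    exact absurd (mem_closedBall_zero_iff.mp hw) (not_le.mpr hx2)
  · intro x hx
    have : x ∉ Ω := fun h1 => hx.2 (mem_Out.mpr ⟨h1, lt_norm hc h1 hx.1⟩)
    simp [gdot, d1, d2, hz' x this]

theorem step (ho : IsOpen Ω) (hc : Conf Ω f φ) {lam : ℝ → ℝ} {t : ℝ} (h : Prof lam t)
    {χ : ℂ → ℝ} {n : ℂ} {L τ : ℝ} (hχ : Cut χ n L) (hτ : |τ| * L ≤ 1 / 2) {p : ℂ} {R : ℝ}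
    (hR : closedBall p R ⊆ (f '' closedBall 0 (1 / 2))ᶜ) (hχ0 : ∀ x ∉ ball p R, χ x = 0)
    (hdown : ∀ x ∉ Ω, TT χ n τ x ∉ Ω) {A : Set ℂ} (hAm : MeasurableSet A) (hA : A ⊆ Out Ω φ)
    (hAo : ∀ x ∈ A, TT χ n τ x ∉ Ω) :
    ∫ x in A, ‖deriv φ x / φ x‖ ^ 2 ≤
      (2 + 12 * (|τ| * L)) * (∫ x in Out Ω φ, ‖deriv φ x / φ x‖ ^ 2) -
        2 * ∫ x in Out Ω φ, lam (‖φ x‖ ^ 2) * ‖deriv φ x / φ x‖ ^ 2 := by
  obtain ⟨a, ha, hs, hd⟩ := exists_trunc ho hc h
  obtain ⟨hz, hi, hE⟩ := trunc_energy ho hc h ha hs hd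
  have hO := isOpen_Out ho hc
  have hm := hO.measurableSet
  have hfix : ∀ x ∉ ball p R, TT χ n τ x = x := fun x hx => by simp [TT, hχ0 x hx]
  have hmaps : MapsTo (TT χ n τ) (Out Ω φ) (f '' closedBall 0 (1 / 2))ᶜ := by
    intro x hx hK
    have h1 := hfix _ fun h2 => hR (ball_subset_closedBall h2) hK
    rw [hχ.injective hτ h1] at hK
    obtain ⟨w, hw, rfl⟩ := hK
    have hx2 := (mem_Out.mp hx).2
    rw [hc.left w (closedBall_subset_ball (by norm_num) hw)] at hx2
    exact absurd (mem_closedBall_zero_iff.mp hw) (not_le.mpr hx2)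
  have had := ha.differentiable one_ne_zero
  obtain ⟨e1, e2⟩ := hχ.energy hτ hm hmaps (fun x _ => had _) hi.integrableOn
  set v := a ∘ TT χ n τ with hv
  have hvd : ContDiff ℝ 1 v := ha.comp (hχ.contDiff τ)
  have hK := compact_image hc h.t1
  set K := (TT χ n τ ⁻¹' (f '' closedBall 0 t) ∪ f '' closedBall 0 t) ∩ closedBall p R with hKdef
  have hKc : IsCompact K := (isCompact_closedBall p R).inter_left
    ((hK.isClosed.preimage (hχ.contDiff τ).continuous).union hK.isClosed)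
  have hKO : K ⊆ Out Ω φ := by
    rintro x ⟨hx, hxR⟩
    have hxΩ : x ∈ Ω := by
      rcases hx with hx | hx
      · by_contra hcon
        exact hdown x hcon (image_subset hc h.t1 hx)
      · exact image_subset hc h.t1 hx
    exact mem_Out.mpr ⟨hxΩ, lt_norm hc hxΩ (hR hxR)⟩
  have hsK : Function.support (fun x => v x - a x) ⊆ K := by
    intro x hx
    refine ⟨?_, ball_subset_closedBall ?_⟩
    · by_contra hcon
      rw [mem_union, not_or] at hcon
      have h1 : v x = 0 := by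
        by_contra h2
        exact hcon.1 (hs h2)
      have h2 : a x = 0 := by
        by_contra h2
        exact hcon.2 (hs h2)
      exact hx (by simp [h1, h2])
    · by_contra hcon
      exact hx (by simp [hv, hfix x hcon])
  obtain ⟨w1, w2, w3⟩ := weak hO (diff_q ho hc) (hvd.sub ha) hKc hKO hsK
  rw [← setIntegral_eq_integral_of_forall_compl_eq_zero (s := Out Ω φ)
    fun x hx => w2 x fun h1 => hx (hKO h1)] at w3
  have hq := integrable_q ho hc
  have hlq : IntegrableOn (fun x => lam (‖φ x‖ ^ 2) * ‖deriv φ x / φ x‖ ^ 2) (Out Ω φ) := by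
    refine hq.bdd_mul (c := 1) ((h.cont.comp_continuousOn
      ((hc.hφ.continuousOn.mono inter_subset_left).norm.pow 2)).aestronglyMeasurable hm)
      (Eventually.of_forall fun x => ?_)
    rw [Real.norm_of_nonneg (h.nn _)]
    exact h.le _
  have key := setIntegral_mono_on (hq.indicator hAm)
    (((hq.add (w1.integrableOn.const_mul 2)).sub (hlq.const_mul 2)).add e1) hm ?_
  · rw [setIntegral_indicator hAm, inter_eq_right.mpr hA,
      integral_add' ((hq.add (w1.integrableOn.const_mul 2)).sub (hlq.const_mul 2)) e1,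
      integral_sub' (hq.add (w1.integrableOn.const_mul 2)) (hlq.const_mul 2),
      integral_add' hq (w1.integrableOn.const_mul 2), integral_const_mul, integral_const_mul,
      w3] at key
    have hL := hχ.L_nonneg
    have := mul_le_mul_of_nonneg_left hE (show 0 ≤ 1 + 12 * (|τ| * L) by positivity)
    linarith
  · intro x hx
    obtain ⟨hx1, hx2⟩ := mem_Out.mp hx
    have hsub : ∀ w, fderiv ℝ (fun x => v x - a x) x w = fderiv ℝ v x w - fderiv ℝ a x w := by
      intro w
      rw [fderiv_fun_sub (hvd.differentiable one_ne_zero x) (had x)]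
      rfl
    simp only [Pi.add_apply, Pi.sub_apply, gdot, d1, d2, hsub, hd x hx1 hx2, sq_norm_eq, mul_one,
      Complex.mul_re, Complex.I_re, Complex.I_im, mul_zero, zero_sub]
    by_cases hxA : x ∈ A
    · rw [indicator_of_mem hxA]
      simp only [hv, hχ.fderiv_comp τ (had _), hz _ (hAo x hxA)]
      simp only [zero_apply]
      linarith
    · rw [indicator_of_notMem hxA]
      nlinarith [sq_nonneg ((deriv φ x / φ x).re + fderiv ℝ v x 1),
        sq_nonneg ((deriv φ x / φ x).im - fderiv ℝ v x Complex.I)]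

/-- A sequence of profiles. -/
noncomputable def lamN (N : ℕ) (s : ℝ) : ℝ := max 0 (min 1 ((N + 1) * (1 - s) - 1))

theorem prof_lamN (N : ℕ) : Prof (lamN N) √(1 - 1 / (N + 1)) := by
  have hN : (0 : ℝ) < N + 1 := by positivity
  have h1 : 1 / ((N : ℝ) + 1) ≤ 1 := by
    rw [div_le_one hN]
    linarith [Nat.cast_nonneg (α := ℝ) N]
  refine ⟨by unfold lamN; fun_prop, fun s => le_max_left _ _,
    fun s => max_le zero_le_one (min_le_left _ _), Real.sqrt_nonneg _, ?_, fun s hs => ?_⟩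
  · rw [Real.sqrt_lt' one_pos]
    have : 0 < 1 / ((N : ℝ) + 1) := by positivity
    linarith
  · rw [Real.sq_sqrt (by linarith)] at hs
    refine max_eq_left (min_le_of_right_le ?_)
    have h2 : 1 - s ≤ 1 / ((N : ℝ) + 1) := by linarith
    rw [le_div_iff₀ hN] at h2
    linarith

theorem tendsto_lamN {s : ℝ} (hs : s < 1) : Tendsto (fun N => lamN N s) atTop (𝓝 1) := by
  refine tendsto_const_nhds.congr' ?_
  filter_upwards [tendsto_natCast_atTop_atTop.eventually_ge_atTop (2 / (1 - s))] with N hN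
  rw [div_le_iff₀ (by linarith)] at hN
  rw [lamN, min_eq_left (by nlinarith), max_eq_right zero_le_one]

theorem tendsto_int (ho : IsOpen Ω) (hc : Conf Ω f φ) :
    Tendsto (fun N => ∫ x in Out Ω φ, lamN N (‖φ x‖ ^ 2) * ‖deriv φ x / φ x‖ ^ 2) atTop
      (𝓝 (∫ x in Out Ω φ, ‖deriv φ x / φ x‖ ^ 2)) := by
  have hm := (isOpen_Out ho hc).measurableSet
  refine tendsto_integral_of_dominated_convergence _ (fun N => ?_) (integrable_q ho hc)
    (fun N => Eventually.of_forall fun x => ?_) ?_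
  · exact (((prof_lamN N).cont.comp_continuousOn
      ((hc.hφ.continuousOn.mono inter_subset_left).norm.pow 2)).mul
        ((diff_q ho hc).continuousOn.norm.pow 2)).aestronglyMeasurable hm
  · rw [Real.norm_of_nonneg (mul_nonneg ((prof_lamN N).nn _) (by positivity))]
    exact mul_le_of_le_one_left (by positivity) ((prof_lamN N).le _)
  · filter_upwards [self_mem_ae_restrict hm] with x hx
    have h1 := mem_ball_zero_iff.mp (hc.mapsφ hx.1)
    have := (tendsto_lamN (s := ‖φ x‖ ^ 2) (by nlinarith [norm_nonneg (φ x)])).mul_const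
      (‖deriv φ x / φ x‖ ^ 2)
    rwa [one_mul] at this

end Dirichlet

open Patch Dirichlet in
theorem dirichlet_shell {Ω : Set ℂ} (ho : IsOpen Ω) (hb : Bornology.IsBounded Ω)
    (hL : IsLipschitzDomain Ω) {f φ : ℂ → ℂ} (hc : Conf Ω f φ) :
    IntegrableOn (fun x => ‖deriv φ x‖ ^ 2) Ω ∧
    ∃ C : ℝ, ∀ η > 0, ∫ x in Ω ∩ {x | dist' Ω x < η}, ‖deriv φ x‖ ^ 2 ≤ C * η := by
  refine ⟨integrable_deriv ho hc,
    cover hb (fun x => by positivity) (integrable_deriv ho hc) fun p hp => ?_⟩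
  have hp1 : p ∉ Ω := fun h => (ho.frontier_eq ▸ hp).2 h
  obtain ⟨R, hR0, hR⟩ := Metric.nhds_basis_closedBall.mem_iff.mp
    ((compact_image hc (t := 1 / 2) (by norm_num)).isClosed.isOpen_compl.mem_nhds
      fun h => hp1 (image_subset hc (by norm_num) h))
  obtain ⟨χ, n, L, ρ, c, h₀, hχ, hρ, hρR, hc0, hh₀, hL', hχ0, -, hdown, hlay⟩ :=
    patch ho hL hp hR0
  have hL0 := hχ.L_nonneg
  refine ⟨ρ, hρ, h₀ / c, by positivity,
    12 * c * L * ∫ x in Out Ω φ, ‖deriv φ x / φ x‖ ^ 2, fun η hη hηc => ?_⟩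
  rw [le_div_iff₀ hc0, mul_comm] at hηc
  have hh : 0 ≤ c * η := by positivity
  have habs : |-(c * η)| = c * η := by rw [abs_neg, abs_of_nonneg hh]
  have hhL : |-(c * η)| * L ≤ 1 / 2 := by
    rw [habs]
    exact (mul_le_mul_of_nonneg_right hηc hL0).trans hL'
  set A := Ω ∩ {x | dist' Ω x < η} ∩ ball p ρ with hA
  have hAm : MeasurableSet A := ((ho.inter (isOpen_layer Ω η)).inter isOpen_ball).measurableSet
  have hAO : A ⊆ Out Ω φ := fun x hx => mem_Out.mpr ⟨hx.1.1, lt_norm hc hx.1.1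
    (hR (ball_subset_closedBall (ball_subset_ball hρR hx.2)))⟩
  have h1 := fun N => step ho hc (prof_lamN N) hχ hhL hR hχ0 (hdown _ ⟨hh, hηc⟩) hAm hAO
    fun x hx => (hlay η hη hηc x hx.2 hx.1.2).1
  have h2 := ge_of_tendsto' (((tendsto_int ho hc).const_mul 2).const_sub _) h1
  rw [habs] at h2
  refine le_trans (setIntegral_mono_on ((integrable_deriv ho hc).mono_set fun x hx => hx.1.1)
    ((integrable_q ho hc).mono_set hAO) hAm fun x hx => ?_) (h2.trans_eq (by ring))
  have h3 := (mem_Out.mp (hAO hx)).2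
  have h4 := mem_ball_zero_iff.mp (hc.mapsφ hx.1.1)
  rw [norm_div, div_pow, le_div_iff₀ (by positivity)]
  exact mul_le_of_le_one_right (by positivity) (pow_le_one₀ (norm_nonneg _) h4.le)

end Vale.Agent.P071
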