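import Vale.Agent.P071.Cut

/-! Working definitions on the disc side (not used by the statement). -/

open MeasureTheory Set Metric Filter Topology
open scoped ENNReal

namespace Vale.Agent.P071

/-- The measure with density `ρ` on the disc. -/
noncomputable def mm (ρ : ℂ → ℝ) : Measure ℂ :=
  (volume.restrict DD).withDensity fun z => ENNReal.ofReal (ρ z)

/-- Admissible weights. -/
structure Wt (ρ : ℂ → ℝ) : Prop where
  smooth : ContDiffOn ℝ oo ρ DD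
  meas : Measurable ρ
  pos : ∀ z ∈ DD, 0 < ρ z
  int : IntegrableOn ρ DD

/-- The energy form of `-Δ - μ ρ` on the disc. -/
noncomputable def EE (ρ : ℂ → ℝ) (μ : ℝ) (A R : ℂ → ℝ) : ℝ :=
  ∫ z in DD, (gdot A R z - μ * ρ z * A z * R z)

/-- The operator `-Δ - μ ρ`. -/
noncomputable def LL (ρ : ℂ → ℝ) (μ : ℝ) (A : ℂ → ℝ) (z : ℂ) : ℝ := -lap A z - μ * ρ z * A z

/-- Neumann Poincaré inequality on the weighted disc. -/
def NP (ρ : ℂ → ℝ) (μ : ℝ) : Prop :=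
  ∀ a, Adm DD a → μ * ((∫ z in DD, ρ z * a z ^ 2) - (∫ z in DD, ρ z * a z) ^ 2 / ∫ z in DD, ρ z) ≤
    ∫ z in DD, gdot a a z

/-- Solvability of the Dirichlet problem for test data. -/
def DirSolv : Prop :=
  ∀ g, Test DD g → ∃ (ψ : ℂ → ℝ) (C : ℝ), ContDiffOn ℝ oo ψ DD ∧ (∀ x ∈ DD, lap ψ x = -g x) ∧
    (∀ x ∈ DD, |ψ x| ≤ C * hh x) ∧ ∀ x ∈ DD, gdot ψ ψ x ≤ C

/-- The Hodge inequality for the fields `β w + R`. -/
def Hodge (ρ : ℂ → ℝ) (μ : ℝ) (w : Fin 2 → ℂ → ℝ) : Prop :=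
  ∀ β : ℂ → ℝ, ContDiff ℝ oo β → ∀ R : Fin 2 → ℂ → ℝ, (∀ i, Test DD (R i)) →
    0 ≤ ∑ i, ((∫ z in DD, gdot β β z * w i z ^ 2) + 2 * EE ρ μ (fun z => β z * w i z) (R i) +
      EE ρ μ (R i) (R i))

/-- Properties of the transplanted gradient. -/
structure WData (ρ : ℂ → ℝ) (μ : ℝ) (w : Fin 2 → ℂ → ℝ) : Prop where
  smooth : ∀ i, ContDiffOn ℝ oo (w i) DD
  eq : ∀ i, ∀ z ∈ DD, lap (w i) z = -μ * ρ z * w i z
  zero : ∀ i, w i 0 = 0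
  intρ : ∀ i, IntegrableOn (fun z => ρ z * w i z ^ 2) DD
  L2 : ∀ i, IntegrableOn (fun z => w i z ^ 2 + hh z ^ 2 * gdot (w i) (w i) z) DD
  L1 : ∃ C : ℝ, ∀ δ₀ > 0, ∃ δ, 0 < δ ∧ δ < δ₀ ∧ ∀ i,
    ∫ z in shell δ, (|w i z| / δ + |d1 (w i) z| + |d2 (w i) z|) ≤ C

/-- The conditionally negative kernel with pole `p`. -/
noncomputable def NN (m : Measure ℂ) (s : ℝ) (p x y : ℂ) : ℝ :=
  GG m s x p * GG m s y p / GG m s x y

/-- The quadratic form of `NN` on the density `G(·, 0) k`. -/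
noncomputable def QN (m : Measure ℂ) (μ : ℝ) (k : ℂ → ℝ) (p : ℂ) : ℝ :=
  ∫ x in DD, ∫ y in DD, NN m μ p x y * ((GG m μ x 0 * k x) * (GG m μ y 0 * k y))

/-- Hölder continuity of the Green kernel in the pole. -/
def GreenHolder (m : Measure ℂ) (μ : ℝ) : Prop :=
  ∀ r < 1, ∃ K R : ℝ, R < 1 ∧ ∀ y ∈ closedBall (0 : ℂ) r, ∀ a ∈ closedBall (0 : ℂ) r,
    ∀ z ∈ DD, R ≤ ‖z‖ → |GG m μ y z - GG m μ a z| ≤ K * √‖y - a‖ * hh z

end Vale.Agent.P071
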