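import Vale.Agent.P071.Disc

/-! Weak eigenfunctions and the Neumann Poincaré inequality for admissible functions. -/

open MeasureTheory Set Metric Filter Topology
open scoped ENNReal

namespace Vale.Agent.P071

namespace Eigen

variable {Ω : Set ℂ} {a : ℂ → ℝ}

lemma finite (hb : Bornology.IsBounded Ω) : IsFiniteMeasure (volume.restrict Ω) :=
  ⟨by simpa using hb.measure_lt_top⟩

lemma fund (ho : IsOpen Ω) {F : ℂ → ℝ} (hF : LocallyIntegrableOn F Ω)
    (h : ∀ ψ, Test Ω ψ → ∫ z in Ω, F z * ψ z = 0) : F =ᵐ[volume.restrict Ω] 0 := by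
  have := ho.ae_eq_zero_of_integral_contDiff_smul_eq_zero hF (fun g h1 h2 h3 => by
    have hg : Test Ω g := ⟨h1, h2, h3⟩
    rw [← setIntegral_eq_integral_of_forall_compl_eq_zero (s := Ω)
      (fun z hz => by simp [hg.eq_zero hz]), ← h g hg]
    simp only [smul_eq_mul, mul_comm])
  exact (ae_restrict_iff' ho.measurableSet).2 this

lemma memLp_dd (ha : Adm Ω a) :
    MemLp (d1 a) 2 (volume.restrict Ω) ∧ MemLp (d2 a) 2 (volume.restrict Ω) := by
  constructor
  · refine (memLp_two_iff_integrable_sq (measurable_dd (v := 1)).aestronglyMeasurable).2 ?_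
    refine Integrable.mono' ha.2.2 ((measurable_dd (v := 1)).pow_const 2).aestronglyMeasurable
      (Eventually.of_forall fun z => ?_)
    rw [Real.norm_eq_abs, abs_of_nonneg (sq_nonneg _)]
    show d1 a z ^ 2 ≤ d1 a z * d1 a z + d2 a z * d2 a z
    nlinarith [mul_self_nonneg (d2 a z)]
  · refine (memLp_two_iff_integrable_sq (measurable_dd (v := Complex.I)).aestronglyMeasurable).2 ?_
    refine Integrable.mono' ha.2.2
      ((measurable_dd (v := Complex.I)).pow_const 2).aestronglyMeasurable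
      (Eventually.of_forall fun z => ?_)
    rw [Real.norm_eq_abs, abs_of_nonneg (sq_nonneg _)]
    show d2 a z ^ 2 ≤ d1 a z * d1 a z + d2 a z * d2 a z
    nlinarith [mul_self_nonneg (d1 a z)]

lemma memLp_adm (ho : IsOpen Ω) (hb : Bornology.IsBounded Ω) (ha : Adm Ω a) :
    MemLp a 2 (volume.restrict Ω) := by
  have := finite hb
  obtain ⟨C, hC⟩ := ha.2.1
  exact MemLp.of_bound (ha.1.continuousOn.aestronglyMeasurable ho.measurableSet) C
    ((ae_restrict_iff' ho.measurableSet).2 (Eventually.of_forall hC))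

lemma isH1 (ho : IsOpen Ω) (hb : Bornology.IsBounded Ω) (ha : Adm Ω a) :
    IsH1 Ω a (d1 a) (d2 a) :=
  ⟨memLp_adm ho hb ha, (memLp_dd ha).1, (memLp_dd ha).2, fun ψ h1 h2 h3 =>
    ⟨ibp ho ha.1 ⟨h1, h2, h3⟩ 1, ibp ho ha.1 ⟨h1, h2, h3⟩ Complex.I⟩⟩

lemma weak_eq (ho : IsOpen Ω) (hb : Bornology.IsBounded Ω) (ha : ContDiffOn ℝ 1 a Ω) {g : ℂ → ℝ}
    (hg : MemLp g 2 (volume.restrict Ω)) (v : ℂ)
    (h : ∀ ψ, Test Ω ψ → ∫ z in Ω, a z * dd v ψ z = -∫ z in Ω, g z * ψ z) :
    g =ᵐ[volume.restrict Ω] dd v a := by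
  have := finite hb
  have hc : ContinuousOn (dd v a) Ω := (contDiffOn_dd (m := 0) ho ha (by simp)).continuousOn
  have hg1 : IntegrableOn g Ω := hg.integrable one_le_two
  have := fund ho (F := fun z => g z - dd v a z)
    (hg1.locallyIntegrableOn.sub (hc.locallyIntegrableOn ho.measurableSet)) (fun ψ hψ => by
      simp only [sub_mul]
      have i1 : IntegrableOn (fun z => g z * ψ z) Ω :=
        hg.integrable_mul (memLp_adm ho hb (hψ.adm ho))
      rw [integral_sub i1 (hψ.integrableOn_mul ho hc)]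
      have h1 := h ψ hψ
      rw [ibp ho ha hψ v] at h1
      linarith)
  filter_upwards [this] with z hz using sub_eq_zero.1 hz

lemma mu1_le {v g₁ g₂ : ℂ → ℝ} (h : IsH1 Ω v g₁ g₂) (h0 : ¬ v =ᵐ[volume.restrict Ω] 0)
    (hm : ∫ z in Ω, v z = 0) :
    mu1 Ω ≤ (∫ z in Ω, (g₁ z ^ 2 + g₂ z ^ 2)) / ∫ z in Ω, v z ^ 2 := by
  refine csInf_le ⟨0, ?_⟩ ⟨v, g₁, g₂, h, h0, hm, rfl⟩
  rintro R ⟨v, g₁, g₂, -, -, -, rfl⟩
  exact div_nonneg (integral_nonneg fun z => by positivity) (integral_nonneg fun z => by positivity)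

end Eigen

open Eigen

theorem eigen_facts {Ω : Set ℂ} (ho : IsOpen Ω) (hb : Bornology.IsBounded Ω) {u : ℂ → ℝ}
    (hu : ContDiffOn ℝ oo u Ω) (hc : ContinuousOn u (closure Ω)) (he : IsEigenfunction Ω u) :
    Adm Ω u ∧ (∀ a, Adm Ω a → ∫ x in Ω, gdot u a x = mu1 Ω * ∫ x in Ω, u x * a x) ∧
      ∀ x ∈ Ω, lap u x = -mu1 Ω * u x := by
  obtain ⟨g₁, g₂, hH, hW⟩ := he
  have hu1 := hu.of_le one_le_oo
  have e1 : g₁ =ᵐ[volume.restrict Ω] d1 u :=
    weak_eq ho hb hu1 hH.2.1 1 fun ψ hψ => (hH.2.2.2 ψ hψ.1 hψ.2.1 hψ.2.2).1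
  have e2 : g₂ =ᵐ[volume.restrict Ω] d2 u :=
    weak_eq ho hb hu1 hH.2.2.1 Complex.I fun ψ hψ => (hH.2.2.2 ψ hψ.1 hψ.2.1 hψ.2.2).2
  have hA : Adm Ω u := by
    refine ⟨hu1, ?_, ?_⟩
    · obtain ⟨C, hC⟩ := hb.isCompact_closure.exists_bound_of_continuousOn hc
      exact ⟨C, fun z hz => hC z (subset_closure hz)⟩
    · refine Integrable.congr ((hH.2.1.integrable_mul hH.2.1).add
        (hH.2.2.1.integrable_mul hH.2.2.1)) ?_
      filter_upwards [e1, e2] with z h1 h2
      simp only [Pi.add_apply, Pi.mul_apply, gdot, h1, h2]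
  have hWE : ∀ a, Adm Ω a → ∫ x in Ω, gdot u a x = mu1 Ω * ∫ x in Ω, u x * a x := by
    intro a ha
    rw [← hW a _ _ (isH1 ho hb ha)]
    refine integral_congr_ae ?_
    filter_upwards [e1, e2] with z h1 h2
    simp only [gdot, h1, h2]
  refine ⟨hA, hWE, ?_⟩
  have c1 : ContinuousOn (lap u) Ω := (contDiffOn_lap ho hu).continuousOn
  have c2 : ContinuousOn (fun z => lap u z + mu1 Ω * u z) Ω :=
    c1.add (continuousOn_const.mul hu.continuousOn)
  have h0 := fund ho (c2.locallyIntegrableOn ho.measurableSet) (fun ψ hψ => by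
    simp only [add_mul, mul_assoc]
    rw [integral_add (hψ.integrableOn_mul ho c1)
      ((hψ.integrableOn_mul ho hu.continuousOn).const_mul _), integral_const_mul,
      ← hWE ψ (hψ.adm ho), green1 ho (hu.of_le two_le_oo) hψ]
    ring)
  intro x hx
  have := Measure.eqOn_open_of_ae_eq h0 ho c2 continuousOn_const hx
  simp only [Pi.zero_apply] at this
  linarith

theorem neumann_poincare {Ω : Set ℂ} (ho : IsOpen Ω) (hb : Bornology.IsBounded Ω) {a : ℂ → ℝ}
    (ha : Adm Ω a) :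
    mu1 Ω * ((∫ x in Ω, a x ^ 2) - (∫ x in Ω, a x) ^ 2 / ∫ _ in Ω, (1 : ℝ)) ≤
      ∫ x in Ω, gdot a a x := by
  have := finite hb
  set V := ∫ _ in Ω, (1 : ℝ) with hV
  set m := (∫ x in Ω, a x) / V with hm
  have hL := memLp_adm ho hb ha
  have i1 : IntegrableOn a Ω := hL.integrable one_le_two
  have i2 : IntegrableOn (fun x => a x ^ 2) Ω := hL.integrable_sq
  have hc : ∀ c : ℝ, ∫ _ in Ω, c = c * V := fun c => by
    rw [hV, ← integral_const_mul, mul_one]
  have hVm : m * V = ∫ x in Ω, a x := by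
    by_cases h : V = 0
    · have h1 : volume.restrict Ω = 0 := by
        rw [hV, integral_const, smul_eq_mul, mul_one, measureReal_eq_zero_iff] at h
        exact Measure.measure_univ_eq_zero.1 h
      rw [h, h1]; simp
    · rw [hm, div_mul_cancel₀ _ h]
  have hdd : ∀ v, dd v (fun x => a x - m) = dd v a := fun v => by
    funext z; simp [dd, fderiv_sub_const]
  have hv : Adm Ω (fun x => a x - m) := by
    refine ⟨ha.1.sub contDiffOn_const, ?_, ?_⟩
    · obtain ⟨C, hC⟩ := ha.2.1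
      exact ⟨C + |m|, fun z hz => (abs_sub _ _).trans (add_le_add (hC z hz) le_rfl)⟩
    · have : gdot (fun x => a x - m) (fun x => a x - m) = gdot a a := by
        funext z; simp only [gdot, d1_eq, d2_eq, hdd]
      rw [this]; exact ha.2.2
  have hsq : ∫ x in Ω, (a x - m) ^ 2 = (∫ x in Ω, a x ^ 2) - (∫ x in Ω, a x) ^ 2 / V := by
    have e : ∀ x, (a x - m) ^ 2 = a x ^ 2 - 2 * m * a x + m ^ 2 := fun x => by ring
    simp only [e]
    have i3 : IntegrableOn (fun x => a x ^ 2 - 2 * m * a x) Ω := i2.sub (i1.const_mul _)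
    rw [integral_add i3 (integrable_const _),
      integral_sub i2 (i1.const_mul _), integral_const_mul, hc, sq (∫ x in Ω, a x), mul_div_assoc,
      ← hm, ← hVm]
    ring
  rw [← hsq]
  have hpos : 0 ≤ ∫ x in Ω, gdot a a x := integral_nonneg fun z => gdot_self_nonneg
  rcases (integral_nonneg (μ := volume.restrict Ω) (f := fun x => (a x - m) ^ 2)
    fun z => sq_nonneg _).eq_or_lt with h | h
  · rw [← h, mul_zero]; exact hpos
  · have h1 := mu1_le (isH1 ho hb hv) (fun e => by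
        have : ∫ x in Ω, (a x - m) ^ 2 = ∫ _ in Ω, (0 : ℝ) := integral_congr_ae (by
          filter_upwards [e] with z hz
          simp only [Pi.zero_apply] at hz
          rw [hz]; simp)
        rw [this, integral_zero] at h
        exact lt_irrefl _ h)
      (by rw [integral_sub i1 (integrable_const _), hc, hVm, sub_self])
    rw [le_div_iff₀ h] at h1
    refine h1.trans (le_of_eq ?_)
    simp only [gdot, d1_eq, d2_eq, hdd, sq]

end Vale.Agent.P071
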