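import Vale.Agent.P071.Green0

/-! Energy identities, the Hardy inequality, and the weighted measure. -/

open MeasureTheory Set Metric Filter Topology
open scoped ENNReal

namespace Vale.Agent.P071

lemma gdot_mul_self {a b : ℂ → ℝ} {z : ℂ} (ha : DifferentiableAt ℝ a z)
    (hb : DifferentiableAt ℝ b z) : gdot (fun x => b x * a x) (fun x => b x * a x) z =
      gdot b b z * a z ^ 2 + gdot a (fun x => b x * (b x * a x)) z := by
  simp only [gdot, d1_eq, d2_eq, dd_mul hb ha, dd_mul hb (hb.fun_mul ha)]; ring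

lemma Test.gdot_right {U : Set ℂ} {a ψ : ℂ → ℝ} (hU : IsOpen U) (ha : ContDiffOn ℝ oo a U)
    (hψ : Test U ψ) : Test U (gdot a ψ) :=
  ((hψ.dd 1).mul_left hU (contDiffOn_dd hU ha oo_add_one)).add
    ((hψ.dd Complex.I).mul_left hU (contDiffOn_dd hU ha oo_add_one))

lemma Test.integrableOn {U V : Set ℂ} {ψ : ℂ → ℝ} (hψ : Test U ψ) : IntegrableOn ψ V :=
  hψ.integrable.integrableOn

lemma diffAt_of {U : Set ℂ} {a : ℂ → ℝ} (hU : IsOpen U) (ha : ContDiffOn ℝ oo a U) {z : ℂ}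
    (hz : z ∈ U) : DifferentiableAt ℝ a z :=
  (ha.contDiffAt (hU.mem_nhds hz)).differentiableAt oo_ne_zero

/-- Energy of a product. -/
lemma energy_mul {U : Set ℂ} {a b : ℂ → ℝ} (hU : IsOpen U) (ha : ContDiffOn ℝ oo a U)
    (hb : ContDiffOn ℝ oo b U) (h : Test U fun x => b x * a x) :
    ∫ z in U, gdot (fun x => b x * a x) (fun x => b x * a x) z =
      (∫ z in U, gdot b b z * a z ^ 2) - ∫ z in U, lap a z * (b z * (b z * a z)) := by
  have h2 := h.mul_left hU hb
  have e : ∀ z ∈ U, gdot b b z * a z ^ 2 = gdot (fun x => b x * a x) (fun x => b x * a x) z -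
      gdot a (fun x => b x * (b x * a x)) z := fun z hz => by
    rw [gdot_mul_self (diffAt_of hU ha hz) (diffAt_of hU hb hz)]; ring
  rw [setIntegral_congr_fun hU.measurableSet e, integral_sub
    (h.gdot_right hU h.contDiffOn).integrableOn (h2.gdot_right hU ha).integrableOn,
    green1 hU (ha.of_le two_le_oo) h2]
  ring

theorem hardy {R : ℂ → ℝ} (hR : Test DD R) :
    ∫ z in DD, (hh z ^ 2)⁻¹ * (R z * R z) ≤ ∫ z in DD, gdot R R z := by
  set a : ℂ → ℝ := fun z => 2⁻¹ * Real.log (hh z) with ha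
  have hac : ContDiffOn ℝ oo a DD :=
    contDiffOn_const.mul (contDiff_hh.contDiffOn.log fun z hz => (hh_pos hz).ne')
  have hd : ∀ {t : ℝ}, 0 < t → HasDerivAt (fun t => 2⁻¹ * Real.log t) (2⁻¹ * t⁻¹) t := fun ht =>
    (Real.hasDerivAt_log ht.ne').const_mul _
  have hl : ∀ z ∈ DD, lap a z = -2⁻¹ * (hh z ^ 2)⁻¹ * (4 * ‖z‖ ^ 2) - 4 * (2⁻¹ * (hh z)⁻¹) := by
    intro z hz
    exact lap_comp_hh (g := fun t => 2⁻¹ * Real.log t) (g1 := fun t => 2⁻¹ * t⁻¹)
      ((lt_mem_nhds (hh_pos hz)).mono fun t ht => hd ht)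
      (((hasDerivAt_inv (hh_pos hz).ne').const_mul 2⁻¹).congr_deriv (by ring))
  have hg : ∀ z ∈ DD, gdot a a z = (2⁻¹ * (hh z)⁻¹) ^ 2 * (4 * ‖z‖ ^ 2) := by
    intro z hz
    rw [← gdot_hh]
    simp only [gdot, d1_eq, d2_eq, ha, dd_comp_hh (hd (hh_pos hz))]; ring
  have hRR := hR.mul_left isOpen_DD hR.contDiffOn
  have h1 := green1 isOpen_DD (hac.of_le two_le_oo) hRR
  have i1 := (hR.gdot_right isOpen_DD hR.contDiffOn).integrableOn (V := DD)
  have i2 := (hRR.gdot_right isOpen_DD hac).integrableOn (V := DD)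
  have i3 := hRR.integrableOn_mul isOpen_DD (contDiffOn_lap isOpen_DD hac).continuousOn
  have : ∫ z in DD, (hh z ^ 2)⁻¹ * (R z * R z) ≤ ∫ z in DD,
      (gdot R R z - gdot a (fun z => R z * R z) z - lap a z * (R z * R z)) := by
    refine setIntegral_mono_on (hRR.integrableOn_mul isOpen_DD
      ((continuous_hh.pow 2).continuousOn.inv₀ fun z hz => (pow_pos (hh_pos hz) 2).ne'))
      ((i1.sub i2).sub i3) measurableSet_DD fun z hz => ?_
    have e1 : gdot a (fun z => R z * R z) z ≤ gdot R R z + gdot a a z * (R z * R z) := by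
      simp only [gdot, d1_eq, d2_eq, dd_mul (hR.diffAt z) (hR.diffAt z)]
      nlinarith [sq_nonneg (dd 1 R z - R z * dd 1 a z),
        sq_nonneg (dd Complex.I R z - R z * dd Complex.I a z)]
    have e2 : (hh z ^ 2)⁻¹ ≤ -gdot a a z - lap a z := by
      rw [hl z hz, hg z hz]
      have h0 := hh_pos hz
      have h2 : ‖z‖ ^ 2 = 1 - hh z := by unfold hh; ring
      rw [h2, ← sub_nonneg]
      have : -((2⁻¹ * (hh z)⁻¹) ^ 2 * (4 * (1 - hh z))) -
        (-2⁻¹ * (hh z ^ 2)⁻¹ * (4 * (1 - hh z)) - 4 * (2⁻¹ * (hh z)⁻¹)) - (hh z ^ 2)⁻¹ = (hh z)⁻¹ := by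
        field_simp; ring
      rw [this]; positivity
    nlinarith [mul_le_mul_of_nonneg_right e2 (mul_self_nonneg (R z))]
  rw [integral_sub (by exact i1.sub i2) i3, integral_sub i1 i2] at this
  linarith

lemma integrableOn_bdd {F : ℂ → ℝ} {C : ℝ} (hF : AEStronglyMeasurable F (volume.restrict DD))
    (h : ∀ z ∈ DD, |F z| ≤ C) : IntegrableOn F DD :=
  (integrable_const C).mono' hF ((ae_restrict_mem measurableSet_DD).mono h)

lemma G0_bdd {g : ℂ → ℝ} (hg : Test DD g) : ∃ C, ∀ x ∈ DD, |G0 g x| ≤ C := by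
  obtain ⟨-, -, C, h, -⟩ := G0_spec hg
  refine ⟨|C|, fun x hx => (h x hx).trans ?_⟩
  have := hh_pos hx
  calc C * hh x ≤ |C| * 1 := by gcongr; exacts [le_abs_self C, hh_le_one x]
    _ = _ := mul_one _

lemma tendsto_gdot_chi {F : ℂ → ℝ} (hF : IntegrableOn F DD) {a : ℂ → ℝ}
    (h : ∀ z ∈ DD, a z ^ 2 ≤ hh z ^ 2 * F z) :
    Tendsto (fun δ => ∫ z in DD, gdot (chi δ) (chi δ) z * a z ^ 2) (𝓝[>] 0) (𝓝 0) := by
  obtain ⟨K, -, hK⟩ := chi_bounds
  have h1 := (tendsto_outer hF).const_mul (4 * K ^ 2)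
  rw [mul_zero] at h1
  refine tendsto_of_tendsto_of_tendsto_of_le_of_le' tendsto_const_nhds h1
    (Eventually.of_forall fun δ => integral_nonneg fun z =>
      mul_nonneg gdot_self_nonneg (sq_nonneg _)) ?_
  filter_upwards [Ioo_mem_nhdsGT zero_lt_one] with δ hδ
  have hF0 : ∀ z ∈ DD, 0 ≤ F z := fun z hz =>
    nonneg_of_mul_nonneg_right ((sq_nonneg _).trans (h z hz)) (pow_pos (hh_pos hz) 2)
  rw [← integral_const_mul, ← inter_eq_right.2 (show outer δ ⊆ DD from inter_subset_left),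
    ← setIntegral_indicator (measurableSet_outer δ)]
  refine integral_mono_of_nonneg (Eventually.of_forall fun z =>
    mul_nonneg gdot_self_nonneg (sq_nonneg _))
    ((hF.const_mul _).indicator (measurableSet_outer δ)) ?_
  filter_upwards [ae_restrict_mem measurableSet_DD] with z hz
  by_cases hs : z ∈ shell δ
  · rw [indicator_of_mem (shell_subset_outer hδ.1 hs)]
    have h0 := hδ.1
    have h2 : hh z ^ 2 ≤ (2 * δ) ^ 2 := pow_le_pow_left₀ (hh_pos hz).le hs.2 2
    calc gdot (chi δ) (chi δ) z * a z ^ 2 ≤ K ^ 2 / δ ^ 2 * ((2 * δ) ^ 2 * F z) :=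
          mul_le_mul (hK δ hδ.1 hδ.2.le z).1
            ((h z hz).trans (mul_le_mul_of_nonneg_right h2 (hF0 z hz))) (sq_nonneg _) (by positivity)
      _ = _ := by field_simp; ring
  · simp only [gdot, d1_eq, d2_eq, dd_chi_eq_zero hδ.1 hs, mul_zero, add_zero, zero_mul]
    exact indicator_nonneg (fun z hz => mul_nonneg (by positivity) (hF0 z hz.1)) z

lemma G0_test {g : ℂ → ℝ} (hg : Test DD g) {δ : ℝ} (hδ : 0 < δ) :
    Test DD fun x => chi δ x * G0 g x := (chi_test hδ).mul_right isOpen_DD (G0_spec hg).1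

lemma integrableOn_mul_G0 {g F : ℂ → ℝ} (hg : Test DD g) (hF : IntegrableOn F DD) :
    IntegrableOn (fun x => F x * G0 g x) DD :=
  let ⟨_, hC⟩ := G0_bdd hg
  hF.mul_bdd ((G0_spec hg).1.continuousOn.aestronglyMeasurable measurableSet_DD)
    ((ae_restrict_mem measurableSet_DD).mono hC)

lemma tendsto_mul_cut {g F : ℂ → ℝ} (hg : Test DD g) (hF : IntegrableOn F DD) :
    Tendsto (fun δ => ∫ x in DD, F x * (chi δ x * G0 g x)) (𝓝[>] 0)
      (𝓝 (∫ x in DD, F x * G0 g x)) := by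
  refine (tendsto_chi_mul (integrableOn_mul_G0 hg hF) 1).congr fun δ => ?_
  simp only [pow_one, mul_left_comm]

lemma tendsto_mul_cut_sq {g F : ℂ → ℝ} (hg : Test DD g) (hF : IntegrableOn F DD) :
    Tendsto (fun δ => ∫ x in DD, F x * (chi δ x * G0 g x) ^ 2) (𝓝[>] 0)
      (𝓝 (∫ x in DD, F x * G0 g x ^ 2)) := by
  have := tendsto_chi_mul (integrableOn_mul_G0 hg (integrableOn_mul_G0 hg hF)) 2
  simp only [sq, mul_assoc] at this ⊢
  refine this.congr fun δ => ?_
  simp only [mul_left_comm]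

/-- The energy of the truncated Green potential. -/
lemma G0_energy {g : ℂ → ℝ} (hg : Test DD g) :
    Tendsto (fun δ => ∫ z in DD, gdot (fun x => chi δ x * G0 g x) (fun x => chi δ x * G0 g x) z)
      (𝓝[>] 0) (𝓝 (∫ z in DD, g z * G0 g z)) := by
  obtain ⟨h1, h2, C, h3, -⟩ := G0_spec hg
  have t1 := tendsto_gdot_chi (F := fun _ => C ^ 2) (a := G0 g) (integrable_const _) fun z hz => by
    rw [← sq_abs, ← mul_pow, mul_comm]
    exact pow_le_pow_left₀ (abs_nonneg _) (h3 z hz) 2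
  have t2 := t1.add (tendsto_chi_mul (integrableOn_mul_G0 hg hg.integrableOn) 2)
  rw [zero_add] at t2
  refine t2.congr' ?_
  filter_upwards [self_mem_nhdsWithin] with δ hδ
  rw [energy_mul isOpen_DD h1 (contDiff_chi δ).contDiffOn (G0_test hg hδ), sub_eq_add_neg,
    ← integral_neg]
  congr 1
  refine setIntegral_congr_fun measurableSet_DD fun z hz => ?_
  simp only [h2 z hz]; ring

/-- Dual form of the Hardy inequality. -/
theorem schur {k : ℂ → ℝ} (hk : Test DD k) :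
    ∫ z in DD, k z * G0 k z ≤ ∫ z in DD, hh z ^ 2 * (k z * k z) := by
  have t1 := (tendsto_mul_cut hk hk.integrableOn).const_mul 2
  have t2 := (G0_energy hk).const_add (∫ z in DD, hh z ^ 2 * (k z * k z))
  have := le_of_tendsto_of_tendsto t1 t2 ?_
  · linarith
  filter_upwards [self_mem_nhdsWithin] with δ hδ
  have hY := G0_test hk hδ
  refine le_trans ?_ (add_le_add_right (hardy hY) _)
  have i1 := (hk.mul_left isOpen_DD hk.contDiffOn).integrableOn_mul isOpen_DD
    (continuous_hh.pow 2).continuousOn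
  have i2 := (hY.mul_left isOpen_DD hY.contDiffOn).integrableOn_mul isOpen_DD
    ((continuous_hh.pow 2).continuousOn.inv₀ fun z hz => (pow_pos (hh_pos hz) 2).ne')
  rw [← integral_const_mul]
  refine le_trans (setIntegral_mono_on ((hY.integrableOn_mul isOpen_DD
    hk.continuous.continuousOn).const_mul 2) (i1.add i2) measurableSet_DD fun z hz => ?_)
    (le_of_eq (integral_add i1 i2))
  have h0 := hh_pos hz
  simp only [Pi.add_apply, Pi.inv_apply, Pi.pow_apply]
  set Y := chi δ z * G0 k z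
  have : hh z ^ 2 * (k z * k z) + (hh z ^ 2)⁻¹ * (Y * Y) - 2 * (k z * Y) =
      (hh z * k z - (hh z)⁻¹ * Y) ^ 2 := by field_simp; ring
  nlinarith [sq_nonneg (hh z * k z - (hh z)⁻¹ * Y)]

lemma cs_integral {X : Type*} [MeasurableSpace X] {ν : Measure X} {f g : X → ℝ} (hf : MemLp f 2 ν)
    (hg : MemLp g 2 ν) : (∫ x, f x * g x ∂ν) ^ 2 ≤ (∫ x, f x ^ 2 ∂ν) * ∫ x, g x ^ 2 ∂ν := by
  have i1 := hf.integrable_sq
  have i2 := hg.integrable_sq
  have i3 : Integrable (fun x => f x * g x) ν := hf.integrable_mul hg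
  have := discrim_le_zero (a := ∫ x, f x ^ 2 ∂ν) (b := 2 * ∫ x, f x * g x ∂ν)
    (c := ∫ x, g x ^ 2 ∂ν) fun t => by
      have h : 0 ≤ ∫ x, (t * t * f x ^ 2 + 2 * t * (f x * g x) + g x ^ 2) ∂ν :=
        integral_nonneg fun x => by
          simp only [Pi.zero_apply]; nlinarith [sq_nonneg (t * f x + g x)]
      rw [integral_add (by exact (i1.const_mul _).add (i3.const_mul _)) i2,
        integral_add (i1.const_mul _) (i3.const_mul _), integral_const_mul, integral_const_mul] at h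
      linarith
  unfold discrim at this
  nlinarith

section weight

variable {ρ : ℂ → ℝ}

lemma ae_mm (ρ : ℂ → ℝ) : ∀ᵐ z ∂mm ρ, z ∈ DD :=
  withDensity_absolutelyContinuous _ _ (ae_restrict_mem measurableSet_DD)

lemma mm_single (ρ : ℂ → ℝ) (x : ℂ) : mm ρ {x} = 0 :=
  withDensity_absolutelyContinuous _ _ (measure_singleton x)

lemma Wt.integral (hρ : Wt ρ) (F : ℂ → ℝ) : ∫ z, F z ∂mm ρ = ∫ z in DD, ρ z * F z := by
  rw [mm, integral_withDensity_eq_integral_toReal_smul hρ.meas.ennreal_ofReal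
    (Eventually.of_forall fun _ => ENNReal.ofReal_lt_top)]
  refine setIntegral_congr_fun measurableSet_DD fun z hz => ?_
  simp only [ENNReal.toReal_ofReal (hρ.pos z hz).le, smul_eq_mul]

lemma Wt.integrable (hρ : Wt ρ) {F : ℂ → ℝ} :
    Integrable F (mm ρ) ↔ IntegrableOn (fun z => ρ z * F z) DD := by
  rw [mm, integrable_withDensity_iff_integrable_smul' hρ.meas.ennreal_ofReal
    (Eventually.of_forall fun _ => ENNReal.ofReal_lt_top)]
  refine integrableOn_congr_fun (fun z hz => ?_) measurableSet_DD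
  simp only [ENNReal.toReal_ofReal (hρ.pos z hz).le, smul_eq_mul]

lemma Wt.fin (hρ : Wt ρ) : IsFiniteMeasure (mm ρ) := isFiniteMeasure_withDensity_ofReal hρ.int.2

lemma Wt.open_pos (hρ : Wt ρ) (U : Set ℂ) (hU : IsOpen U) (hne : U.Nonempty) (hs : U ⊆ DD) :
    mm ρ U ≠ 0 := by
  intro h
  have h1 : volume.restrict DD U = 0 := by
    refine withDensity_absolutelyContinuous' hρ.meas.ennreal_ofReal.aemeasurable ?_ h
    filter_upwards [ae_restrict_mem measurableSet_DD] with z hz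
    exact (ENNReal.ofReal_pos.2 (hρ.pos z hz)).ne'
  rw [Measure.restrict_apply hU.measurableSet, inter_eq_left.2 hs] at h1
  exact (hU.measure_pos volume hne).ne' h1

lemma aesm_mm {F : ℂ → ℝ} (hF : ContinuousOn F DD) : AEStronglyMeasurable F (mm ρ) :=
  (hF.aestronglyMeasurable measurableSet_DD).mono_ac (withDensity_absolutelyContinuous _ _)

lemma Wt.memLp_bdd (hρ : Wt ρ) {F : ℂ → ℝ} {C : ℝ} (hF : AEStronglyMeasurable F (mm ρ))
    (h : ∀ z ∈ DD, |F z| ≤ C) : MemLp F 2 (mm ρ) :=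
  have := hρ.fin
  MemLp.of_bound hF C ((ae_mm ρ).mono h)

lemma Wt.memLp_test (hρ : Wt ρ) {F : ℂ → ℝ} (hF : Test DD F) : MemLp F 2 (mm ρ) :=
  let ⟨_, h⟩ := hF.bdd
  hρ.memLp_bdd hF.continuous.aestronglyMeasurable fun z _ => h z

lemma integral_sq_le_of_eLpNorm {X : Type*} [MeasurableSpace X] {ν : Measure X} {f : X → ℝ}
    (hf : MemLp f 2 ν) {ε : ℝ} (hε : 0 ≤ ε) (h : eLpNorm f 2 ν ≤ ENNReal.ofReal ε) :
    ∫ x, f x ^ 2 ∂ν ≤ ε ^ 2 := by
  rw [hf.eLpNorm_eq_integral_rpow_norm two_ne_zero ENNReal.ofNat_ne_top,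
    ENNReal.ofReal_le_ofReal_iff hε] at h
  simp only [ENNReal.toReal_ofNat, Real.rpow_two, Real.norm_eq_abs, sq_abs] at h
  have h0 : 0 ≤ ∫ x, f x ^ 2 ∂ν := integral_nonneg fun _ => sq_nonneg _
  have := pow_le_pow_left₀ (Real.rpow_nonneg h0 _) h 2
  rwa [← Real.rpow_two, ← Real.rpow_mul h0, inv_mul_cancel₀ two_ne_zero, Real.rpow_one] at this

/-- Test functions are dense in `L²`. -/
lemma Wt.dense (hρ : Wt ρ) {g : ℂ → ℝ} (hg : MemLp g 2 (mm ρ)) {ε : ℝ} (hε : 0 < ε) :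
    ∃ F, Test DD F ∧ ((∀ z, 0 ≤ g z) → ∀ z, 0 ≤ F z) ∧ ∫ z, (g z - F z) ^ 2 ∂mm ρ ≤ ε := by
  have := hρ.fin
  obtain ⟨F, hF, ⟨B, hB⟩, hF0, hFε⟩ : ∃ F : ℂ → ℝ, ContDiff ℝ oo F ∧ (∃ B, ∀ z, |F z| ≤ B) ∧
      ((∀ z, 0 ≤ g z) → ∀ z, 0 ≤ F z) ∧ ∫ z, (g z - F z) ^ 2 ∂mm ρ ≤ ε / 4 := by
    obtain ⟨F, h1, h2, h3⟩ := hg.exist_eLpNorm_sub_le ENNReal.ofNat_ne_top one_le_two
      (Real.sqrt_pos.2 (show 0 < ε / 16 by positivity))
    have hFL : MemLp F 2 (mm ρ) := h2.continuous.memLp_of_hasCompactSupport h1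
    have h4 := integral_sq_le_of_eLpNorm (hg.sub hFL) (Real.sqrt_nonneg _) h3
    rw [Real.sq_sqrt (by positivity)] at h4
    simp only [Pi.sub_apply] at h4
    obtain ⟨B, hB⟩ := h2.continuous.bounded_above_of_compact_support h1
    by_cases h0 : ∀ z, 0 ≤ g z
    swap
    · exact ⟨F, h2, ⟨B, hB⟩, fun h => absurd h h0, by linarith⟩
    set M := (mm ρ).real univ
    have hM : 0 ≤ M := measureReal_nonneg
    set τ := ε / (16 * (M + 1))
    have hτ : 0 < τ := by positivity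
    have key : ∀ z, |F z| ≤ √(F z ^ 2 + τ) ∧ √(F z ^ 2 + τ) ≤ |F z| + √τ := fun z => by
      constructor
      · exact Real.abs_le_sqrt (by linarith)
      · rw [Real.sqrt_le_left (by positivity), add_sq, sq_abs, Real.sq_sqrt hτ.le]
        have : 0 ≤ 2 * |F z| * √τ := by positivity
        linarith
    refine ⟨fun z => √(F z ^ 2 + τ), ((h2.pow 2).add contDiff_const).sqrt fun z => by positivity,
      ⟨B + √τ, fun z => ?_⟩, fun _ _ => Real.sqrt_nonneg _, ?_⟩
    · rw [abs_of_nonneg (Real.sqrt_nonneg _)]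
      have := hB z
      rw [Real.norm_eq_abs] at this
      linarith [(key z).2]
    have i1 : Integrable (fun z => (g z - F z) ^ 2) (mm ρ) := (hg.sub hFL).integrable_sq
    calc ∫ z, (g z - √(F z ^ 2 + τ)) ^ 2 ∂mm ρ ≤ ∫ z, (2 * (g z - F z) ^ 2 + 2 * τ) ∂mm ρ := by
          refine integral_mono_of_nonneg (Eventually.of_forall fun z => sq_nonneg _)
            ((i1.const_mul 2).add (integrable_const _)) (Eventually.of_forall fun z => ?_)
          have h5 : (g z - |F z|) ^ 2 ≤ (g z - F z) ^ 2 := by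
            nlinarith [mul_le_mul_of_nonneg_left (le_abs_self (F z)) (h0 z), sq_abs (F z)]
          have h6 : (√(F z ^ 2 + τ) - |F z|) ^ 2 ≤ τ := by
            rw [← Real.sq_sqrt hτ.le]
            refine pow_le_pow_left₀ (by rw [Real.sq_sqrt hτ.le]; linarith [(key z).1]) ?_ 2
            rw [Real.sq_sqrt hτ.le]; linarith [(key z).2]
          simp only
          nlinarith [sq_nonneg (g z - |F z| + (√(F z ^ 2 + τ) - |F z|))]
      _ = 2 * (∫ z, (g z - F z) ^ 2 ∂mm ρ) + M * (2 * τ) := by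
          rw [integral_add (i1.const_mul 2) (integrable_const _), integral_const_mul, integral_const,
            smul_eq_mul]
      _ ≤ ε / 4 := by
          have : M * (2 * τ) ≤ ε / 8 := by
            have : (M + 1) * (2 * τ) = ε / 8 := by simp only [τ]; field_simp; ring
            nlinarith
          linarith
  have hFL : MemLp F 2 (mm ρ) := hρ.memLp_bdd hF.continuous.aestronglyMeasurable fun z _ => hB z
  have i0 := hρ.integrable.1 hFL.integrable_sq
  have t := ((tendsto_chi_mul i0 2).sub ((tendsto_chi_mul i0 1).const_mul 2)).add_const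
    (∫ z in DD, ρ z * F z ^ 2)
  obtain ⟨δ, h1, hδ⟩ := ((t.eventually (gt_mem_nhds (show _ < ε / 4 by linarith))).and
    self_mem_nhdsWithin).exists
  have hT : Test DD fun z => chi δ z * F z := (chi_test hδ).mul_right isOpen_DD hF.contDiffOn
  refine ⟨_, hT, fun h z => mul_nonneg (chi_nonneg _ _) (hF0 h z), ?_⟩
  have i1 : Integrable (fun z => (g z - F z) ^ 2) (mm ρ) := (hg.sub hFL).integrable_sq
  have i2 : Integrable (fun z => (F z - chi δ z * F z) ^ 2) (mm ρ) :=
    (hFL.sub (hρ.memLp_test hT)).integrable_sq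
  have j : ∀ n : ℕ, IntegrableOn (fun z => chi δ z ^ n * (ρ z * F z ^ 2)) DD := fun n =>
    i0.bdd_mul (c := 1) ((contDiff_chi δ).continuous.pow n).aestronglyMeasurable
      (Eventually.of_forall fun z => by
        rw [norm_pow, Real.norm_eq_abs]; exact pow_le_one₀ (abs_nonneg _) (abs_chi_le δ z))
  rw [← integral_const_mul, ← integral_sub (j 2) ((j 1).const_mul 2),
    ← integral_add (by exact (j 2).sub ((j 1).const_mul 2)) i0] at h1
  have h2 : ∫ z, (F z - chi δ z * F z) ^ 2 ∂mm ρ < ε / 4 := by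
    rw [hρ.integral]
    refine lt_of_eq_of_lt (integral_congr_ae (Eventually.of_forall fun z => ?_)) h1
    simp only; ring
  calc _ ≤ ∫ z, (2 * (g z - F z) ^ 2 + 2 * (F z - chi δ z * F z) ^ 2) ∂mm ρ := by
        refine integral_mono_of_nonneg (Eventually.of_forall fun z => sq_nonneg _)
          ((i1.const_mul 2).add (i2.const_mul 2)) (Eventually.of_forall fun z => ?_)
        simp only
        nlinarith [sq_nonneg (g z - F z - (F z - chi δ z * F z))]
    _ ≤ ε := by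
        rw [integral_add (i1.const_mul 2) (i2.const_mul 2), integral_const_mul, integral_const_mul]
        linarith

end weight

end Vale.Agent.P071
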