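import Vale.Agent.P071.Fund

/-! The Green operator of the disc. -/

open MeasureTheory Set Metric Filter Topology
open scoped ENNReal ComplexConjugate

namespace Vale.Agent.P071

lemma norm_one_sub_sq (x y : ℂ) : ‖1 - x * conj y‖ ^ 2 = ‖x - y‖ ^ 2 + hh x * hh y := by
  simp only [hh_eq, Complex.sq_norm, Complex.normSq_apply]
  simp; ring

lemma one_sub_ne {x y : ℂ} (h : ‖x‖ * ‖y‖ < 1) : 1 - x * conj y ≠ 0 := by
  intro h0
  have : ‖x * conj y‖ = 1 := by rw [← sub_eq_zero.1 h0, norm_one]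
  rw [norm_mul, Complex.norm_conj] at this
  linarith

lemma norm_mul_lt {x y : ℂ} (hx : x ∈ DD) (hy : y ∈ DD) : ‖x‖ * ‖y‖ < 1 :=
  mul_lt_one_of_nonneg_of_lt_one_left (norm_nonneg _) (mem_DD.1 hx) (mem_DD.1 hy).le

lemma g0_symm (x y : ℂ) : g0 x y = g0 y x := by
  unfold g0
  rw [norm_sub_rev x y, ← Complex.norm_conj (1 - x * conj y)]
  simp [mul_comm]

lemma g0_self (x : ℂ) : g0 x x = 0 := by simp [g0]

lemma measurable_g0 : Measurable fun p : ℂ × ℂ => g0 p.1 p.2 := by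
  unfold g0
  have : Measurable fun p : ℂ × ℂ => conj p.2 := Complex.continuous_conj.measurable.comp measurable_snd
  fun_prop

lemma measurable_g0_right (x : ℂ) : Measurable (g0 x) := measurable_g0.of_uncurry_left

lemma g0_eq {x y : ℂ} (h : x ≠ y) (h' : 1 - x * conj y ≠ 0) :
    g0 x y = (2 * Real.pi)⁻¹ * (Real.log ‖1 - x * conj y‖ - Real.log ‖x - y‖) := by
  rw [g0, Real.log_div (norm_ne_zero_iff.2 h') (norm_ne_zero_iff.2 (sub_ne_zero.2 h))]

lemma g0_eq' {x y : ℂ} (h : x ≠ y) :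
    g0 x y = (4 * Real.pi)⁻¹ * Real.log (1 + hh x * hh y / ‖x - y‖ ^ 2) := by
  have h0 : ‖x - y‖ ≠ 0 := norm_ne_zero_iff.2 (sub_ne_zero.2 h)
  have : 1 + hh x * hh y / ‖x - y‖ ^ 2 = (‖1 - x * conj y‖ / ‖x - y‖) ^ 2 := by
    rw [div_pow, norm_one_sub_sq]; field_simp
  rw [this, Real.log_pow, g0]
  push_cast; ring

lemma g0_nonneg {x y : ℂ} (hx : x ∈ DD) (hy : y ∈ DD) : 0 ≤ g0 x y := by
  rcases eq_or_ne x y with rfl | h
  · rw [g0_self]
  rw [g0_eq' h]
  have := hh_pos hx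
  have := hh_pos hy
  have := Real.pi_pos
  exact mul_nonneg (by positivity) (Real.log_nonneg (le_add_of_nonneg_right (by positivity)))

lemma g0_pos {x y : ℂ} (hx : x ∈ DD) (hy : y ∈ DD) (h : x ≠ y) : 0 < g0 x y := by
  rw [g0_eq' h]
  have := hh_pos hx
  have := hh_pos hy
  have := Real.pi_pos
  have h0 : 0 < ‖x - y‖ := norm_pos_iff.2 (sub_ne_zero.2 h)
  exact mul_pos (by positivity) (Real.log_pos (lt_add_of_pos_right _ (by positivity)))

lemma g0_sphere {x : ℂ} (hx : ‖x‖ = 1) (y : ℂ) : g0 x y = 0 := by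
  rcases eq_or_ne x y with rfl | h
  · rw [g0_self]
  rw [g0_eq' h]; simp [hh, hx]

lemma g0_le_log {x y : ℂ} (hx : x ∈ DD) (hy : y ∈ DD) : g0 x y ≤ 1 + |Real.log ‖x - y‖| := by
  rcases eq_or_ne x y with rfl | h
  · rw [g0_self]; positivity
  have h' := one_sub_ne (norm_mul_lt hx hy)
  rw [g0_eq h h']
  have h1 : Real.log ‖1 - x * conj y‖ ≤ 1 := by
    refine (Real.log_le_sub_one_of_pos (norm_pos_iff.2 h')).trans ?_
    have := norm_sub_le 1 (x * conj y)
    rw [norm_one, norm_mul, Complex.norm_conj] at this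
    linarith [norm_mul_lt hx hy]
  have h2 := neg_abs_le (Real.log ‖x - y‖)
  have h3 : (2 * Real.pi)⁻¹ ≤ 1 := inv_le_one_of_one_le₀ (by linarith [Real.pi_gt_three])
  calc _ ≤ (2 * Real.pi)⁻¹ * (1 + |Real.log ‖x - y‖|) :=
        mul_le_mul_of_nonneg_left (by linarith) (by have := Real.pi_pos; positivity)
    _ ≤ 1 * (1 + |Real.log ‖x - y‖|) := by gcongr
    _ = _ := one_mul _

lemma g0_int : ∃ B : ℝ, 0 ≤ B ∧ ∀ x ∈ DD, IntegrableOn (g0 x) DD ∧ ∫ y in DD, g0 x y ≤ B := by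
  set Λ : ℂ → ℝ := (closedBall (0 : ℂ) 2).indicator fun y => 1 + |Real.log ‖y‖| with hΛ
  have hi : Integrable Λ := (integrable_indicator_iff measurableSet_closedBall).2
    (((continuous_const.locallyIntegrable).add locInt_abs_log).integrableOn_isCompact
      (isCompact_closedBall _ _))
  have h0 : ∀ y, 0 ≤ Λ y := fun y => indicator_nonneg (fun _ _ => by positivity) y
  refine ⟨∫ y, Λ y, integral_nonneg h0, fun x hx => ?_⟩
  have hb : ∀ y ∈ DD, g0 x y ≤ Λ (x - y) := by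
    intro y hy
    rw [hΛ, indicator_of_mem]
    · exact g0_le_log hx hy
    · rw [mem_closedBall_zero_iff]
      linarith [norm_sub_le x y, mem_DD.1 hx, mem_DD.1 hy]
  have hx' := hi.comp_sub_left x
  have hI : IntegrableOn (g0 x) DD := by
    refine hx'.integrableOn.mono' (measurable_g0_right x).aestronglyMeasurable ?_
    filter_upwards [ae_restrict_mem measurableSet_DD] with y hy
    rw [Real.norm_eq_abs, abs_of_nonneg (g0_nonneg hx hy)]
    exact hb y hy
  refine ⟨hI, ?_⟩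
  calc ∫ y in DD, g0 x y ≤ ∫ y in DD, Λ (x - y) :=
        setIntegral_mono_on hI hx'.integrableOn measurableSet_DD hb
    _ ≤ ∫ y, Λ (x - y) := setIntegral_le_integral hx' (Eventually.of_forall fun y => h0 _)
    _ = _ := integral_sub_left_eq_self Λ volume x

lemma integrableOn_g0 {x : ℂ} (hx : x ∈ DD) : IntegrableOn (g0 x) DD :=
  let ⟨_, _, h⟩ := g0_int; (h x hx).1

/-- Joint integrability of the Green kernel. -/
lemma integrable_g0_prod {ν : Measure ℂ} [IsFiniteMeasure ν] (hν : ∀ᵐ x ∂ν, x ∈ DD) :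
    Integrable (fun p : ℂ × ℂ => g0 p.1 p.2) (ν.prod (volume.restrict DD)) := by
  obtain ⟨B, -, hB⟩ := g0_int
  rw [integrable_prod_iff measurable_g0.aestronglyMeasurable]
  refine ⟨hν.mono fun x hx => (hB x hx).1, (integrable_const B).mono'
    measurable_g0.norm.stronglyMeasurable.integral_prod_right'.aestronglyMeasurable ?_⟩
  filter_upwards [hν] with x hx
  rw [Real.norm_eq_abs, abs_of_nonneg (integral_nonneg fun _ => norm_nonneg _)]
  refine le_trans (le_of_eq (setIntegral_congr_fun measurableSet_DD fun y hy => ?_)) (hB x hx).2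
  simp only [Real.norm_eq_abs, abs_of_nonneg (g0_nonneg hx hy)]

lemma dd_re_holo {F : ℂ → ℂ} {F' z : ℂ} (h : HasDerivAt F F' z) (v : ℂ) :
    dd v (fun x => (F x).re) z = (F' * v).re := by
  have := (Complex.reCLM.hasFDerivAt.comp z (h.hasFDerivAt.restrictScalars ℝ)).fderiv
  simp only [dd]
  change fderiv ℝ (Complex.reCLM ∘ F) z v = _
  rw [this]; simp [mul_comm]

lemma lap_re_holo {F : ℂ → ℂ} {U : Set ℂ} (hU : IsOpen U) (hF : DifferentiableOn ℂ F U) {z : ℂ}
    (hz : z ∈ U) : lap (fun x => (F x).re) z = 0 := by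
  have h2 := ((hF.deriv hU).differentiableAt (hU.mem_nhds hz)).hasDerivAt
  have key : ∀ v : ℂ, dd v (dd v fun x => (F x).re) z = (deriv (deriv F) z * v * v).re := by
    intro v
    have e : dd v (fun x => (F x).re) =ᶠ[𝓝 z] fun x => (deriv F x * v).re := by
      filter_upwards [hU.mem_nhds hz] with x hx
      exact dd_re_holo (hF.differentiableAt (hU.mem_nhds hx)).hasDerivAt v
    rw [dd_congr e, dd_re_holo (h2.mul_const v)]
  simp only [lap, d1_eq, d2_eq, key]
  simp

lemma dd_comp_add (v x : ℂ) (a : ℂ → ℝ) : dd v (fun y => a (x + y)) = fun y => dd v a (x + y) := by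
  funext y; simp only [dd, fderiv_comp_add_left]

lemma lap_comp_add (x : ℂ) (a : ℂ → ℝ) : lap (fun y => a (x + y)) = fun y => lap a (x + y) := by
  funext y; simp only [lap, d1_eq, d2_eq, dd_comp_add]

lemma fund' {ψ : ℂ → ℝ} {U : Set ℂ} (hψ : Test U ψ) (x : ℂ) :
    ∫ y, Real.log ‖x - y‖ * lap ψ y = 2 * Real.pi * ψ x := by
  have h : Test univ fun y => ψ (x + y) :=
    ⟨hψ.1.comp (contDiff_const.add contDiff_id),
      hψ.2.1.comp_homeomorph (Homeomorph.addLeft x), subset_univ _⟩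
  have := fund h
  rw [lap_comp_add, add_zero] at this
  rw [← this, ← integral_add_left_eq_self _ x]
  simp

lemma integrable_log_mul {ψ : ℂ → ℝ} {U : Set ℂ} (hψ : Test U ψ) (x : ℂ) :
    Integrable fun y => Real.log ‖x - y‖ * ψ y := by
  have h : Integrable fun y => Real.log ‖y‖ * ψ (x - y) :=
    locInt_log.integrable_smul_right_of_hasCompactSupport
      (hψ.continuous.comp (continuous_const.sub continuous_id))
      (hψ.2.1.comp_homeomorph (Homeomorph.subLeft x))
  simpa using h.comp_sub_left x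

lemma contDiffAt_log_one_sub {p : ℂ × ℂ} (h : ‖p.1‖ * ‖p.2‖ < 1) :
    ContDiffAt ℝ oo (fun q : ℂ × ℂ => Real.log ‖1 - q.1 * conj q.2‖) p := by
  have h1 : ContDiff ℝ oo fun q : ℂ × ℂ => 1 - q.1 * conj q.2 :=
    contDiff_const.sub (contDiff_fst.mul (Complex.conjCLE.contDiff.comp contDiff_snd))
  exact (h1.contDiffAt.norm ℝ (one_sub_ne h)).log (norm_ne_zero_iff.2 (one_sub_ne h))

lemma contDiffOn_log_one_sub {x : ℂ} (hx : x ∈ DD) :
    ContDiffOn ℝ oo (fun y => Real.log ‖1 - x * conj y‖) DD := fun y hy =>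
  ((contDiffAt_log_one_sub (p := (x, y)) (norm_mul_lt hx hy)).comp y
    (contDiffAt_const.prodMk contDiffAt_id)).contDiffWithinAt

lemma lap_log_one_sub {x y : ℂ} (hx : x ∈ DD) (hy : y ∈ DD) :
    lap (fun y => Real.log ‖1 - x * conj y‖) y = 0 := by
  have e : (fun y => Real.log ‖1 - x * conj y‖) = fun y => (Complex.log (1 - conj x * y)).re := by
    funext y
    rw [Complex.log_re, ← Complex.norm_conj]; simp
  rw [e]
  refine lap_re_holo isOpen_DD (DifferentiableOn.clog (by fun_prop) fun z hz => ?_) hy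
  refine Or.inl ?_
  have h1 := Complex.re_le_norm (conj x * z)
  rw [norm_mul, Complex.norm_conj] at h1
  have := norm_mul_lt hx hz
  simp only [Complex.sub_re, Complex.one_re]
  linarith

lemma Test.setIntegral_eq {U : Set ℂ} {ψ : ℂ → ℝ} (hψ : Test U ψ) (a : ℂ → ℝ) :
    ∫ y in U, a y * ψ y = ∫ y, a y * ψ y :=
  setIntegral_eq_integral_of_forall_compl_eq_zero fun y hy => by rw [hψ.eq_zero hy, mul_zero]

/-- The Green kernel inverts the Laplacian on test functions. -/
theorem G0_lap {ψ : ℂ → ℝ} (hψ : Test DD ψ) {x : ℂ} (hx : x ∈ DD) :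
    ∫ y in DD, g0 x y * lap ψ y = -ψ x := by
  have h1 := green1 isOpen_DD ((contDiffOn_log_one_sub hx).of_le two_le_oo) hψ
  have h2 := green2 isOpen_DD ((contDiffOn_log_one_sub hx).of_le one_le_oo) hψ
  rw [h2, setIntegral_congr_fun measurableSet_DD (g := fun _ => (0 : ℝ))
    (f := fun y => lap (fun y => Real.log ‖1 - x * conj y‖) y * ψ y)
    (fun y hy => by simp only [lap_log_one_sub hx hy, zero_mul]), integral_zero] at h1
  have h3 := fund' hψ x
  rw [← hψ.lap.setIntegral_eq] at h3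
  have hae : ∀ᵐ y : ℂ, y ≠ x := by simp [ae_iff]
  rw [setIntegral_congr_ae measurableSet_DD (g := fun y => (2 * Real.pi)⁻¹ *
    (Real.log ‖1 - x * conj y‖ * lap ψ y - Real.log ‖x - y‖ * lap ψ y)), integral_const_mul,
    integral_sub (hψ.lap.integrableOn_mul isOpen_DD (contDiffOn_log_one_sub hx).continuousOn)
      (integrable_log_mul hψ.lap x).integrableOn, h3]
  · have : ∫ y in DD, Real.log ‖1 - x * conj y‖ * lap ψ y = 0 := by linarith
    rw [this]
    have := Real.pi_pos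
    field_simp; ring
  · filter_upwards [hae] with y hy hy'
    rw [g0_eq hy.symm (one_sub_ne (norm_mul_lt hx hy'))]; ring

lemma eqOn_zero_of_test {U : Set ℂ} (hU : IsOpen U) {F : ℂ → ℝ} (hF : ContinuousOn F U)
    (h : ∀ ψ, Test U ψ → ∫ z in U, F z * ψ z = 0) : ∀ z ∈ U, F z = 0 := by
  have := hU.ae_eq_zero_of_integral_contDiff_smul_eq_zero (μ := volume)
    (hF.locallyIntegrableOn hU.measurableSet) fun g h1 h2 h3 => by
      have h4 : Test U g := ⟨h1, h2, h3⟩
      rw [← h g h4, h4.setIntegral_eq]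
      simp [mul_comm]
  exact Measure.eqOn_open_of_ae_eq (μ := volume) ((ae_restrict_iff' hU.measurableSet).2 this) hU hF
    continuousOn_const

lemma contDiffOn_param {F : ℂ → ℂ → ℝ} {s k : Set ℂ} (hs : IsOpen s) (hk : IsCompact k)
    (h0 : ∀ p y, p ∈ s → y ∉ k → F p y = 0) (hF : ContDiffOn ℝ oo ↿F (s ×ˢ univ)) :
    ContDiffOn ℝ oo (fun p => ∫ y, F p y) s := by
  have := contDiffOn_convolution_right_with_param_comp (μ := volume) (n := ⊤)
    (ContinuousLinearMap.mul ℝ ℝ) (v := fun _ => (0 : ℂ)) contDiffOn_const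
    (f := fun _ : ℂ => (1 : ℝ)) hs hk h0 (continuous_const.locallyIntegrable) hF
  refine this.congr fun p _ => ?_
  rw [convolution_mul]
  simp only [one_mul]
  exact (integral_sub_left_eq_self (F p) volume 0).symm

/-- The Green operator. -/
noncomputable def G0 (g : ℂ → ℝ) (x : ℂ) : ℝ := ∫ y in DD, g0 x y * g y

lemma G0_smooth {g : ℂ → ℝ} (hg : Test DD g) : ∃ R > 1, ContDiffOn ℝ oo (G0 g) (ball 0 R) := by
  obtain ⟨r, hr, hsub⟩ := exists_pos_lt_subset_ball zero_lt_one (isClosed_tsupport g) hg.2.2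
  have hlt : ∀ x ∈ ball (0 : ℂ) r⁻¹, ∀ y ∈ tsupport g, ‖x‖ * ‖y‖ < 1 := by
    intro x hx y hy
    have h1 := mem_ball_zero_iff.1 hx
    have h2 := mem_ball_zero_iff.1 (hsub hy)
    calc ‖x‖ * ‖y‖ ≤ ‖x‖ * r := by gcongr
      _ < r⁻¹ * r := by gcongr; exact hr.1
      _ = 1 := inv_mul_cancel₀ hr.1.ne'
  have hF : ContDiffOn ℝ oo (fun q : ℂ × ℂ => Real.log ‖1 - q.1 * conj q.2‖ * g q.2)
      (ball 0 r⁻¹ ×ˢ univ) := by
    intro q hq
    refine ContDiffAt.contDiffWithinAt ?_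
    by_cases hy : q.2 ∈ tsupport g
    · exact (contDiffAt_log_one_sub (hlt _ hq.1 _ hy)).mul (hg.1.contDiffAt.comp q contDiffAt_snd)
    · refine (contDiffAt_const (c := (0 : ℝ))).congr_of_eventuallyEq ?_
      filter_upwards [continuous_snd.continuousAt.eventually
        (notMem_tsupport_iff_eventuallyEq.1 hy)] with x hx
      simp [hx]
  have h1 := contDiffOn_param (F := fun x y => Real.log ‖1 - x * conj y‖ * g y) isOpen_ball hg.2.1
    (fun p y _ hy => by simp [image_eq_zero_of_notMem_tsupport hy]) hF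
  have h2 := hg.2.1.contDiff_convolution_right (μ := volume) (n := ⊤)
    (ContinuousLinearMap.mul ℝ ℝ) locInt_log hg.1
  refine ⟨r⁻¹, (one_lt_inv₀ hr.1).2 hr.2,
    ((h1.sub h2.contDiffOn).const_smul (2 * Real.pi)⁻¹).congr fun x hx => ?_⟩
  have hi : Integrable fun y => Real.log ‖1 - x * conj y‖ * g y := by
    refine Continuous.integrable_of_hasCompactSupport ?_ hg.2.1.mul_left
    exact continuousOn_univ.1 (hF.continuousOn.comp (f := fun y => (x, y)) (by fun_prop)
      fun y _ => ⟨hx, trivial⟩)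
  have hae : ∀ᵐ y : ℂ, y ≠ x := by simp [ae_iff]
  rw [G0, hg.setIntegral_eq, convolution_mul_swap, smul_eq_mul,
    ← integral_sub hi (integrable_log_mul hg x), ← integral_const_mul]
  refine integral_congr_ae ?_
  filter_upwards [hae] with y hy
  by_cases hy' : y ∈ tsupport g
  · rw [g0_eq hy.symm (one_sub_ne (hlt x hx y hy'))]; ring
  · simp [image_eq_zero_of_notMem_tsupport hy']

lemma integrable_g0_mul {ν : Measure ℂ} [IsFiniteMeasure ν] (hν : ∀ᵐ x ∂ν, x ∈ DD)
    {a b : ℂ → ℝ} (ha : AEStronglyMeasurable a ν) (hb : AEStronglyMeasurable b (volume.restrict DD))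
    {A B : ℝ} (hA : ∀ᵐ x ∂ν, |a x| ≤ A) (hB : ∀ᵐ y ∂(volume.restrict DD), |b y| ≤ B) :
    Integrable (fun p : ℂ × ℂ => a p.1 * (g0 p.1 p.2 * b p.2)) (ν.prod (volume.restrict DD)) :=
  ((integrable_g0_prod hν).mul_bdd hb.comp_snd (Measure.quasiMeasurePreserving_snd.ae hB)).bdd_mul
    ha.comp_fst (Measure.quasiMeasurePreserving_fst.ae hA)

lemma G0_symm {a b : ℂ → ℝ} (ha : Test DD a) (hb : Test DD b) :
    ∫ x in DD, a x * G0 b x = ∫ x in DD, b x * G0 a x := by
  obtain ⟨A, hA⟩ := ha.bdd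
  obtain ⟨B, hB⟩ := hb.bdd
  have := integral_integral_swap (f := fun x y => a x * (g0 x y * b y))
    (integrable_g0_mul (ν := volume.restrict DD) (ae_restrict_mem measurableSet_DD)
      ha.continuous.aestronglyMeasurable
      hb.continuous.aestronglyMeasurable (Eventually.of_forall hA) (Eventually.of_forall hB))
  simp only [G0, ← integral_const_mul]
  rw [this]
  simp only [g0_symm, mul_left_comm, mul_comm]

theorem G0_spec {g : ℂ → ℝ} (hg : Test DD g) : ContDiffOn ℝ oo (G0 g) DD ∧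
    (∀ x ∈ DD, lap (G0 g) x = -g x) ∧
    ∃ C, (∀ x ∈ DD, |G0 g x| ≤ C * hh x) ∧ ∀ x ∈ DD, gdot (G0 g) (G0 g) x ≤ C := by
  obtain ⟨R, hR, hs⟩ := G0_smooth hg
  have hD : ContDiffOn ℝ oo (G0 g) DD := hs.mono (ball_subset_ball hR.le)
  refine ⟨hD, ?_, ?_⟩
  · have := eqOn_zero_of_test isOpen_DD (F := fun x => lap (G0 g) x + g x)
      ((contDiffOn_lap isOpen_DD hD).continuousOn.add hg.continuous.continuousOn) fun ψ hψ => ?_
    · intro x hx; linarith [this x hx]
    have h1 := green1 isOpen_DD (hD.of_le two_le_oo) hψ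
    have h2 := green2 isOpen_DD (hD.of_le one_le_oo) hψ
    have h3 := G0_symm hψ.lap hg
    rw [setIntegral_congr_fun measurableSet_DD (f := fun x => g x * G0 (lap ψ) x)
      (g := fun x => -(g x * ψ x)) (fun x hx => by simp only [G0, G0_lap hψ hx]; ring),
      integral_neg] at h3
    simp only [add_mul]
    rw [integral_add (hψ.integrableOn_mul isOpen_DD (contDiffOn_lap isOpen_DD hD).continuousOn)
      (hψ.integrableOn_mul isOpen_DD hg.continuous.continuousOn)]
    simp only [mul_comm (lap ψ _)] at h3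
    linarith
  have hsub : closedBall (0 : ℂ) 1 ⊆ ball 0 R := closedBall_subset_ball hR
  obtain ⟨C, hC⟩ := (isCompact_closedBall (0 : ℂ) 1).exists_bound_of_continuousOn
    ((hs.continuousOn_fderiv_of_isOpen isOpen_ball one_le_oo).mono hsub)
  have hC0 : 0 ≤ C := (norm_nonneg _).trans (hC 0 (by simp))
  refine ⟨C + 2 * C ^ 2, fun x hx => ?_, fun x hx => ?_⟩
  · have hx1 := mem_DD.1 hx
    obtain ⟨x', h1, h2⟩ : ∃ x' : ℂ, ‖x'‖ = 1 ∧ ‖x - x'‖ = 1 - ‖x‖ := by
      rcases eq_or_ne x 0 with rfl | h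
      · exact ⟨1, by simp⟩
      have h0 : 0 < ‖x‖ := norm_pos_iff.2 h
      refine ⟨‖x‖⁻¹ • x, by simp [h0.ne'], ?_⟩
      have : x - ‖x‖⁻¹ • x = (1 - ‖x‖⁻¹) • x := by rw [sub_smul, one_smul]
      rw [this, norm_smul, Real.norm_eq_abs, abs_of_nonpos (sub_nonpos.2 ((one_le_inv₀ h0).2 hx1.le))]
      field_simp; ring
    have := (convex_closedBall (0 : ℂ) 1).norm_image_sub_le_of_norm_fderiv_le (𝕜 := ℝ) (f := G0 g)
      (fun z hz => (hs.contDiffAt (isOpen_ball.mem_nhds (hsub hz))).differentiableAt oo_ne_zero) hC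
      (mem_closedBall_zero_iff.2 h1.le) (ball_subset_closedBall hx)
    have h3 : G0 g x' = 0 := by simp [G0, g0_sphere h1]
    rw [h3, sub_zero, h2, Real.norm_eq_abs] at this
    have h4 : 1 - ‖x‖ ≤ hh x := by unfold hh; nlinarith [norm_nonneg x]
    have h5 := hh_pos hx
    nlinarith [sq_nonneg C]
  · have h : ∀ v : ℂ, ‖v‖ = 1 → dd v (G0 g) x * dd v (G0 g) x ≤ C ^ 2 := by
      intro v hv
      have := (fderiv ℝ (G0 g) x).le_of_opNorm_le (hC x (ball_subset_closedBall hx)) v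
      rw [hv, mul_one, Real.norm_eq_abs] at this
      rw [← sq, ← sq_abs]
      exact pow_le_pow_left₀ (abs_nonneg _) this 2
    have h1 := h 1 norm_one
    have h2 := h Complex.I Complex.norm_I
    simp only [gdot, d1_eq, d2_eq]
    linarith

theorem dirSolv : DirSolv := fun g hg =>
  let ⟨h1, h2, C, h3, h4⟩ := G0_spec hg
  ⟨G0 g, C, h1, h2, h3, h4⟩

end Vale.Agent.P071
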