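import Vale.Agent.P071.Disc
import Vale.Agent.P071.Green0

/-! First order expansion of the perturbed kernel. -/

open MeasureTheory Set Metric Filter Topology
open scoped ENNReal

namespace Vale.Agent.P071

namespace Expand

variable {m : Measure ℂ} {μ C : ℝ}

lemma ae_DD (h : Pot m μ) : ∀ᵐ w ∂m, w ∈ DD := by
  rw [ae_iff]; exact h.supp

lemma zero_mem : (0 : ℂ) ∈ DD := by simp

lemma G_nonneg (s : ℝ) (x y : ℂ) : 0 ≤ GG m s x y := ENNReal.toReal_nonneg

lemma one_le_C (h : Pot m μ) (hG : GreenAn m μ C) : 1 ≤ C := by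
  have hy : ((1 / 2 : ℝ) : ℂ) ∈ DD := by
    rw [mem_DD, Complex.norm_real]; norm_num
  have hne : (0 : ℂ) ≠ ((1 / 2 : ℝ) : ℂ) := by
    intro h0
    have := congrArg Complex.re h0
    simp at this
  have hs : (0 : ℝ) ∈ Icc 0 μ := ⟨le_rfl, h.mu_pos.le⟩
  have h1 := hG.lower 0 hs 0 zero_mem _ hy
  have h2 := hG.upper 0 hs 0 zero_mem _ hy
  have h3 := g0_pos zero_mem hy hne
  by_contra hc
  push Not at hc
  nlinarith

lemma meas_left (hG : GreenAn m μ C) (s : ℝ) (y : ℂ) : Measurable fun x => GG m s x y :=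
  (hG.meas s).comp (measurable_id.prodMk measurable_const)

lemma meas_right (hG : GreenAn m μ C) (s : ℝ) (x : ℂ) : Measurable fun y => GG m s x y :=
  (hG.meas s).comp (measurable_const.prodMk measurable_id)

lemma prod_le (h : Pot m μ) (hG : GreenAn m μ C) {s s' : ℝ} (hs : s ∈ Icc 0 μ)
    (hs' : s' ∈ Icc 0 μ) {x y w : ℂ} (hx : x ∈ DD) (hy : y ∈ DD) (hw : w ∈ DD) :
    GG m s x w * GG m s' w y ≤ C ^ 2 * (g0 x w * g0 w y) := by
  have hC := one_le_C h hG
  have h1 := hG.upper s hs x hx w hw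
  have h2 := hG.upper s' hs' w hw y hy
  have h3 := g0_nonneg hx hw
  calc GG m s x w * GG m s' w y ≤ (C * g0 x w) * (C * g0 w y) :=
        mul_le_mul h1 h2 (G_nonneg _ _ _) (by positivity)
    _ = _ := by ring

lemma int_GG (h : Pot m μ) (hG : GreenAn m μ C) {s s' : ℝ} (hs : s ∈ Icc 0 μ)
    (hs' : s' ∈ Icc 0 μ) {x y : ℂ} (hx : x ∈ DD) (hy : y ∈ DD) :
    Integrable (fun w => GG m s x w * GG m s' w y) m := by
  refine ((hG.threeG_int x hx y hy).const_mul (C ^ 2)).mono'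
    ((meas_right hG s x).mul (meas_left hG s' y)).aestronglyMeasurable ?_
  filter_upwards [ae_DD h] with w hw
  rw [Real.norm_eq_abs, abs_of_nonneg (mul_nonneg (G_nonneg _ _ _) (G_nonneg _ _ _))]
  exact prod_le h hG hs hs' hx hy hw

lemma int_GG_nonneg (s s' : ℝ) (x y : ℂ) : 0 ≤ ∫ w, GG m s x w * GG m s' w y ∂m :=
  integral_nonneg fun _ => mul_nonneg (G_nonneg _ _ _) (G_nonneg _ _ _)

lemma int_GG_le (h : Pot m μ) (hG : GreenAn m μ C) {s s' : ℝ} (hs : s ∈ Icc 0 μ)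
    (hs' : s' ∈ Icc 0 μ) {x y : ℂ} (hx : x ∈ DD) (hy : y ∈ DD) (hxy : x ≠ y) :
    ∫ w, GG m s x w * GG m s' w y ∂m ≤ C ^ 3 * g0 x y := by
  have hC := one_le_C h hG
  calc ∫ w, GG m s x w * GG m s' w y ∂m ≤ ∫ w, C ^ 2 * (g0 x w * g0 w y) ∂m := by
        refine integral_mono_ae (int_GG h hG hs hs' hx hy)
          ((hG.threeG_int x hx y hy).const_mul _) ?_
        filter_upwards [ae_DD h] with w hw
        exact prod_le h hG hs hs' hx hy hw
    _ = C ^ 2 * ∫ w, g0 x w * g0 w y ∂m := integral_const_mul _ _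
    _ ≤ C ^ 2 * (C * g0 x y) := by
        have := hG.threeG x hx y hy hxy
        gcongr
    _ = _ := by ring

section
variable {t : ℝ}

lemma mem1 (h : Pot m μ) : μ ∈ Icc 0 μ := ⟨h.mu_pos.le, le_rfl⟩

lemma mem2 (ht : 0 < t) (ht' : t ≤ μ) : μ - t ∈ Icc 0 μ := ⟨by linarith, by linarith⟩

lemma resolv (hG : GreenAn m μ C) (ht : 0 < t) (ht' : t ≤ μ) {x y : ℂ} (hx : x ∈ DD)
    (hy : y ∈ DD) (hxy : x ≠ y) :
    GG m μ x y = GG m (μ - t) x y + t * ∫ w, GG m μ x w * GG m (μ - t) w y ∂m := by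
  have := hG.resolvent (μ - t) μ (by linarith) (by linarith) le_rfl x hx y hy hxy
  rwa [sub_sub_cancel] at this

lemma G'_le (hG : GreenAn m μ C) (ht : 0 < t) (ht' : t ≤ μ) {x y : ℂ} (hx : x ∈ DD)
    (hy : y ∈ DD) : GG m (μ - t) x y ≤ GG m μ x y := by
  rcases eq_or_ne x y with rfl | hxy
  · rw [hG.diag, hG.diag]
  rw [resolv hG ht ht' hx hy hxy]
  have := int_GG_nonneg (m := m) μ (μ - t) x y
  nlinarith

lemma G_sub_le (h : Pot m μ) (hG : GreenAn m μ C) (ht : 0 < t) (ht' : t ≤ μ) {x y : ℂ}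
    (hx : x ∈ DD) (hy : y ∈ DD) : GG m μ x y - GG m (μ - t) x y ≤ t * C ^ 3 * g0 x y := by
  rcases eq_or_ne x y with rfl | hxy
  · rw [hG.diag, hG.diag, g0_self]; simp
  rw [resolv hG ht ht' hx hy hxy]
  have := int_GG_le h hG (mem1 h) (mem2 ht ht') hx hy hxy
  nlinarith

lemma J_sub_I (h : Pot m μ) (hG : GreenAn m μ C) (ht : 0 < t) (ht' : t ≤ μ) {x y : ℂ}
    (hx : x ∈ DD) (hy : y ∈ DD) (hxy : x ≠ y) :
    |(∫ w, GG m μ x w * GG m μ w y ∂m) - ∫ w, GG m μ x w * GG m (μ - t) w y ∂m| ≤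
      t * C ^ 5 * g0 x y := by
  have hC := one_le_C h hG
  rw [← integral_sub (int_GG h hG (mem1 h) (mem1 h) hx hy)
    (int_GG h hG (mem1 h) (mem2 ht ht') hx hy)]
  have hb : ∀ᵐ w ∂m, ‖GG m μ x w * GG m μ w y - GG m μ x w * GG m (μ - t) w y‖ ≤
      t * C ^ 4 * (g0 x w * g0 w y) := by
    filter_upwards [ae_DD h] with w hw
    have h1 := G'_le hG ht ht' hw hy
    have h2 := G_sub_le h hG ht ht' hw hy
    have h3 := hG.upper μ (mem1 h) x hx w hw
    have h4 := g0_nonneg hx hw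
    rw [← mul_sub, Real.norm_eq_abs, abs_of_nonneg (mul_nonneg (G_nonneg _ _ _) (by linarith))]
    calc _ ≤ (C * g0 x w) * (t * C ^ 3 * g0 w y) :=
          mul_le_mul h3 h2 (by linarith) (by positivity)
      _ = _ := by ring
  have := norm_integral_le_of_norm_le ((hG.threeG_int x hx y hy).const_mul (t * C ^ 4)) hb
  rw [Real.norm_eq_abs, integral_const_mul] at this
  refine this.trans ?_
  have h5 := hG.threeG x hx y hy hxy
  calc _ ≤ t * C ^ 4 * (C * g0 x y) := by gcongr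
    _ = _ := by ring

/-- the purely algebraic estimate -/
lemma alg {C t g G G' I J a a' b b' : ℝ} (hC : 1 ≤ C) (ht : 0 < t) (hg : 0 < g)
    (hG' : g ≤ G') (hI : 0 ≤ I) (hI' : I ≤ C ^ 3 * g) (hJ : 0 ≤ J) (hJ' : J ≤ C ^ 3 * g)
    (hGG : G = G' + t * I) (hIJ : |J - I| ≤ t * C ^ 5 * g) (ha : 0 ≤ a) (ha' : 0 ≤ a')
    (hab : a ≤ b) (hab' : a' ≤ b') (hb : b - a ≤ t * C ^ 3 * b) (hb' : b' - a' ≤ t * C ^ 3 * b') :
    |G * (a * a' / G') - a * a' - t * (J / G * (b * b'))| ≤ 4 * C ^ 6 * t ^ 2 * (b * b') := by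
  have hG'0 : 0 < G' := by linarith
  have hgG : g ≤ G := by rw [hGG]; nlinarith
  have hG0 : 0 < G := by linarith
  have e1 : G * (a * a' / G') - a * a' - t * (J / G * (b * b')) =
      t * (a * a' * (I / G' - J / G) - (b * b' - a * a') * (J / G)) := by
    have : G * (a * a' / G') = a * a' + t * (a * a' * (I / G')) := by
      rw [hGG]; field_simp
    rw [this]; ring
  have hQ : J / G ≤ C ^ 3 := by
    rw [div_le_iff₀ hG0]
    have : C ^ 3 * g ≤ C ^ 3 * G := by gcongr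
    linarith
  have hQ0 : 0 ≤ J / G := by positivity
  have hP : I / G' ≤ C ^ 3 := by
    rw [div_le_iff₀ hG'0]
    have : C ^ 3 * g ≤ C ^ 3 * G' := by gcongr
    linarith
  have hP2 : I / G ≤ C ^ 3 := by
    rw [div_le_iff₀ hG0]
    have : C ^ 3 * g ≤ C ^ 3 * G := by gcongr
    linarith
  have e2 : I / G' - J / G = t * (I / G') * (I / G) - (J - I) / G := by
    have : I / G' - I / G = t * (I / G') * (I / G) := by
      rw [div_sub_div _ _ hG'0.ne' hG0.ne']
      have : I * G - G' * I = t * I * I := by rw [hGG]; ring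
      rw [this]; field_simp
    rw [← this]; ring
  have h56 : C ^ 5 ≤ C ^ 6 := pow_le_pow_right₀ hC (by norm_num)
  have hPQ : |I / G' - J / G| ≤ 2 * C ^ 6 * t := by
    rw [e2]
    refine (abs_sub _ _).trans ?_
    have h1 : |t * (I / G') * (I / G)| ≤ t * C ^ 6 := by
      rw [abs_of_nonneg (by positivity)]
      calc t * (I / G') * (I / G) ≤ t * C ^ 3 * C ^ 3 := by gcongr
        _ = _ := by ring
    have h2 : |(J - I) / G| ≤ t * C ^ 6 := by
      rw [abs_div, abs_of_pos hG0, div_le_iff₀ hG0]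
      calc |J - I| ≤ t * C ^ 5 * g := hIJ
        _ ≤ t * C ^ 6 * G := by gcongr
    linarith
  have hb0 : 0 ≤ b := by linarith
  have hb0' : 0 ≤ b' := by linarith
  have haa : a * a' ≤ b * b' := mul_le_mul hab hab' ha' hb0
  have hbb : b * b' - a * a' ≤ 2 * (t * C ^ 3) * (b * b') := by
    have h1 : (b - a) * b' ≤ t * C ^ 3 * b * b' := by gcongr
    have h2 : a * (b' - a') ≤ b * (t * C ^ 3 * b') := mul_le_mul hab hb' (by linarith) hb0
    nlinarith
  rw [e1, abs_mul, abs_of_pos ht]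
  have h3 : |a * a' * (I / G' - J / G)| ≤ b * b' * (2 * C ^ 6 * t) := by
    rw [abs_mul, abs_of_nonneg (by positivity)]
    exact mul_le_mul haa hPQ (abs_nonneg _) (by positivity)
  have h4 : |(b * b' - a * a') * (J / G)| ≤ 2 * (t * C ^ 3) * (b * b') * C ^ 3 := by
    rw [abs_of_nonneg (mul_nonneg (by linarith) hQ0)]
    exact mul_le_mul hbb hQ hQ0 (by positivity)
  calc t * |a * a' * (I / G' - J / G) - (b * b' - a * a') * (J / G)|
      ≤ t * (b * b' * (2 * C ^ 6 * t) + 2 * (t * C ^ 3) * (b * b') * C ^ 3) := by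
        gcongr
        exact (abs_sub _ _).trans (add_le_add h3 h4)
    _ = _ := by ring

lemma pointwise (h : Pot m μ) (hG : GreenAn m μ C) (ht : 0 < t) (ht' : t ≤ μ) {x y : ℂ}
    (hx : x ∈ DD) (hy : y ∈ DD) (hxy : x ≠ y) :
    |GG m μ x y * NN m (μ - t) 0 x y - GG m (μ - t) x 0 * GG m (μ - t) y 0 -
      t * ((∫ w, GG m μ x w * GG m μ w y ∂m) / GG m μ x y * (GG m μ x 0 * GG m μ y 0))| ≤
      4 * C ^ 6 * t ^ 2 * (GG m μ x 0 * GG m μ y 0) := by
  have hC := one_le_C h hG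
  have hb : ∀ z ∈ DD, GG m μ z 0 - GG m (μ - t) z 0 ≤ t * C ^ 3 * GG m μ z 0 := by
    intro z hz
    refine (G_sub_le h hG ht ht' hz zero_mem).trans ?_
    have := hG.lower μ (mem1 h) z hz 0 zero_mem
    gcongr
  exact alg hC ht (g0_pos hx hy hxy) (hG.lower _ (mem2 ht ht') x hx y hy)
    (int_GG_nonneg _ _ _ _) (int_GG_le h hG (mem1 h) (mem2 ht ht') hx hy hxy)
    (int_GG_nonneg _ _ _ _) (int_GG_le h hG (mem1 h) (mem1 h) hx hy hxy)
    (resolv hG ht ht' hx hy hxy) (J_sub_I h hG ht ht' hx hy hxy) (G_nonneg _ _ _) (G_nonneg _ _ _)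
    (G'_le hG ht ht' hx zero_mem) (G'_le hG ht ht' hy zero_mem) (hb x hx) (hb y hy)

end

lemma g0_shell {δ : ℝ} (hδ : 0 < δ) (hδ' : δ ≤ 1 / 4) {x : ℂ} (hx : x ∈ shell δ) :
    g0 x 0 ≤ δ := by
  have h1 : hh x ≤ 2 * δ := hx.2
  have h2 : δ ≤ hh x := hx.1
  have h3 : 1 / 2 ≤ ‖x‖ ^ 2 := by unfold hh at h1; linarith
  have hne : x ≠ 0 := by
    rintro rfl
    simp at h3
    linarith
  rw [g0_eq' hne]
  have h0 : hh 0 = 1 := by simp [hh]
  rw [h0, sub_zero, mul_one]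
  have h4 : hh x / ‖x‖ ^ 2 ≤ 4 * δ := by
    rw [div_le_iff₀ (by linarith)]; nlinarith
  have h5 : 0 ≤ hh x / ‖x‖ ^ 2 := div_nonneg (by linarith) (by positivity)
  have h6 : Real.log (1 + hh x / ‖x‖ ^ 2) ≤ 4 * δ := by
    have := Real.log_le_sub_one_of_pos (show 0 < 1 + hh x / ‖x‖ ^ 2 by linarith)
    linarith
  have hp := Real.pi_gt_three
  calc (4 * Real.pi)⁻¹ * Real.log (1 + hh x / ‖x‖ ^ 2) ≤ (4 * Real.pi)⁻¹ * (4 * δ) := by gcongr
    _ ≤ δ := by
      rw [inv_mul_le_iff₀ (by positivity)]; nlinarith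

section
variable {t δ T : ℝ} {k : ℂ → ℝ}

lemma int_k (hδ : 0 < δ) (hk : Continuous k) (hk0 : ∀ z ∉ shell δ, k z = 0) :
    Integrable k (volume.restrict DD) :=
  (hk.integrable_of_hasCompactSupport (HasCompactSupport.intro (isCompact_shell hδ) hk0)).integrableOn

lemma g0k_le (hδ : 0 < δ) (hδ' : δ ≤ 1 / 4) (hk0 : ∀ z ∉ shell δ, k z = 0) (x : ℂ) :
    g0 x 0 * |k x| ≤ δ * |k x| := by
  by_cases hx : x ∈ shell δ
  · exact mul_le_mul_of_nonneg_right (g0_shell hδ hδ' hx) (abs_nonneg _)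
  · simp [hk0 x hx]

lemma Gk_le (h : Pot m μ) (hG : GreenAn m μ C) (hδ : 0 < δ) (hδ' : δ ≤ 1 / 4)
    (hk0 : ∀ z ∉ shell δ, k z = 0) {s : ℝ} (hs : s ∈ Icc 0 μ) {x : ℂ} (hx : x ∈ DD) :
    |GG m s x 0 * k x| ≤ C * δ * |k x| := by
  have hC := one_le_C h hG
  rw [abs_mul, abs_of_nonneg (G_nonneg _ _ _)]
  have h1 := hG.upper s hs x hx 0 zero_mem
  have h2 := g0k_le hδ hδ' hk0 x
  calc _ ≤ C * g0 x 0 * |k x| := by gcongr
    _ = C * (g0 x 0 * |k x|) := by ring
    _ ≤ C * (δ * |k x|) := by gcongr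
    _ = _ := by ring

lemma int_Gk (h : Pot m μ) (hG : GreenAn m μ C) (hδ : 0 < δ) (hδ' : δ ≤ 1 / 4)
    (hk : Continuous k) (hk0 : ∀ z ∉ shell δ, k z = 0) {s : ℝ} (hs : s ∈ Icc 0 μ) :
    Integrable (fun x => GG m s x 0 * k x) (volume.restrict DD) := by
  refine ((int_k hδ hk hk0).abs.const_mul (C * δ)).mono'
    ((meas_left hG s 0).mul hk.measurable).aestronglyMeasurable ?_
  filter_upwards [ae_restrict_mem measurableSet_DD] with x hx
  exact Gk_le h hG hδ hδ' hk0 hs hx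

lemma int_Gk_le (h : Pot m μ) (hG : GreenAn m μ C) (hδ : 0 < δ) (hδ' : δ ≤ 1 / 4)
    (hk : Continuous k) (hk0 : ∀ z ∉ shell δ, k z = 0) (hT : ∫ z in DD, |k z| ≤ T / δ)
    {s : ℝ} (hs : s ∈ Icc 0 μ) : ∫ x in DD, |GG m s x 0 * k x| ≤ C * T := by
  have hC := one_le_C h hG
  calc ∫ x in DD, |GG m s x 0 * k x| ≤ ∫ x in DD, C * δ * |k x| :=
        setIntegral_mono_on (int_Gk h hG hδ hδ' hk hk0 hs).abs
          ((int_k hδ hk hk0).abs.const_mul (C * δ)) measurableSet_DD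
          fun x hx => Gk_le h hG hδ hδ' hk0 hs hx
    _ = C * δ * ∫ x in DD, |k x| := integral_const_mul _ _
    _ ≤ C * δ * (T / δ) := by gcongr
    _ = C * T := by field_simp

lemma ae_ne (y : ℂ) : ∀ᵐ x ∂(volume.restrict DD), x ≠ y :=
  ae_restrict_of_ae (by simp [ae_iff])

/-- the first term is of second order -/
lemma first_term (h : Pot m μ) (hG : GreenAn m μ C) (ht : 0 < t) (ht' : t ≤ μ) (hδ : 0 < δ)
    (hδ' : δ ≤ 1 / 4) (hk : Continuous k) (hk0 : ∀ z ∉ shell δ, k z = 0)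
    (h0 : ∫ y in DD, GG m μ 0 y * k y = 0)
    (hv : MemLp (fun x => ∫ y in DD, GG m μ x y * k y) 2 m)
    (hvT : ∫ x, (∫ y in DD, GG m μ x y * k y) ^ 2 ∂m ≤ T) :
    |∫ x in DD, GG m (μ - t) x 0 * k x| ≤ t * (T + C ^ 2 * ∫ w, g0 0 w * g0 w 0 ∂m) := by
  have hC := one_le_C h hG
  have := h.fin
  have hm : Measurable fun q : ℂ × ℂ => GG m μ q.1 q.2 * GG m (μ - t) q.2 0 * k q.1 :=
    ((hG.meas μ).mul ((meas_left hG _ 0).comp measurable_snd)).mul
      (hk.measurable.comp measurable_fst)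
  have hI : Integrable (fun q : ℂ × ℂ => GG m μ q.1 q.2 * GG m (μ - t) q.2 0 * k q.1)
      ((volume.restrict DD).prod m) := by
    rw [integrable_prod_iff hm.aestronglyMeasurable]
    constructor
    · filter_upwards [ae_restrict_mem measurableSet_DD] with x hx
      exact (int_GG h hG (mem1 h) (mem2 ht ht') hx zero_mem).mul_const _
    · refine ((int_k hδ hk hk0).abs.const_mul (C ^ 3 * δ)).mono'
        hm.norm.stronglyMeasurable.integral_prod_right'.aestronglyMeasurable ?_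
      filter_upwards [ae_restrict_mem measurableSet_DD, ae_ne 0] with x hx hx0
      rw [Real.norm_eq_abs, abs_of_nonneg (integral_nonneg fun _ => norm_nonneg _)]
      have e : ∀ w, ‖GG m μ x w * GG m (μ - t) w 0 * k x‖ =
          GG m μ x w * GG m (μ - t) w 0 * |k x| := by
        intro w
        rw [Real.norm_eq_abs, abs_mul, abs_of_nonneg (mul_nonneg (G_nonneg _ _ _) (G_nonneg _ _ _))]
      simp only [e]
      rw [integral_mul_const]
      have h1 := int_GG_le h hG (mem1 h) (mem2 ht ht') hx zero_mem hx0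
      have h2 := g0k_le hδ hδ' hk0 x
      calc _ ≤ C ^ 3 * g0 x 0 * |k x| := by gcongr
        _ = C ^ 3 * (g0 x 0 * |k x|) := by ring
        _ ≤ C ^ 3 * (δ * |k x|) := by gcongr
        _ = _ := by ring
  have hswap := integral_integral_swap
    (f := fun x w => GG m μ x w * GG m (μ - t) w 0 * k x) hI
  have e1 : ∫ x in DD, GG m (μ - t) x 0 * k x =
      (∫ x in DD, GG m μ x 0 * k x) - t * ∫ x in DD, ∫ w, GG m μ x w * GG m (μ - t) w 0 * k x ∂m := by
    rw [← integral_const_mul, ← integral_sub (int_Gk h hG hδ hδ' hk hk0 (mem1 h))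
      (hI.integral_prod_left.const_mul t)]
    refine integral_congr_ae ?_
    filter_upwards [ae_restrict_mem measurableSet_DD, ae_ne 0] with x hx hx0
    rw [integral_mul_const, resolv hG ht ht' hx zero_mem hx0]; ring
  have e2 : ∫ x in DD, GG m μ x 0 * k x = 0 := by
    rw [← h0]; simp only [hG.symm μ 0]
  have e3 : ∀ w, ∫ x in DD, GG m μ x w * GG m (μ - t) w 0 * k x =
      (∫ y in DD, GG m μ w y * k y) * GG m (μ - t) w 0 := by
    intro w
    rw [← integral_mul_const]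
    refine integral_congr_ae (Eventually.of_forall fun x => ?_)
    simp only [hG.symm μ w x]; ring
  rw [e1, e2, hswap, zero_sub, abs_neg, abs_mul, abs_of_pos ht]
  simp only [e3]
  refine mul_le_mul_of_nonneg_left ?_ ht.le
  have hi2 := hv.integrable_sq
  have hi3 := (hG.threeG_int 0 zero_mem 0 zero_mem).const_mul (C ^ 2)
  have hb : ∀ᵐ w ∂m, ‖(∫ y in DD, GG m μ w y * k y) * GG m (μ - t) w 0‖ ≤
      (∫ y in DD, GG m μ w y * k y) ^ 2 + C ^ 2 * (g0 0 w * g0 w 0) := by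
    filter_upwards [ae_DD h] with w hw
    have h1 := prod_le h hG (mem2 ht ht') (mem2 ht ht') zero_mem zero_mem hw
    rw [hG.symm (μ - t) 0 w] at h1
    rw [Real.norm_eq_abs, abs_le]
    constructor <;>
      nlinarith [sq_nonneg ((∫ y in DD, GG m μ w y * k y) + GG m (μ - t) w 0),
        sq_nonneg ((∫ y in DD, GG m μ w y * k y) - GG m (μ - t) w 0),
        sq_nonneg (∫ y in DD, GG m μ w y * k y), sq_nonneg (GG m (μ - t) w 0)]
  have := norm_integral_le_of_norm_le (hi2.add hi3) hb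
  rw [Real.norm_eq_abs] at this
  refine this.trans ?_
  simp only [Pi.add_apply]
  rw [integral_add hi2 hi3, integral_const_mul]
  linarith

lemma ae_prod_DD : ∀ᵐ q ∂((volume.restrict DD).prod (volume.restrict DD)),
    q.1 ∈ DD ∧ q.2 ∈ DD ∧ q.1 ≠ q.2 := by
  have h1 : ∀ᵐ q ∂((volume.restrict DD).prod (volume.restrict DD)), q.1 ∈ DD :=
    Measure.quasiMeasurePreserving_fst.ae (ae_restrict_mem measurableSet_DD)
  have h2 : ∀ᵐ q ∂((volume.restrict DD).prod (volume.restrict DD)), q.2 ∈ DD :=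
    Measure.quasiMeasurePreserving_snd.ae (ae_restrict_mem measurableSet_DD)
  have h3 : ∀ᵐ q ∂((volume.restrict DD).prod (volume.restrict DD)), q.1 ≠ q.2 := by
    refine (Measure.ae_prod_iff_ae_ae (p := fun q : ℂ × ℂ => q.1 ≠ q.2)
      (measurableSet_eq_fun measurable_fst measurable_snd).compl).2 ?_
    exact Eventually.of_forall fun x => (ae_ne x).mono fun y hy => hy.symm
  filter_upwards [h1, h2, h3] with q a b c using ⟨a, b, c⟩

lemma NN_int (hG : GreenAn m μ C) (x y : ℂ) :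
    ∫ p, NN m μ p x y ∂m = (∫ w, GG m μ x w * GG m μ w y ∂m) / GG m μ x y := by
  simp only [NN]
  rw [integral_div]
  simp only [hG.symm μ y]

lemma Q_le (h : Pot m μ) (hG : GreenAn m μ C) {x y : ℂ} (hx : x ∈ DD) (hy : y ∈ DD)
    (hxy : x ≠ y) : (∫ w, GG m μ x w * GG m μ w y ∂m) / GG m μ x y ≤ C ^ 3 := by
  have hC := one_le_C h hG
  have h1 := g0_pos hx hy hxy
  have h2 := hG.lower μ (mem1 h) x hx y hy
  rw [div_le_iff₀ (by linarith)]
  refine (int_GG_le h hG (mem1 h) (mem1 h) hx hy hxy).trans ?_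
  gcongr

lemma NN_nonneg (s : ℝ) (p x y : ℂ) : 0 ≤ NN m s p x y :=
  div_nonneg (mul_nonneg (G_nonneg _ _ _) (G_nonneg _ _ _)) (G_nonneg _ _ _)

lemma second_term (h : Pot m μ) (hG : GreenAn m μ C) {c : ℂ → ℝ} (hcm : Measurable c)
    (hc : Integrable c (volume.restrict DD)) :
    Integrable (fun q : ℂ × ℂ => (∫ w, GG m μ q.1 w * GG m μ w q.2 ∂m) / GG m μ q.1 q.2 *
      (c q.1 * c q.2)) ((volume.restrict DD).prod (volume.restrict DD)) ∧
    ∫ p, (∫ x in DD, ∫ y in DD, NN m μ p x y * (c x * c y)) ∂m =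
      ∫ q : ℂ × ℂ, (∫ w, GG m μ q.1 w * GG m μ w q.2 ∂m) / GG m μ q.1 q.2 * (c q.1 * c q.2)
        ∂((volume.restrict DD).prod (volume.restrict DD)) := by
  have := h.fin
  have hm : Measurable fun r : (ℂ × ℂ) × ℂ => NN m μ r.2 r.1.1 r.1.2 * (c r.1.1 * c r.1.2) := by
    refine Measurable.mul (Measurable.div (Measurable.mul ?_ ?_) ?_) (Measurable.mul ?_ ?_)
    · exact (hG.meas μ).comp (measurable_fst.fst.prodMk measurable_snd)
    · exact (hG.meas μ).comp (measurable_fst.snd.prodMk measurable_snd)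
    · exact (hG.meas μ).comp measurable_fst
    · exact hcm.comp measurable_fst.fst
    · exact hcm.comp measurable_fst.snd
  have hI : Integrable (fun r : (ℂ × ℂ) × ℂ => NN m μ r.2 r.1.1 r.1.2 * (c r.1.1 * c r.1.2))
      (((volume.restrict DD).prod (volume.restrict DD)).prod m) := by
    rw [integrable_prod_iff hm.aestronglyMeasurable]
    constructor
    · filter_upwards [ae_prod_DD] with q hq
      refine Integrable.mul_const ?_ _
      simp only [NN, hG.symm μ q.2]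
      exact (int_GG h hG (mem1 h) (mem1 h) hq.1 hq.2.1).div_const _
    · refine ((hc.mul_prod hc).abs.const_mul (C ^ 3)).mono'
        hm.norm.stronglyMeasurable.integral_prod_right'.aestronglyMeasurable ?_
      filter_upwards [ae_prod_DD] with q hq
      rw [Real.norm_eq_abs, abs_of_nonneg (integral_nonneg fun _ => norm_nonneg _)]
      have e : ∀ w, ‖NN m μ w q.1 q.2 * (c q.1 * c q.2)‖ = NN m μ w q.1 q.2 * |c q.1 * c q.2| := by
        intro w
        rw [Real.norm_eq_abs, abs_mul, abs_of_nonneg (NN_nonneg _ _ _ _)]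
      simp only [e]
      rw [integral_mul_const, NN_int hG]
      exact mul_le_mul_of_nonneg_right (Q_le h hG hq.1 hq.2.1 hq.2.2) (abs_nonneg _)
  have e : ∀ q : ℂ × ℂ, ∫ p, NN m μ p q.1 q.2 * (c q.1 * c q.2) ∂m =
      (∫ w, GG m μ q.1 w * GG m μ w q.2 ∂m) / GG m μ q.1 q.2 * (c q.1 * c q.2) := by
    intro q
    rw [integral_mul_const, NN_int hG]
  constructor
  · have := hI.integral_prod_left
    simpa only [e] using this
  · have hswap := integral_integral_swap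
      (f := fun (q : ℂ × ℂ) p => NN m μ p q.1 q.2 * (c q.1 * c q.2)) hI
    simp only [e] at hswap
    rw [hswap]
    refine integral_congr_ae ?_
    filter_upwards [hI.prod_left_ae] with p hp
    exact (integral_prod _ hp).symm

end

end Expand

open Expand in
theorem expand {m : Measure ℂ} {μ C : ℝ} (h : Pot m μ) (hG : GreenAn m μ C) (T : ℝ) :
    ∃ K : ℝ, ∀ t, 0 < t → t ≤ μ → ∀ δ, 0 < δ → δ ≤ 1 / 4 → ∀ k : ℂ → ℝ, Continuous k →
      (∀ z ∉ shell δ, k z = 0) → ∫ z in DD, |k z| ≤ T / δ →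
      ∫ y in DD, GG m μ 0 y * k y = 0 → MemLp (fun x => ∫ y in DD, GG m μ x y * k y) 2 m →
      ∫ x, (∫ y in DD, GG m μ x y * k y) ^ 2 ∂m ≤ T →
      ∫ x in DD, ∫ y in DD, GG m μ x y * NN m (μ - t) 0 x y * (k x * k y) ≤
        K * t ^ 2 + t * ∫ p, QN m μ k p ∂m := by
  refine ⟨(T + C ^ 2 * ∫ w, g0 0 w * g0 w 0 ∂m) ^ 2 + 4 * C ^ 6 * (C * T) ^ 2,
    fun t ht ht' δ hδ hδ' k hk hk0 hT h0 hv hvT => ?_⟩
  have hC := one_le_C h hG
  set c : ℂ → ℝ := fun x => GG m μ x 0 * k x with hc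
  set a : ℂ → ℝ := fun x => GG m (μ - t) x 0 * k x with ha
  have hci : Integrable c (volume.restrict DD) := int_Gk h hG hδ hδ' hk hk0 (mem1 h)
  have hai : Integrable a (volume.restrict DD) := int_Gk h hG hδ hδ' hk hk0 (mem2 ht ht')
  have hcT : ∫ x in DD, |c x| ≤ C * T := int_Gk_le h hG hδ hδ' hk hk0 hT (mem1 h)
  have h1 := first_term h hG ht ht' hδ hδ' hk hk0 h0 hv hvT
  have hcm : Measurable c := (meas_left hG μ 0).mul hk.measurable
  obtain ⟨h2, h3⟩ := second_term h hG hcm hci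
  set Q : ℂ × ℂ → ℝ := fun q => (∫ w, GG m μ q.1 w * GG m μ w q.2 ∂m) / GG m μ q.1 q.2 *
      (c q.1 * c q.2) with hQ
  set F : ℂ × ℂ → ℝ := fun q => GG m μ q.1 q.2 * NN m (μ - t) 0 q.1 q.2 * (k q.1 * k q.2) with hF
  have hFm : Measurable F := by
    refine Measurable.mul ((hG.meas μ).mul (Measurable.div (Measurable.mul ?_ ?_) (hG.meas _))) ?_
    · exact (meas_left hG _ 0).comp measurable_fst
    · exact (meas_left hG _ 0).comp measurable_snd
    · exact (hk.measurable.comp measurable_fst).mul (hk.measurable.comp measurable_snd)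
  have hb : ∀ᵐ q ∂((volume.restrict DD).prod (volume.restrict DD)),
      |F q - (a q.1 * a q.2 + t * Q q)| ≤ 4 * C ^ 6 * t ^ 2 * (|c q.1| * |c q.2|) := by
    filter_upwards [ae_prod_DD] with q hq
    have := pointwise h hG ht ht' hq.1 hq.2.1 hq.2.2
    have e : F q - (a q.1 * a q.2 + t * Q q) = (GG m μ q.1 q.2 * NN m (μ - t) 0 q.1 q.2 -
        GG m (μ - t) q.1 0 * GG m (μ - t) q.2 0 - t * ((∫ w, GG m μ q.1 w * GG m μ w q.2 ∂m) /
        GG m μ q.1 q.2 * (GG m μ q.1 0 * GG m μ q.2 0))) * (k q.1 * k q.2) := by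
      simp only [hF, hQ, ha, hc]; ring
    rw [e, abs_mul]
    refine (mul_le_mul_of_nonneg_right this (abs_nonneg _)).trans (le_of_eq ?_)
    simp only [hc, abs_mul, abs_of_nonneg (G_nonneg (m := m) _ _ _)]
    ring
  have hAi : Integrable (fun q : ℂ × ℂ => a q.1 * a q.2 + t * Q q)
      ((volume.restrict DD).prod (volume.restrict DD)) := (hai.mul_prod hai).add (h2.const_mul t)
  have hBi := (hci.abs.mul_prod hci.abs).const_mul (4 * C ^ 6 * t ^ 2)
  have hFi : Integrable F ((volume.restrict DD).prod (volume.restrict DD)) := by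
    refine (hAi.abs.add hBi).mono' hFm.aestronglyMeasurable ?_
    filter_upwards [hb] with q hq
    have := abs_sub_abs_le_abs_sub (F q) (a q.1 * a q.2 + t * Q q)
    simp only [Real.norm_eq_abs, Pi.add_apply]
    linarith
  have hle : ∫ q, F q ∂((volume.restrict DD).prod (volume.restrict DD)) ≤
      ∫ q : ℂ × ℂ, (a q.1 * a q.2 + t * Q q) + 4 * C ^ 6 * t ^ 2 * (|c q.1| * |c q.2|)
        ∂((volume.restrict DD).prod (volume.restrict DD)) := by
    refine integral_mono_ae hFi (hAi.add hBi) ?_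
    filter_upwards [hb] with q hq
    have := (abs_le.1 hq).2
    linarith
  rw [integral_add hAi hBi, integral_add (hai.mul_prod hai) (h2.const_mul t), integral_const_mul,
    integral_const_mul, integral_prod_mul, integral_prod_mul (fun x => |c x|) fun x => |c x|,
    integral_prod _ hFi, ← h3] at hle
  refine hle.trans ?_
  have h4 : (∫ x in DD, a x) * ∫ x in DD, a x ≤
      (t * (T + C ^ 2 * ∫ w, g0 0 w * g0 w 0 ∂m)) ^ 2 := by
    rw [← sq, ← sq_abs]
    exact pow_le_pow_left₀ (abs_nonneg _) h1 2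
  have h5 : (∫ x in DD, |c x|) * ∫ x in DD, |c x| ≤ (C * T) ^ 2 := by
    rw [← sq]
    exact pow_le_pow_left₀ (integral_nonneg fun _ => abs_nonneg _) hcT 2
  have h6 : 4 * C ^ 6 * t ^ 2 * ((∫ x in DD, |c x|) * ∫ x in DD, |c x|) ≤
      4 * C ^ 6 * t ^ 2 * (C * T) ^ 2 := by gcongr
  simp only [QN]
  nlinarith

end Vale.Agent.P071
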