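import Vale.Agent.P071.FinalAux

/-! Conditional negativity for densities and the final contradiction. -/

open MeasureTheory Set Metric Filter Topology
open scoped ENNReal

namespace Vale.Agent.P071

namespace FinalAux

open CNDAux

variable {m : Measure ℂ} {μ C : ℝ}

theorem zero_mem : (0 : ℂ) ∈ DD := mem_ball_self one_pos

theorem mu_mem (h : Pot m μ) : μ ∈ Icc 0 μ := ⟨h.mu_pos.le, le_rfl⟩

theorem C_nonneg (h : Pot m μ) (hG : GreenAn m μ C) : 0 ≤ C := by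
  have hx : (1 / 2 : ℂ) ∈ DD := by norm_num [DD]
  have h1 := g0_pos hx zero_mem (by norm_num)
  have h2 := (GG_nonneg _ _ _).trans (hG.upper μ (mu_mem h) _ hx _ zero_mem)
  exact (mul_nonneg_iff_of_pos_right h1).1 h2

theorem fin_DD : IsFiniteMeasure (volume.restrict DD) :=
  ⟨by rw [Measure.restrict_apply_univ]; exact measure_ball_lt_top⟩

theorem ae_DD : ∀ᵐ x ∂(volume.restrict DD), x ∈ DD := ae_restrict_mem measurableSet_ball

theorem ae_ne_DD (p : ℂ) : ∀ᵐ x ∂(volume.restrict DD), x ≠ p :=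
  ae_restrict_of_ae (by rw [ae_iff]; simp)

theorem intG (h : Pot m μ) (hG : GreenAn m μ C) : ∃ K0 : ℝ, ∀ p ∈ DD,
    IntegrableOn (fun x => GG m μ x p) DD ∧ ∫ x in DD, GG m μ x p ≤ K0 := by
  obtain ⟨K0, hK⟩ := exists_K0
  have hC := C_nonneg h hG
  refine ⟨C * K0, fun p hp => ?_⟩
  obtain ⟨ψ, h1, h2, h3⟩ := hK p hp
  have h4 : ∀ᵐ x ∂(volume.restrict DD), GG m μ x p ≤ C * ψ x := by
    filter_upwards [ae_DD] with x hx
    exact (hG.upper μ (mu_mem h) x hx p hp).trans (mul_le_mul_of_nonneg_left (h2 x hx) hC)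
  have h5 : IntegrableOn (fun x => GG m μ x p) DD :=
    (h1.const_mul C).mono' (meas_GG hG μ p).aestronglyMeasurable (by
      filter_upwards [h4] with x hx
      rwa [Real.norm_of_nonneg (GG_nonneg _ _ _)])
  refine ⟨h5, (integral_mono_ae h5 (h1.const_mul C) h4).trans ?_⟩
  rw [integral_const_mul]
  exact mul_le_mul_of_nonneg_left h3 hC

theorem NN_nonneg (s : ℝ) (p x y : ℂ) : 0 ≤ NN m s p x y :=
  div_nonneg (mul_nonneg (GG_nonneg _ _ _) (GG_nonneg _ _ _)) (GG_nonneg _ _ _)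

theorem NN_le (h : Pot m μ) (hG : GreenAn m μ C) (p : ℂ) {a x : ℂ} (ha : a ∈ DD) (hx : x ∈ DD)
    {α δ : ℝ} (hα : 0 < α) (hδ : 0 < δ) (h1 : α ≤ hh a) (h2 : δ ≤ hh x) :
    NN m μ p a x ≤ 64 / (α * δ) * GG m μ a p * GG m μ x p := by
  have g1 := GG_nonneg (m := m) μ a p
  have g2 := GG_nonneg (m := m) μ x p
  rcases eq_or_ne a x with rfl | hax
  · simp only [NN, hG.diag, div_zero]; positivity
  have h3 : α * δ / 64 ≤ GG m μ a x :=
    le_trans (by gcongr; linarith) ((le_g0 ha hx hax).trans (hG.lower μ (mu_mem h) a ha x hx))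
  calc NN m μ p a x ≤ GG m μ a p * GG m μ x p / (α * δ / 64) := by unfold NN; gcongr
    _ = _ := by field_simp

theorem meas_NN (hG : GreenAn m μ C) :
    Measurable fun q : (ℂ × ℂ) × ℂ => NN m μ q.1.1 q.1.2 q.2 := by
  unfold NN
  have := hG.meas μ
  exact ((this.comp (f := fun q : (ℂ × ℂ) × ℂ => (q.1.2, q.1.1)) (by fun_prop)).mul
    (this.comp (f := fun q : (ℂ × ℂ) × ℂ => (q.2, q.1.1)) (by fun_prop))).div
    (this.comp (f := fun q : (ℂ × ℂ) × ℂ => (q.1.2, q.2)) (by fun_prop))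

theorem c_le (h : Pot m μ) (hG : GreenAn m μ C) {δ : ℝ} (hδ : 0 < δ) (hδ' : δ ≤ 1 / 4)
    {x : ℂ} (hx : x ∈ shell δ) : GG m μ x 0 ≤ C * (2 * δ) := by
  have hx' := shell_subset hδ hx
  refine (hG.upper μ (mu_mem h) x hx' 0 zero_mem).trans
    (mul_le_mul_of_nonneg_left ?_ (C_nonneg h hG))
  exact (g0_zero_le hx' (by linarith [hx.2])).trans hx.2

/-- Integrability facts for a bounded measurable density supported in a shell. -/
theorem facts (h : Pot m μ) (hG : GreenAn m μ C) {δ : ℝ} (hδ : 0 < δ) {c : ℂ → ℝ}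
    (hc : Measurable c) {B : ℝ} (hB : ∀ x, |c x| ≤ B) (hs : ∀ z ∉ shell δ, c z = 0) :
    (∀ p ∈ DD, ∀ a ∈ DD, IntegrableOn (fun x => NN m μ p a x * c x) DD) ∧
    (∀ p ∈ DD, IntegrableOn (fun z => c z * ∫ x in DD, NN m μ p z x * c x) DD) ∧
    Integrable (fun p => ∫ z in DD, c z * ∫ x in DD, NN m μ p z x * c x) m := by
  have := h.fin
  have := fin_DD
  obtain ⟨K0, hK⟩ := intG h hG
  have hB0 : 0 ≤ B := (abs_nonneg _).trans (hB 0)
  have hm := meas_NN hG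
  have F1 : ∀ p ∈ DD, ∀ a ∈ DD, ∀ α, 0 < α → α ≤ hh a →
      IntegrableOn (fun x => NN m μ p a x * c x) DD ∧
        ‖∫ x in DD, NN m μ p a x * c x‖ ≤ 64 / (α * δ) * B * K0 * GG m μ a p := by
    intro p hp a ha α hα h1
    have g1 := GG_nonneg (m := m) μ a p
    have i1 := (hK p hp).1.const_mul (64 / (α * δ) * B * GG m μ a p)
    have b1 : ∀ᵐ x ∂(volume.restrict DD), ‖NN m μ p a x * c x‖ ≤
        64 / (α * δ) * B * GG m μ a p * GG m μ x p := by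
      filter_upwards [ae_DD] with x hx
      have g2 := GG_nonneg (m := m) μ x p
      by_cases hxs : x ∈ shell δ
      · rw [norm_mul, Real.norm_of_nonneg (NN_nonneg _ _ _ _), Real.norm_eq_abs]
        calc _ ≤ (64 / (α * δ) * GG m μ a p * GG m μ x p) * B :=
              mul_le_mul (NN_le h hG p ha hx hα hδ h1 hxs.1) (hB x) (abs_nonneg _) (by positivity)
          _ = _ := by ring
      · rw [hs x hxs, mul_zero, norm_zero]; positivity
    refine ⟨i1.mono' ((hm.comp (f := fun x => ((p, a), x)) (by fun_prop)).mul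
      hc).aestronglyMeasurable b1, (norm_integral_le_of_norm_le i1 b1).trans ?_⟩
    rw [integral_const_mul]
    calc _ ≤ 64 / (α * δ) * B * GG m μ a p * K0 := by gcongr; exact (hK p hp).2
      _ = _ := by ring
  have m1 : StronglyMeasurable fun q : ℂ × ℂ => c q.2 * ∫ x in DD, NN m μ q.1 q.2 x * c x :=
    (hc.comp measurable_snd).stronglyMeasurable.mul
      (StronglyMeasurable.integral_prod_right' (f := fun q : (ℂ × ℂ) × ℂ =>
        NN m μ q.1.1 q.1.2 q.2 * c q.2) (hm.mul (hc.comp measurable_snd)).stronglyMeasurable)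
  have K00 : 0 ≤ K0 := (integral_nonneg fun _ => GG_nonneg _ _ _).trans (hK 0 zero_mem).2
  have F2 : ∀ p ∈ DD, IntegrableOn (fun z => c z * ∫ x in DD, NN m μ p z x * c x) DD ∧
      ‖∫ z in DD, c z * ∫ x in DD, NN m μ p z x * c x‖ ≤ B * (64 / (δ * δ) * B * K0) * K0 := by
    intro p hp
    have i1 := (hK p hp).1.const_mul (B * (64 / (δ * δ) * B * K0))
    have b1 : ∀ᵐ z ∂(volume.restrict DD), ‖c z * ∫ x in DD, NN m μ p z x * c x‖ ≤
        B * (64 / (δ * δ) * B * K0) * GG m μ z p := by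
      filter_upwards [ae_DD] with z hz
      have g2 := GG_nonneg (m := m) μ z p
      by_cases hzs : z ∈ shell δ
      · rw [norm_mul, mul_assoc]
        exact mul_le_mul (hB z) (F1 p hp z hz δ hδ hzs.1).2 (norm_nonneg _) hB0
      · rw [hs z hzs, zero_mul, norm_zero]; positivity
    refine ⟨i1.mono' (m1.comp_measurable (g := fun z => (p, z))
      (by fun_prop)).aestronglyMeasurable b1, (norm_integral_le_of_norm_le i1 b1).trans ?_⟩
    rw [integral_const_mul]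
    gcongr
    exact (hK p hp).2
  refine ⟨fun p hp a ha => (F1 p hp a ha _ (hh_pos ha) le_rfl).1, fun p hp => (F2 p hp).1, ?_⟩
  refine (integrable_const (B * (64 / (δ * δ) * B * K0) * K0)).mono'
    m1.integral_prod_right'.aestronglyMeasurable ?_
  filter_upwards [ae_mem h] with p hp using (F2 p hp).2

theorem QN_eq (k : ℂ → ℝ) (p : ℂ) : QN m μ k p = ∫ z in DD, (GG m μ z 0 * k z) *
    ∫ x in DD, NN m μ p z x * (GG m μ x 0 * k x) := by
  unfold QN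
  refine integral_congr_ae (Eventually.of_forall fun z => ?_)
  simp only [← integral_const_mul]
  exact integral_congr_ae (Eventually.of_forall fun x => by ring)

theorem k_bound {δ : ℝ} (hδ : 0 < δ) {k : ℂ → ℝ} (hk : Continuous k)
    (hs : ∀ z ∉ shell δ, k z = 0) : ∃ B, ∀ x, |k x| ≤ B := by
  obtain ⟨B, hB⟩ := (isCompact_shell hδ).exists_bound_of_continuousOn hk.continuousOn
  refine ⟨max B 0, fun x => ?_⟩
  by_cases hx : x ∈ shell δ
  · exact (hB x hx).trans (le_max_left _ _)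
  · rw [hs x hx, abs_zero]; exact le_max_right _ _

theorem c_bound (h : Pot m μ) (hG : GreenAn m μ C) {δ : ℝ} (hδ : 0 < δ) (hδ' : δ ≤ 1 / 4)
    {k : ℂ → ℝ} (hk : Continuous k) (hs : ∀ z ∉ shell δ, k z = 0) :
    ∃ B, ∀ x, |GG m μ x 0 * k x| ≤ B := by
  obtain ⟨B, hB⟩ := k_bound hδ hk hs
  have hB0 : 0 ≤ B := (abs_nonneg _).trans (hB 0)
  have hC := C_nonneg h hG
  refine ⟨C * (2 * δ) * B, fun x => ?_⟩
  by_cases hx : x ∈ shell δ
  · rw [abs_mul, abs_of_nonneg (GG_nonneg _ _ _)]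
    exact mul_le_mul (c_le h hG hδ hδ' hx) (hB x) (abs_nonneg _) (by positivity)
  · rw [hs x hx, mul_zero, abs_zero]; positivity

/-- The quadratic inequality. -/
theorem quad (h : Pot m μ) (hG : GreenAn m μ C) (hN : GreenCND m μ) {δ : ℝ} (hδ : 0 < δ)
    (hδ' : δ ≤ 1 / 4) {k : ℂ → ℝ} (hk : Continuous k) (hs : ∀ z ∉ shell δ, k z = 0)
    (h0 : ∫ y in DD, GG m μ 0 y * k y = 0) :
    Integrable (QN m μ k) m ∧ ∀ p ∈ DD, p ≠ 0 → ∀ a ∈ DD, a ≠ p → ∀ l : ℝ,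
      0 ≤ l ^ 2 * (2 * NN m μ p 0 a) + 2 * l * ((∫ x in DD, NN m μ p 0 x * (GG m μ x 0 * k x)) -
        ∫ x in DD, NN m μ p a x * (GG m μ x 0 * k x)) - QN m μ k p := by
  have := fin_DD
  obtain ⟨B, hB⟩ := c_bound h hG hδ hδ' hk hs
  have hc : Measurable fun x => GG m μ x 0 * k x := (meas_GG hG μ 0).mul hk.measurable
  obtain ⟨f1, f2, f3⟩ := facts h hG hδ hc hB fun z hz => by rw [hs z hz, mul_zero]
  refine ⟨by rw [funext (QN_eq k)]; exact f3, fun p hp hp0 a ha hap l => ?_⟩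
  rw [QN_eq]
  refine cnd_integral (S := {x | x ∈ DD ∧ x ≠ p}) (ae_DD.and (ae_ne_DD p)) (N := NN m μ p)
    (fun x y => by simp only [NN, hG.symm μ x y, mul_comm]) (fun x => by simp [NN, hG.diag])
    (fun n x d hx hd => hN p hp n x d hx hd)
    ((integrable_const B).mono' hc.aestronglyMeasurable (Eventually.of_forall hB))
    (by simpa only [hG.symm μ 0] using h0) ⟨zero_mem, hp0.symm⟩ (f2 p hp) ?_
    (fun a ha => f1 p hp a ha.1) ⟨ha, hap⟩ l
  have := (f1 p hp 0 zero_mem).mul_bdd hc.aestronglyMeasurable (Eventually.of_forall hB)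
  simpa only [sq, mul_assoc] using this

theorem QN_le (h : Pot m μ) (hG : GreenAn m μ C) (hN : GreenCND m μ) {δ : ℝ} (hδ : 0 < δ)
    (hδ' : δ ≤ 1 / 4) {k : ℂ → ℝ} (hk : Continuous k) (hs : ∀ z ∉ shell δ, k z = 0)
    (h0 : ∫ y in DD, GG m μ 0 y * k y = 0) : ∀ᵐ p ∂m, QN m μ k p ≤ 0 := by
  filter_upwards [ae_mem h, ae_ne' h 0] with p hp hp0
  have := (quad h hG hN hδ hδ' hk hs h0).2 p hp hp0 0 zero_mem hp0.symm 0
  simpa using this

/-- The mixed term. -/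
theorem mixed (h : Pot m μ) (hG : GreenAn m μ C) {δ : ℝ} (hδ : 0 < δ)
    (hδ' : δ ≤ 1 / 4) {k : ℂ → ℝ} (hk : Continuous k) (hs : ∀ z ∉ shell δ, k z = 0)
    (h0 : ∫ y in DD, GG m μ 0 y * k y = 0) {T : ℝ} (hT : ∫ z in DD, |k z| ≤ T / δ)
    {p a : ℂ} (hp : p ∈ DD) (ha : a ∈ DD) {α E : ℝ} (hα : 0 < α) (h1 : α ≤ hh a) (hE : 0 ≤ E)
    (hH : ∀ z ∈ shell δ, |GG m μ p z - GG m μ a z| ≤ E * hh z) :
    ∫ x in DD, NN m μ p 0 x * (GG m μ x 0 * k x) = GG m μ 0 p * ∫ y in DD, GG m μ p y * k y ∧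
    |∫ x in DD, NN m μ p a x * (GG m μ x 0 * k x)| ≤ GG m μ a p * E * (128 * C / α * T) := by
  have := fin_DD
  have hC := C_nonneg h hG
  constructor
  · rw [← integral_const_mul]
    refine integral_congr_ae ?_
    filter_upwards [ae_DD, ae_ne_DD 0] with x hx hx0
    have := (g0_pos hx zero_mem hx0).trans_le (hG.lower μ (mu_mem h) x hx 0 zero_mem)
    simp only [NN, hG.symm μ 0 x, hG.symm μ p x]
    field_simp
  obtain ⟨B, hB⟩ := c_bound h hG hδ hδ' hk hs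
  obtain ⟨B', hB'⟩ := k_bound hδ hk hs
  have hc : Measurable fun x => GG m μ x 0 * k x := (meas_GG hG μ 0).mul hk.measurable
  obtain ⟨f1, -, -⟩ := facts h hG hδ hc hB fun z hz => by rw [hs z hz, mul_zero]
  have ic : IntegrableOn (fun x => GG m μ x 0 * k x) DD :=
    (integrable_const B).mono' hc.aestronglyMeasurable (Eventually.of_forall hB)
  have ik : IntegrableOn (fun x => |k x|) DD :=
    ((integrable_const B').mono' hk.aestronglyMeasurable (Eventually.of_forall hB')).abs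
  have g1 := GG_nonneg (m := m) μ a p
  have e1 : ∫ x in DD, NN m μ p a x * (GG m μ x 0 * k x) =
      ∫ x in DD, (NN m μ p a x * (GG m μ x 0 * k x) - GG m μ a p * (GG m μ x 0 * k x)) := by
    rw [integral_sub (f1 p hp a ha) (ic.const_mul _), integral_const_mul]
    simp only [hG.symm μ 0] at h0
    rw [h0, mul_zero, sub_zero]
  rw [e1, ← Real.norm_eq_abs]
  refine (norm_integral_le_of_norm_le
    (ik.const_mul (GG m μ a p * E * (128 * C / α * δ))) ?_).trans ?_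
  · filter_upwards [ae_DD, ae_ne_DD a] with x hx hxa
    by_cases hxs : x ∈ shell δ
    · have b1 : 0 < hh x := hh_pos hx
      have b2 : α * hh x / 64 ≤ GG m μ a x := le_trans (by gcongr)
        ((le_g0 ha hx hxa.symm).trans (hG.lower μ (mu_mem h) a ha x hx))
      have b3 : 0 < α * hh x / 64 := by positivity
      have b4 := b3.trans_le b2
      have e2 : NN m μ p a x * (GG m μ x 0 * k x) - GG m μ a p * (GG m μ x 0 * k x) =
          GG m μ a p * ((GG m μ p x - GG m μ a x) / GG m μ a x) * GG m μ x 0 * k x := by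
        simp only [NN, hG.symm μ p x]; field_simp
      have g2 := GG_nonneg (m := m) μ x 0
      rw [e2, Real.norm_eq_abs, abs_mul, abs_mul, abs_mul, abs_div, abs_of_nonneg g1,
        abs_of_nonneg g2, abs_of_pos b4]
      refine mul_le_mul_of_nonneg_right ?_ (abs_nonneg _)
      calc _ ≤ GG m μ a p * (E * hh x / (α * hh x / 64)) * (C * (2 * δ)) := by
            gcongr
            · exact hH x hxs
            · exact c_le h hG hδ hδ' hxs
        _ = _ := by field_simp; ring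
    · simp [hs x hxs]
  · rw [integral_const_mul]
    calc _ ≤ GG m μ a p * E * (128 * C / α * δ) * (T / δ) := by gcongr
      _ = _ := by field_simp

theorem g0_le_root {a p : ℂ} (aD : a ∈ DD) (pD : p ∈ DD) {t : ℝ} (tp : 0 < t) (t1 : t ≤ 1)
    (hap : ‖a - p‖ = t ^ 4) : g0 a p ≤ 5 / t := by
  refine (g0_le_log aD pD).trans ?_
  have l1 : Real.log (2 / t ^ 4) ≤ 5 / t := by
    rw [Real.log_div (by norm_num) (by positivity), Real.log_pow]
    have l2 := Real.one_sub_inv_le_log_of_pos tp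
    have l3 := Real.log_le_sub_one_of_pos (x := 2) (by norm_num)
    have l4 : 1 ≤ t⁻¹ := one_le_inv_iff₀.2 ⟨tp, t1⟩
    rw [div_eq_mul_inv]; push_cast; linarith
  have l5 := Real.two_le_pi
  rw [hap]
  calc _ ≤ (2 * Real.pi)⁻¹ * (5 / t) := by gcongr
    _ ≤ 1 * (5 / t) := by gcongr; exact inv_le_one_of_one_le₀ (by linarith)
    _ = _ := one_mul _

theorem endgame {N X Y q c1 Γ0 : ℝ} (c1p : 0 < c1) (Γ00 : 0 ≤ Γ0)
    (qq : ∀ l : ℝ, 0 ≤ l ^ 2 * N + 2 * l * (Y - X) - q) (x3 : |X| ≤ c1 / 2) (x4 : c1 ≤ |Y|)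
    (x5 : N ≤ Γ0) (hq : -q ≤ c1 ^ 2 / 4 / (Γ0 + 1)) : False := by
  have d := discrim_le_zero (a := N) (b := 2 * (Y - X)) (c := -q) fun l => by linarith [qq l]
  rw [discrim] at d
  have n0 : 0 ≤ -q := by simpa using qq 0
  have y1 : c1 / 2 ≤ |Y - X| := by linarith [abs_sub_abs_le_abs_sub Y X]
  have y2 : (c1 / 2) ^ 2 ≤ (Y - X) ^ 2 := by
    rw [← sq_abs (Y - X)]; gcongr
  have y3 : N * -q ≤ Γ0 * (c1 ^ 2 / 4 / (Γ0 + 1)) := mul_le_mul x5 hq n0 Γ00
  have y5 : Γ0 * (c1 ^ 2 / 4 / (Γ0 + 1)) < c1 ^ 2 / 4 := by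
    rw [mul_div_assoc', div_lt_iff₀ (by positivity)]
    nlinarith [pow_pos c1p 2]
  nlinarith

theorem exists_ball {v : ℂ → ℝ} (hv : ContinuousOn v DD) (hv0 : v 0 = 0) {y : ℂ} (hy : y ∈ DD)
    (hvy : v y ≠ 0) : ∃ c0 d e ρ : ℝ, 0 < c0 ∧ 0 < d ∧ 0 < e ∧ e < 1 ∧ 0 < ρ ∧
      ∀ p ∈ ball y ρ, c0 ≤ |v p| ∧ d ≤ ‖p‖ ∧ ‖p‖ ≤ 1 - 2 * e := by
  have hy0 : 0 < ‖y‖ := norm_pos_iff.2 fun e => hvy (e ▸ hv0)
  have hy1 : ‖y‖ < 1 := by simpa using hy
  have c0p : 0 < |v y| / 2 := half_pos (abs_pos.2 hvy)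
  obtain ⟨ρ1, hρ1, H1⟩ := Metric.continuousAt_iff.1 (hv.continuousAt (isOpen_ball.mem_nhds hy))
    _ c0p
  have ep : 0 < (1 - ‖y‖) / 3 := by linarith
  refine ⟨|v y| / 2, ‖y‖ / 2, (1 - ‖y‖) / 3, min ρ1 (min (‖y‖ / 2) ((1 - ‖y‖) / 3)), c0p,
    half_pos hy0, ep, by linarith, lt_min hρ1 (lt_min (half_pos hy0) ep), fun p hp => ?_⟩
  rw [mem_ball, lt_min_iff, lt_min_iff] at hp
  have d2 := H1 hp.1
  rw [Real.dist_eq] at d2
  rw [dist_eq_norm] at hp
  have d3 := abs_sub_abs_le_abs_sub (v y) (v p)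
  rw [abs_sub_comm] at d3
  have d6 := abs_norm_sub_norm_le p y
  rw [abs_le] at d6
  exact ⟨by linarith, by linarith [d6.1, hp.2.1], by linarith [d6.2, hp.2.2]⟩

theorem exists_point (h : Pot m μ) {f : ℂ → ℝ} (hf : Integrable f m) (h0 : ∀ᵐ p ∂m, f p ≤ 0)
    {η : ℝ} (hη : -η ≤ ∫ p, f p ∂m) {U : Set ℂ} (mU : m U ≠ 0) :
    ∃ p ∈ U, -f p ≤ η / m.real U := by
  have := h.fin
  obtain ⟨p, hp, hpq⟩ := exists_le_setAverage mU (measure_ne_top _ _) hf.neg.integrableOn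
  refine ⟨p, hp, hpq.trans ?_⟩
  rw [setAverage_eq, smul_eq_mul, div_eq_inv_mul]
  refine mul_le_mul_of_nonneg_left ((setIntegral_le_integral hf.neg ?_).trans ?_) (by positivity)
  · filter_upwards [h0] with p hp
    simpa using hp
  · simp only [Pi.neg_apply, integral_neg]; linarith

end FinalAux

open FinalAux CNDAux

theorem QN_nonpos {m : Measure ℂ} {μ C : ℝ} (h : Pot m μ) (hG : GreenAn m μ C)
    (hN : GreenCND m μ) {δ : ℝ} (hδ : 0 < δ) (hδ' : δ ≤ 1 / 4) {k : ℂ → ℝ} (hk : Continuous k)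
    (hs : ∀ z ∉ shell δ, k z = 0) (h0 : ∫ y in DD, GG m μ 0 y * k y = 0) :
    ∫ p, QN m μ k p ∂m ≤ 0 :=
  integral_nonpos_of_ae (QN_le h hG hN hδ hδ' hk hs h0)

theorem final {m : Measure ℂ} {μ C : ℝ} (h : Pot m μ) (hG : GreenAn m μ C)
    (hN : GreenCND m μ) (hH : GreenHolder m μ)
    (hm : ∀ U, IsOpen U → U.Nonempty → U ⊆ DD → m U ≠ 0)
    {v : ℂ → ℝ} (hv : ContinuousOn v DD) (hv0 : v 0 = 0) (T : ℝ)
    (hk : ∀ η > 0, ∃ δ, 0 < δ ∧ δ < η ∧ ∃ k : ℂ → ℝ, Continuous k ∧ (∀ z ∉ shell δ, k z = 0) ∧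
      ∫ z in DD, |k z| ≤ T / δ ∧ (∀ x, 2 * δ ≤ hh x → ∫ y in DD, GG m μ x y * k y = v x) ∧
      -η ≤ ∫ p, QN m μ k p ∂m) : ∀ z ∈ DD, v z = 0 := by
  have := h.fin
  intro y hy
  by_contra hvy
  have hC := C_nonneg h hG
  obtain ⟨c0, d, e, ρ, c0p, dp, ep, e1, ρp, hUp⟩ := exists_ball hv hv0 hy hvy
  obtain ⟨α, αp, hhα⟩ : ∃ α : ℝ, 0 < α ∧ ∀ a : ℂ, ‖a‖ ≤ 1 - e → a ∈ DD ∧ α ≤ hh a :=
    ⟨1 - (1 - e) ^ 2, by nlinarith, fun a ha =>
      ⟨by rw [mem_ball_zero_iff]; linarith, by simp only [hh]; gcongr⟩⟩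
  have hUD : ball y ρ ⊆ DD := fun p hp => (hhα p (by linarith [(hUp p hp).2.2])).1
  have mU := hm _ isOpen_ball (nonempty_ball.2 ρp) hUD
  have mUp : 0 < m.real (ball y ρ) := ENNReal.toReal_pos mU (measure_ne_top _ _)
  obtain ⟨K, β, K0, βp, HH⟩ : ∃ K β : ℝ, 0 ≤ K ∧ 0 < β ∧ ∀ p : ℂ, ‖p‖ ≤ 1 - e → ∀ a : ℂ,
      ‖a‖ ≤ 1 - e → ∀ z ∈ DD, hh z ≤ β → |GG m μ p z - GG m μ a z| ≤ K * √‖p - a‖ * hh z := by
    obtain ⟨K', R', hR', HH⟩ := hH (1 - e) (by linarith)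
    have R0 : 0 ≤ max R' 0 := le_max_right _ _
    have R1 : max R' 0 < 1 := max_lt hR' one_pos
    refine ⟨max K' 0, 1 - (max R' 0) ^ 2, le_max_right _ _, by nlinarith,
      fun p hp a ha z hz hzβ => ?_⟩
    have z2 : max R' 0 ≤ ‖z‖ := by
      simp only [hh] at hzβ
      exact (pow_le_pow_iff_left₀ R0 (norm_nonneg _) two_ne_zero).1 (by linarith)
    refine (HH p (by simpa using hp) a (by simpa using ha) z hz ((le_max_left _ _).trans z2)).trans ?_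
    have : 0 ≤ hh z := (hh_pos hz).le
    gcongr
    exact le_max_left _ _
  obtain ⟨c1, hc1⟩ : ∃ c1, c1 = α / 64 * c0 := ⟨_, rfl⟩
  have c1p : 0 < c1 := by rw [hc1]; positivity
  obtain ⟨A1, hA1⟩ : ∃ A1, A1 = 5 * C * K * (128 * C / α * |T|) := ⟨_, rfl⟩
  have A10 : 0 ≤ A1 := by rw [hA1]; positivity
  obtain ⟨t, tp, t1, te, tA⟩ : ∃ t : ℝ, 0 < t ∧ t ≤ 1 ∧ t ^ 4 ≤ e ∧ A1 * t ≤ c1 / 2 := by
    have tp : 0 < min e (c1 / 2 / (A1 + 1)) := lt_min ep (by positivity)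
    have t1 : min e (c1 / 2 / (A1 + 1)) ≤ 1 := (min_le_left _ _).trans e1.le
    refine ⟨_, tp, t1, (pow_le_of_le_one tp.le t1 (by norm_num)).trans (min_le_left _ _), ?_⟩
    have : min e (c1 / 2 / (A1 + 1)) ≤ c1 / 2 / (A1 + 1) := min_le_right _ _
    rw [le_div_iff₀ (by positivity)] at this
    nlinarith
  obtain ⟨Γ0, hΓ0⟩ : ∃ Γ0, Γ0 = 2 * (64 / (1 * α) * (C * d⁻¹) * (C * (5 / t))) := ⟨_, rfl⟩
  have Γ00 : 0 ≤ Γ0 := by rw [hΓ0]; positivity
  obtain ⟨η, ηp, η1, η2, η3, η4⟩ : ∃ η : ℝ, 0 < η ∧ η ≤ 1 / 4 ∧ η ≤ α / 2 ∧ η ≤ β / 2 ∧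
      η / m.real (ball y ρ) ≤ c1 ^ 2 / 4 / (Γ0 + 1) := by
    refine ⟨min (min (1 / 4) (α / 2)) (min (β / 2) (c1 ^ 2 / 4 / (Γ0 + 1) * m.real (ball y ρ))),
      by positivity, (min_le_left _ _).trans (min_le_left _ _),
      (min_le_left _ _).trans (min_le_right _ _), (min_le_right _ _).trans (min_le_left _ _), ?_⟩
    rw [div_le_iff₀ mUp]
    exact (min_le_right _ _).trans (min_le_right _ _)
  obtain ⟨δ, hδ, hδη, k, kc, ks, kT, kv, kη⟩ := hk η ηp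
  have δ1 : δ ≤ 1 / 4 := hδη.le.trans η1
  have h0 : ∫ y in DD, GG m μ 0 y * k y = 0 := by
    rw [kv 0 (by simp only [hh, norm_zero]; linarith), hv0]
  obtain ⟨qi, qq⟩ := quad h hG hN hδ δ1 kc ks h0
  obtain ⟨p, hp, hq⟩ := exists_point h qi (QN_le h hG hN hδ δ1 kc ks h0) kη mU
  obtain ⟨u1, u2, u3⟩ := hUp p hp
  have pr : ‖p‖ ≤ 1 - e := by linarith
  obtain ⟨pD, pα⟩ := hhα p pr
  have p0 : p ≠ 0 := by rintro rfl; rw [norm_zero] at u2; linarith
  obtain ⟨a, hap⟩ : ∃ a : ℂ, ‖a - p‖ = t ^ 4 := ⟨p + ((t ^ 4 : ℝ) : ℂ), by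
    rw [add_sub_cancel_left, Complex.norm_real, Real.norm_of_nonneg (by positivity)]⟩
  have ar : ‖a‖ ≤ 1 - e := by linarith [norm_le_norm_add_norm_sub' a p]
  obtain ⟨aD, aα⟩ := hhα a ar
  have ane : a ≠ p := by
    intro e; rw [e, sub_self, norm_zero] at hap
    exact (pow_pos tp 4).ne hap
  have Gap : GG m μ a p ≤ C * (5 / t) := (hG.upper μ (mu_mem h) a aD p pD).trans
    (mul_le_mul_of_nonneg_left (g0_le_root aD pD tp t1 hap) hC)
  have Gop : GG m μ 0 p ≤ C * d⁻¹ := by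
    refine (hG.upper μ (mu_mem h) 0 zero_mem p pD).trans (mul_le_mul_of_nonneg_left ?_ hC)
    refine (g0_le_inv zero_mem pD).trans ?_
    rw [zero_sub, norm_neg]
    gcongr
  have Gop' : α / 64 ≤ GG m μ 0 p := by
    refine le_trans ?_ ((le_g0 zero_mem pD p0.symm).trans (hG.lower μ (mu_mem h) 0 zero_mem p pD))
    simp only [hh, norm_zero] at pα ⊢
    linarith
  obtain ⟨x1, x2⟩ := mixed h hG hδ δ1 kc ks h0 (T := |T|)
    (kT.trans (div_le_div_of_nonneg_right (le_abs_self T) hδ.le))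
    pD aD αp aα (E := K * t ^ 2) (by positivity) (fun z hz => by
      have := HH p pr a ar z (shell_subset hδ hz) (by linarith [hz.2])
      rwa [norm_sub_rev, hap, show t ^ 4 = (t ^ 2) ^ 2 by ring,
        Real.sqrt_sq (by positivity)] at this)
  rw [kv p (by linarith)] at x1
  have qq' := qq p pD p0 a aD ane
  rw [x1] at qq'
  refine endgame c1p Γ00 qq' ?_ ?_ ?_ (hq.trans η4)
  · refine x2.trans (le_trans ?_ tA)
    calc _ ≤ C * (5 / t) * (K * t ^ 2) * (128 * C / α * |T|) := by gcongr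
      _ = _ := by rw [hA1]; field_simp
  · rw [abs_mul, abs_of_nonneg (GG_nonneg _ _ _), hc1]
    exact mul_le_mul Gop' u1 c0p.le (GG_nonneg _ _ _)
  · have := NN_le h hG p zero_mem aD one_pos αp (by simp [hh]) aα
    rw [hΓ0]
    refine mul_le_mul_of_nonneg_left (this.trans ?_) zero_le_two
    have := GG_nonneg (m := m) μ a p
    gcongr

end Vale.Agent.P071
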