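import Vale.Agent.P071.GreenCNDAux2

/-! Conditional negativity of the kernel `G(x,p) G(y,p) / G(x,y)`. -/

open MeasureTheory Set Metric Filter Topology
open scoped ENNReal

namespace Vale.Agent.P071

namespace CNDAux

theorem cell_integral {π : ℂ → ℕ} (hπ : Measurable π) {S : Finset ℕ} (hS : ∀ x, π x ∈ S)
    (ν : Measure ℂ) (F : ℕ → ℝ) {G : ℂ → ℝ} (hG : Integrable G ν) :
    Integrable (fun w => F (π w) * G w) ν ∧
      ∫ w, F (π w) * G w ∂ν = ∑ l ∈ S, F l * ∫ w in π ⁻¹' {l}, G w ∂ν := by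
  have hm : ∀ l, MeasurableSet (π ⁻¹' {l}) := fun l => hπ (measurableSet_singleton l)
  have he : (fun w => F (π w) * G w) =
      fun w => ∑ l ∈ S, (π ⁻¹' {l}).indicator (fun w => F l * G w) w := by
    funext w
    rw [Finset.sum_eq_single_of_mem (π w) (hS w)]
    · simp
    · intro l _ hl
      exact indicator_of_notMem (by simpa using hl.symm) _
  have hi : ∀ l ∈ S, Integrable ((π ⁻¹' {l}).indicator fun w => F l * G w) ν :=
    fun l _ => (hG.const_mul _).indicator (hm l)
  rw [he]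
  refine ⟨integrable_finsetSum _ hi, ?_⟩
  rw [integral_finsetSum _ hi]
  exact Finset.sum_congr rfl fun l _ => by rw [integral_indicator (hm l), integral_const_mul]

variable {m : Measure ℂ} {μ C : ℝ}

theorem ae_mem (h : Pot m μ) : ∀ᵐ w ∂m, w ∈ DD := h.supp

theorem ae_ne' (h : Pot m μ) (y : ℂ) : ∀ᵐ w ∂m, w ≠ y := by
  rw [ae_iff]; simpa using h.noAtoms y

theorem GG_nonneg (s : ℝ) (x y : ℂ) : 0 ≤ GG m s x y := ENNReal.toReal_nonneg

theorem meas_GG (hG : GreenAn m μ C) (s : ℝ) (y : ℂ) : Measurable fun w => GG m s w y :=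
  (hG.meas s).comp (measurable_id.prodMk measurable_const)

theorem int_GG (h : Pot m μ) (hG : GreenAn m μ C) {s : ℝ} (hs : s ∈ Icc 0 μ) {y : ℂ}
    (hy : y ∈ DD) : Integrable (fun w => GG m s w y) m := by
  have := h.fin
  refine (((integrable_const (1 : ℝ)).add (hG.threeG_int y hy y hy)).const_mul |C|).mono'
    (meas_GG hG s y).aestronglyMeasurable ?_
  filter_upwards [ae_mem h] with w hw
  rw [Real.norm_of_nonneg (GG_nonneg _ _ _)]
  have h1 := hG.upper s hs w hw y hy
  have h2 := g0_nonneg hw hy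
  simp only [Pi.add_apply, g0_symm y w]
  calc _ ≤ C * g0 w y := h1
    _ ≤ |C| * g0 w y := by gcongr; exact le_abs_self C
    _ ≤ _ := by gcongr; nlinarith

theorem int_GG2 (h : Pot m μ) (hG : GreenAn m μ C) {s : ℝ} (hs : s ∈ Icc 0 μ) {x y : ℂ}
    (hx : x ∈ DD) (hy : y ∈ DD) : Integrable (fun w => GG m s y w * GG m 0 w x) m := by
  have hm : Measurable fun w => GG m s y w * GG m 0 w x := by
    simp only [hG.symm s y]
    exact (meas_GG hG s y).mul (meas_GG hG 0 x)
  refine ((hG.threeG_int y hy x hx).const_mul C).mono' hm.aestronglyMeasurable ?_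
  filter_upwards [ae_mem h] with w hw
  rw [Real.norm_of_nonneg (mul_nonneg (GG_nonneg _ _ _) (GG_nonneg _ _ _)), hG.zero w hw x hx,
    ← mul_assoc]
  exact mul_le_mul_of_nonneg_right (hG.upper s hs y hy w hw) (g0_nonneg hw hx)

/-- One discretisation stage. -/
theorem stage (h : Pot m μ) (hG : GreenAn m μ C) {s : ℝ} (hs : s ∈ Icc 0 μ) {r : ℝ} (hr0 : 0 ≤ r)
    (hr : r < 1) (n : ℕ) {θ : ℝ} (h0 : 0 < θ) (h1 : θ < 1) :
    ∃ u κ : ℂ → ℂ → ℝ, (∀ a b, 0 < u a b) ∧ Lor (fun a b => (u a b)⁻¹) ∧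
      (∀ x y, Measurable fun w => ENNReal.ofReal (κ x w) * ENNReal.ofReal (u w y)) ∧
      (∀ x ∈ closedBall (0 : ℂ) r, ∀ y ∈ closedBall (0 : ℂ) r, θ ^ 2 * kk n x y ≤ κ x y) ∧
      (∀ x ∈ closedBall (0 : ℂ) r, ∀ y ∈ closedBall (0 : ℂ) r, x ≠ y → u x y ≤ GG m s x y) ∧
      ∀ x y, ENNReal.ofReal (u x y) = ENNReal.ofReal (κ x y) + ENNReal.ofReal s *
        ∫⁻ w in closedBall (0 : ℂ) r, ENNReal.ofReal (κ x w) * ENNReal.ofReal (u w y) ∂m := by
  have := h.fin
  obtain ⟨δ, hδ, Hδ⟩ := exists_delta hr n h0 h1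
  obtain ⟨e, N, π, hπ, he, hN, hd⟩ := exists_net hr0 hδ
  set K := closedBall (0 : ℂ) r with hK
  have hsub : K ⊆ DD := closedBall_subset_ball hr
  set ν := m.restrict K with hν
  set S := Finset.range (N + 1)
  set A : ℕ → ℕ → ℝ := fun i l => θ * kk n (e i) (e l) with hA
  have As : Sy A := fun a b => by simp only [hA, kk_symm n (e a)]
  have Ap : ∀ a b, 0 < A a b := fun a b => mul_pos h0 (kk_pos (hsub (he a)) (hsub (he b)) n)
  have AL : Lor fun a b => (A a b)⁻¹ := lor_kk (fun i => hsub (he i)) n θ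
  set α : ℕ → ℝ := fun l => s * ∫ _ in π ⁻¹' {l}, (1 : ℝ) ∂ν with hα
  have hα0 : ∀ l, 0 ≤ α l := fun l => mul_nonneg hs.1 (integral_nonneg fun _ => zero_le_one)
  have Ale : ∀ x ∈ K, ∀ y ∈ K, x ≠ y → A (π x) (π y) ≤ g0 x y := fun x hx y hy hxy =>
    (Hδ x hx y hy _ (he _) _ (he _) (hd x hx) (hd y hy)).trans (kk_le (hsub hx) (hsub hy) hxy n)
  have hνK : ∀ᵐ w ∂ν, w ∈ K := ae_restrict_mem measurableSet_closedBall
  have hνne : ∀ y, ∀ᵐ w ∂ν, w ≠ y := fun y => ae_restrict_of_ae (ae_ne' h y)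
  -- supersolutions
  have sup : ∀ y ∈ K, ∃ W : ℕ → ℝ, (∀ i, 0 ≤ W i) ∧
      (∀ i, A i (π y) + ∑ l ∈ S, A i l * (α l * W l) ≤ W i) ∧
      ∀ x ∈ K, x ≠ y → W (π x) ≤ GG m s x y := by
    intro y hy
    have hi : Integrable (fun w => GG m s w y) ν := (int_GG h hG hs (hsub hy)).restrict
    set V : ℕ → ℝ := fun l => s * ∫ w in π ⁻¹' {l}, GG m s w y ∂ν with hV
    have hV0 : ∀ l, 0 ≤ V l := fun l => mul_nonneg hs.1 (integral_nonneg fun _ => GG_nonneg _ _ _)
    set W : ℕ → ℝ := fun i => A i (π y) + ∑ l ∈ S, A i l * V l with hW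
    have ha : ∀ x ∈ K, x ≠ y → W (π x) ≤ GG m s x y := by
      intro x hx hxy
      obtain ⟨c1, c2⟩ := cell_integral hπ hN ν (A (π x)) hi
      have e1 : ∑ l ∈ S, A (π x) l * V l = s * ∫ w, A (π x) (π w) * GG m s w y ∂ν := by
        rw [c2, Finset.mul_sum]
        exact Finset.sum_congr rfl fun l _ => by simp only [hV]; ring
      have i2 := int_GG2 h hG hs (hsub hx) (hsub hy)
      have e2 : ∫ w, A (π x) (π w) * GG m s w y ∂ν ≤ ∫ w, GG m s y w * GG m 0 w x ∂m := by
        refine (integral_mono_ae c1 i2.restrict ?_).trans (setIntegral_le_integral i2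
          (Eventually.of_forall fun w => mul_nonneg (GG_nonneg _ _ _) (GG_nonneg _ _ _)))
        filter_upwards [hνK, hνne x] with w hw hwx
        rw [hG.zero w (hsub hw) x (hsub hx), hG.symm s y w, g0_symm w x, mul_comm]
        exact mul_le_mul_of_nonneg_left (Ale x hx w hw hwx.symm) (GG_nonneg _ _ _)
      have e3 := hG.resolvent 0 s le_rfl hs.1 hs.2 y (hsub hy) x (hsub hx) hxy.symm
      rw [hG.zero y (hsub hy) x (hsub hx), g0_symm y x, sub_zero, hG.symm s y x] at e3
      simp only [hW]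
      rw [e1, e3]
      exact add_le_add (Ale x hx y hy hxy) (mul_le_mul_of_nonneg_left e2 hs.1)
    have hb : ∀ l, α l * W l ≤ V l := fun l => by
      have e1 : α l * W l = s * ∫ _ in π ⁻¹' {l}, W l ∂ν := by
        simp only [hα, integral_const, smul_eq_mul]; ring
      rw [e1]
      refine mul_le_mul_of_nonneg_left ?_ hs.1
      refine setIntegral_mono_on_ae (integrable_const _).integrableOn hi.integrableOn
        (hπ (measurableSet_singleton l)) ?_
      filter_upwards [hνK, hνne y] with w hw hwy hl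
      have : π w = l := hl
      rw [← this]
      exact ha w hw hwy
    refine ⟨W, fun i => add_nonneg (Ap _ _).le
      (Finset.sum_nonneg fun l _ => mul_nonneg (Ap _ _).le (hV0 l)), fun i => ?_, ha⟩
    simp only [hW]
    exact add_le_add_right (Finset.sum_le_sum fun l _ =>
      mul_le_mul_of_nonneg_left (hb l) (Ap _ _).le) _
  obtain ⟨U, Us, Up, UL, Ue, Um⟩ := exists_resolvent As Ap AL hα0 S (by
    obtain ⟨W, w1, w2, -⟩ := sup 0 (mem_closedBall_self hr0)
    exact ⟨fun i => A i (π 0), W, fun i => Ap _ _, w1, w2⟩)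
  refine ⟨fun a b => U (π a) (π b), fun a b => A (π a) (π b), fun a b => Up _ _, UL.comp π,
    fun x y => (measurable_from_nat (f := fun l => ENNReal.ofReal (A (π x) l) *
      ENNReal.ofReal (U l (π y)))).comp hπ, fun x hx y hy => ?_, fun x hx y hy hxy => ?_,
    fun x y => ?_⟩
  · have := Hδ _ (he (π x)) _ (he (π y)) x hx y hy (by rw [dist_comm]; exact hd x hx)
      (by rw [dist_comm]; exact hd y hy)
    simp only [hA]
    rw [sq, mul_assoc]
    exact mul_le_mul_of_nonneg_left this h0.le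
  · obtain ⟨W, w1, w2, w3⟩ := sup y hy
    refine le_trans ?_ (w3 x hx hxy)
    refine le_of_eq_of_le ?_ (Um (fun i => A i (π y)) W (fun i => (Ap _ _).le) w1 w2 (π x))
    beta_reduce
    rw [Us, Ue, As]
    congr 1
    exact Finset.sum_congr rfl fun l _ => by rw [As (π y) l, Us l]; ring
  · obtain ⟨c1, c2⟩ := cell_integral hπ hN ν (fun l => A (π x) l * U l (π y))
      (integrable_const (1 : ℝ))
    simp only [mul_one] at c1 c2
    have e1 : ∑ l ∈ S, A (π x) l * (α l * U l (π y)) =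
        s * ∫ w, A (π x) (π w) * U (π w) (π y) ∂ν := by
      rw [c2, Finset.mul_sum]
      exact Finset.sum_congr rfl fun l _ => by simp only [hα]; ring
    have hnn : ∀ w, 0 ≤ A (π x) (π w) * U (π w) (π y) := fun w => (mul_pos (Ap _ _) (Up _ _)).le
    beta_reduce
    rw [Ue, e1, ENNReal.ofReal_add (Ap _ _).le (mul_nonneg hs.1 (integral_nonneg hnn)),
      ENNReal.ofReal_mul hs.1, ofReal_integral_eq_lintegral_ofReal c1 (Eventually.of_forall hnn)]
    simp only [ENNReal.ofReal_mul (Ap _ _).le]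

theorem sum_lintegral_le (ν : Measure ℂ) (c : ℕ → ℝ≥0∞) (f : ℕ → ℂ → ℝ≥0∞) (N : ℕ) :
    ∑ n ∈ Finset.range N, c n * ∫⁻ w, f n w ∂ν ≤ ∫⁻ w, ∑ n ∈ Finset.range N, c n * f n w ∂ν := by
  induction N with
  | zero => simp
  | succ N ih =>
    simp only [Finset.sum_range_succ]
    exact (add_le_add ih (lintegral_const_mul_le _ _)).trans (le_lintegral_add _ _)

/-- The Neumann series is the minimal supersolution. -/
theorem minimal (h : Pot m μ) (t : ℝ≥0∞) (y : ℂ) {v : ℂ → ℝ≥0∞}
    (hv : ∀ x ∈ DD, g0e x y + t * ∫⁻ w, g0e x w * v w ∂m ≤ v x) :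
    ∀ x ∈ DD, ∑' n, t ^ n * iter m n x y ≤ v x := by
  suffices H : ∀ N, ∀ x ∈ DD, ∑ n ∈ Finset.range N, t ^ n * iter m n x y ≤ v x from
    fun x hx => ENNReal.tsum_le_of_sum_range_le fun N => H N x hx
  intro N
  induction N with
  | zero => simp
  | succ N ih =>
    intro x hx
    rw [Finset.sum_range_succ', pow_zero, one_mul, add_comm]
    refine le_trans (add_le_add le_rfl ?_) (hv x hx)
    simp only [iter, pow_succ', mul_assoc, ← Finset.mul_sum]
    refine mul_le_mul_right ((sum_lintegral_le m _ _ N).trans (lintegral_mono_ae ?_)) _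
    filter_upwards [ae_mem h] with w hw
    refine le_of_eq_of_le ?_ (mul_le_mul_right (ih w hw) _)
    rw [Finset.mul_sum]
    exact Finset.sum_congr rfl fun n _ => by ring

theorem liminf_add_ge (a b : ℕ → ℝ≥0∞) :
    liminf a atTop + liminf b atTop ≤ liminf (a + b) atTop := by
  rw [liminf_eq_iSup_iInf_of_nat, liminf_eq_iSup_iInf_of_nat]
  refine ENNReal.iSup_add_iSup_le fun i j => le_liminf_of_le (h := ?_)
  filter_upwards [eventually_ge_atTop i, eventually_ge_atTop j] with k h1 h2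
  exact add_le_add (iInf₂_le k h1) (iInf₂_le k h2)

theorem exists_approx (h : Pot m μ) (hG : GreenAn m μ C) {s : ℝ} (hs : s ∈ Icc 0 μ) :
    ∃ u : ℕ → ℂ → ℂ → ℝ, (∀ j a b, 0 < u j a b) ∧ (∀ j, Lor fun a b => (u j a b)⁻¹) ∧
      (∀ x ∈ DD, ∀ y ∈ DD, x ≠ y → Tendsto (fun j => u j x y) atTop (𝓝 (GG m s x y))) ∧
      ∀ x ∈ DD, Tendsto (fun j => u j x x) atTop atTop := by
  set θ : ℕ → ℝ := fun j => 1 - 1 / ((j : ℝ) + 1) / 2 with hθ
  have hθ0 : ∀ j, 0 < θ j := fun j => by
    have : 1 / ((j : ℝ) + 1) ≤ 1 := by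
      rw [div_le_one (by positivity)]; linarith [(Nat.cast_nonneg j : (0 : ℝ) ≤ j)]
    simp only [hθ]; linarith
  have hθ1 : ∀ j, θ j < 1 := fun j => by
    have : 0 < 1 / ((j : ℝ) + 1) := by positivity
    simp only [hθ]; linarith
  have hθt : Tendsto θ atTop (𝓝 1) := by
    have := (tendsto_const_nhds (x := (1 : ℝ))).sub
      ((tendsto_one_div_add_atTop_nhds_zero_nat (𝕜 := ℝ)).div_const 2)
    rwa [zero_div, sub_zero] at this
  choose u κ up uL um κl uu ue using fun j =>
    stage h hG hs (hθ0 j).le (hθ1 j) j (hθ0 j) (hθ1 j)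
  have hev : ∀ x ∈ DD, ∀ᶠ j in atTop, x ∈ closedBall (0 : ℂ) (θ j) := fun x hx => by
    have h1 : ‖x‖ < 1 := by simpa using hx
    filter_upwards [hθt.eventually (lt_mem_nhds h1)] with j hj
    simpa using hj.le
  have hκ : ∀ x ∈ DD, ∀ w ∈ DD,
      g0e x w ≤ liminf (fun j => ENNReal.ofReal (κ j x w)) atTop := fun x hx w hw => by
    have h1 : Tendsto (fun j => ENNReal.ofReal (θ j ^ 2 * kk j x w)) atTop (𝓝 (g0e x w)) := by
      unfold g0e
      split_ifs with hxw
      · subst hxw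
        rw [ENNReal.tendsto_ofReal_nhds_top]
        simp only [kk_diag]
        have := Real.pi_pos
        exact (hθt.pow 2).pos_mul_atTop (by norm_num)
          ((tendsto_pow_atTop_atTop_of_one_lt one_lt_two).const_mul_atTop (by positivity))
      · have := (hθt.pow 2).mul (tendsto_kk hx hw hxw)
        rw [one_pow, one_mul] at this
        exact ENNReal.tendsto_ofReal this
    rw [← h1.liminf_eq]
    refine liminf_le_liminf ?_
    filter_upwards [hev x hx, hev w hw] with j h2 h3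
    exact ENNReal.ofReal_le_ofReal (κl j x h2 w h3)
  have low : ∀ y ∈ DD, ∀ x ∈ DD, ∑' n, ENNReal.ofReal s ^ n * iter m n x y ≤
      liminf (fun j => ENNReal.ofReal (u j x y)) atTop := fun y hy => by
    refine minimal h _ y fun x hx => ?_
    set I : ℕ → ℝ≥0∞ := fun j => ∫⁻ w, (closedBall (0 : ℂ) (θ j)).indicator
      (fun w => ENNReal.ofReal (κ j x w) * ENNReal.ofReal (u j w y)) w ∂m with hI
    have e1 : (fun j => ENNReal.ofReal (u j x y)) =
        (fun j => ENNReal.ofReal (κ j x y)) + ((fun _ => ENNReal.ofReal s) * I) := by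
      funext j
      simp only [hI, Pi.add_apply, Pi.mul_apply, lintegral_indicator measurableSet_closedBall]
      exact ue j x y
    have e2 : ∫⁻ w, g0e x w * liminf (fun j => ENNReal.ofReal (u j w y)) atTop ∂m ≤
        liminf I atTop := by
      refine le_trans (lintegral_mono_ae ?_)
        (lintegral_liminf_le fun j => (um j x y).indicator measurableSet_closedBall)
      filter_upwards [ae_mem h] with w hw
      refine (mul_le_mul_left (hκ x hx w hw) _).trans (ENNReal.le_liminf_mul.trans_eq ?_)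
      refine liminf_congr ?_
      filter_upwards [hev w hw] with j hj
      rw [indicator_of_mem hj]; rfl
    rw [e1]
    refine le_trans (add_le_add (hκ x hx y hy) ?_) (liminf_add_ge _ _)
    refine le_trans ?_ ENNReal.le_liminf_mul
    rw [liminf_const]
    exact mul_le_mul_right e2 _
  refine ⟨u, up, uL, fun x hx y hy hxy => ?_, fun x hx => ?_⟩
  · have hf := hG.finite s hs x hx y hy hxy
    have h1 : Tendsto (fun j => ENNReal.ofReal (u j x y)) atTop
        (𝓝 (∑' n, ENNReal.ofReal s ^ n * iter m n x y)) := by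
      refine tendsto_of_le_liminf_of_limsup_le (low y hy x hx) (limsup_le_of_le (h := ?_))
      filter_upwards [hev x hx, hev y hy] with j h2 h3
      exact (ENNReal.ofReal_le_ofReal (uu j x h2 y h3 hxy)).trans_eq (ENNReal.ofReal_toReal hf)
    have h2 := (ENNReal.tendsto_toReal hf).comp h1
    refine h2.congr fun j => ?_
    simp only [Function.comp, ENNReal.toReal_ofReal (up j x y).le]
  · rw [← ENNReal.tendsto_ofReal_nhds_top]
    refine tendsto_of_le_liminf_of_limsup_le (le_trans ?_ (low x hx x hx)) le_top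
    refine le_trans ?_ (ENNReal.le_tsum 0)
    simp [iter, g0e]

end CNDAux

open CNDAux in
theorem green_cnd {m : Measure ℂ} {μ C : ℝ} (h : Pot m μ) (hG : GreenAn m μ C) :
    ∀ s ∈ Icc 0 μ, GreenCND m s := by
  intro s hs p hp n x c hx hc
  obtain ⟨u, up, uL, t1, t2⟩ := exists_approx h hG hs
  have tinv : ∀ a ∈ DD, ∀ b ∈ DD,
      Tendsto (fun j => (u j a b)⁻¹) atTop (𝓝 (GG m s a b)⁻¹) := fun a ha b hb => by
    rcases eq_or_ne a b with rfl | hab
    · rw [hG.diag, inv_zero]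
      exact (t2 a ha).inv_tendsto_atTop
    · exact (t1 a ha b hb hab).inv₀ ((g0_pos ha hb hab).trans_le (hG.lower s hs a ha b hb)).ne'
  refine le_of_tendsto' (f := fun j => Q (fun a b => u j a p * u j b p * (u j a b)⁻¹) x c)
    (x := atTop) ?_ fun j => cnd_of_lor (up j) (uL j) p x c hc
  refine tendsto_finsetSum _ fun i _ => tendsto_finsetSum _ fun k _ => Tendsto.const_mul _ ?_
  rw [div_eq_mul_inv]
  exact ((t1 _ (hx i).1 p hp (hx i).2).mul (t1 _ (hx k).1 p hp (hx k).2)).mul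
    (tinv _ (hx i).1 _ (hx k).1)

end Vale.Agent.P071
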