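import Vale.Agent.P071.Disc
import Vale.Agent.P071.GreenCND

/-! Conditional negativity for densities and estimates of the Green function of the disc. -/

open MeasureTheory Set Metric Filter Topology
open scoped ENNReal ComplexConjugate

namespace Vale.Agent.P071.FinalAux

open CNDAux

theorem psd_integral {X : Type*} [MeasurableSpace X] {ν : Measure X} [IsFiniteMeasure ν]
    {S : Set X} (hS : ∀ᵐ x ∂ν, x ∈ S) {Γ : X → X → ℝ} (hs : Sy Γ)
    (hP : ∀ n (x : Fin n → X) (d : Fin n → ℝ), (∀ i, x i ∈ S) → 0 ≤ Q Γ x d) {c : X → ℝ}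
    (h1 : Integrable (fun z => c z * ∫ x, Γ z x * c x ∂ν) ν)
    (h2 : Integrable (fun z => Γ z z * c z ^ 2) ν)
    (h3 : ∀ a ∈ S, Integrable (fun x => Γ a x * c x) ν) {a : X} (ha : a ∈ S) (l : ℝ) :
    0 ≤ l ^ 2 * Γ a a + 2 * l * ∫ x, Γ a x * c x ∂ν + ∫ z, c z * ∫ x, Γ z x * c x ∂ν ∂ν := by
  set I : X → ℝ := fun z => ∫ x, Γ z x * c x ∂ν with hI
  set J := ∫ z, c z * I z ∂ν with hJ
  set D := ∫ z, Γ z z * c z ^ 2 ∂ν with hD
  set M := ν.real univ with hM
  have base : 0 ≤ l ^ 2 * Γ a a := by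
    have := hP 1 (fun _ => a) (fun _ => l) fun _ => ha
    simpa [Q, sq] using this
  rcases eq_or_ne ν 0 with rfl | hν
  · simpa [hJ] using base
  have hM0 : 0 < M := ENNReal.toReal_pos (Measure.measure_univ_ne_zero.2 hν) (measure_ne_top _ _)
  have P : ∀ N : ℕ, ∀ n (x : Fin n → X) (d : Fin n → ℝ), (∀ i, x i ∈ S) →
      0 ≤ Q Γ x d + 2 * N * (∑ i, d i * I (x i)) + N * (N - 1) * J + N * M * D := by
    intro N
    induction N with
    | zero => intro n x d hx; simpa using hP n x d hx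
    | succ N ih =>
      intro n x d hx
      set A := Q Γ x d + 2 * N * (∑ i, d i * I (x i)) + N * (N - 1) * J + N * M * D with hA
      have hi : Integrable (fun z => ∑ i, d i * (Γ (x i) z * c z)) ν :=
        integrable_finsetSum _ fun i _ => (h3 _ (hx i)).const_mul _
      have e1 : 0 ≤ ∫ z, (M ^ 2 * (Γ z z * c z ^ 2) + 2 * M * (∑ i, d i * (Γ (x i) z * c z)) +
          2 * N * M * (c z * I z) + A) ∂ν := by
        refine integral_nonneg_of_ae ?_
        filter_upwards [hS] with z hz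
        have := ih (n + 1) (Fin.cons z x) (Fin.cons (M * c z) d) fun i =>
          Fin.cases (by simpa using hz) (fun i => by simpa using hx i) i
        rw [Q_cons hs] at this
        simp only [Fin.sum_univ_succ, Fin.cons_zero, Fin.cons_succ] at this
        have e : ∑ i, d i * (Γ (x i) z * c z) = c z * ∑ i, d i * Γ (x i) z := by
          rw [Finset.mul_sum]; exact Finset.sum_congr rfl fun i _ => by ring
        simp only [Pi.zero_apply, e, hA]
        linarith
      rw [integral_add _ (integrable_const _), integral_add _ (h1.const_mul _),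
        integral_add (h2.const_mul _) (hi.const_mul _), integral_const_mul, integral_const_mul,
        integral_const_mul, integral_const, integral_finsetSum _
          fun i _ => (h3 _ (hx i)).const_mul _] at e1
      · simp only [integral_const_mul, smul_eq_mul] at e1
        have e2 : 0 ≤ M * (M * D + 2 * (∑ i, d i * I (x i)) + 2 * N * J + A) := by
          refine e1.trans_eq ?_
          simp only [hI, hD, hJ, hM]
          ring
        have e3 := (mul_nonneg_iff_of_pos_left hM0).1 e2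
        simp only [hA] at e3
        push_cast
        linarith
      · exact (h2.const_mul _).add (hi.const_mul _)
      · exact ((h2.const_mul _).add (hi.const_mul _)).add (h1.const_mul _)
  have P2 : ∀ N : ℕ, 0 ≤ (l ^ 2 * Γ a a + 2 * l * I a + J) + (M * D - J) * (1 / ((N : ℝ) + 1)) := by
    intro N
    have := P (N + 1) 1 (fun _ => a) (fun _ => (N + 1) * l) fun _ => ha
    simp only [Q, Finset.univ_unique, Finset.sum_singleton] at this
    push_cast at this
    have hN : (0 : ℝ) < N + 1 := by positivity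
    have e : (l ^ 2 * Γ a a + 2 * l * I a + J) + (M * D - J) * (1 / ((N : ℝ) + 1)) =
        (((N : ℝ) + 1) * l * ((N + 1) * l) * Γ a a + 2 * (N + 1) * ((N + 1) * l * I a) +
          (N + 1) * (N + 1 - 1) * J + (N + 1) * M * D) / (N + 1) ^ 2 := by
      field_simp; ring
    rw [e]; positivity
  have := (tendsto_const_nhds (x := l ^ 2 * Γ a a + 2 * l * I a + J)).add
    ((tendsto_one_div_add_atTop_nhds_zero_nat (𝕜 := ℝ)).const_mul (M * D - J))
  rw [mul_zero, add_zero] at this
  exact ge_of_tendsto' this P2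

theorem cnd_integral {X : Type*} [MeasurableSpace X] {ν : Measure X} [IsFiniteMeasure ν]
    {S : Set X} (hS : ∀ᵐ x ∂ν, x ∈ S) {N : X → X → ℝ} (hs : Sy N) (hd : ∀ x, N x x = 0)
    (hP : ∀ n (x : Fin n → X) (d : Fin n → ℝ), (∀ i, x i ∈ S) → ∑ i, d i = 0 → Q N x d ≤ 0)
    {c : X → ℝ} (hc : Integrable c ν) (hc0 : ∫ x, c x ∂ν = 0) {b : X} (hb : b ∈ S)
    (h1 : Integrable (fun z => c z * ∫ x, N z x * c x ∂ν) ν)
    (h2 : Integrable (fun z => N b z * c z ^ 2) ν)
    (h3 : ∀ a ∈ S, Integrable (fun x => N a x * c x) ν) {a : X} (ha : a ∈ S) (l : ℝ) :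
    0 ≤ l ^ 2 * (2 * N b a) + 2 * l * (∫ x, N b x * c x ∂ν - ∫ x, N a x * c x ∂ν) -
      ∫ z, c z * ∫ x, N z x * c x ∂ν ∂ν := by
  set Γ : X → X → ℝ := fun x y => N b x + N b y - N x y with hΓ
  have hi : ∀ a ∈ S, Integrable (fun x => Γ a x * c x) ν ∧
      ∫ x, Γ a x * c x ∂ν = ∫ x, N b x * c x ∂ν - ∫ x, N a x * c x ∂ν := fun a ha => by
    have e : (fun x => Γ a x * c x) = fun x => N b a * c x + N b x * c x - N a x * c x := by
      funext x; simp only [hΓ]; ring
    have i1 : Integrable (fun x => N b a * c x + N b x * c x) ν := (hc.const_mul _).add (h3 b hb)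
    rw [e, integral_sub i1 (h3 a ha),
      integral_add (hc.const_mul _) (h3 b hb), integral_const_mul, hc0, mul_zero, zero_add]
    exact ⟨i1.sub (h3 a ha), rfl⟩
  have e1 : (fun z => c z * ∫ x, Γ z x * c x ∂ν) =ᵐ[ν]
      fun z => (∫ x, N b x * c x ∂ν) * c z - c z * ∫ x, N z x * c x ∂ν := by
    filter_upwards [hS] with z hz
    rw [(hi z hz).2]; ring
  have := psd_integral hS (Γ := Γ) (fun x y => by simp only [hΓ, hs x y]; ring)
    (fun n x d hx => by
      have h := hP (n + 1) (Fin.cons b x) (Fin.cons (-∑ i, d i) d)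
        (fun i => Fin.cases (by simpa using hb) (fun i => by simpa using hx i) i)
        (by simp [Fin.sum_univ_succ])
      rw [Q_cons hs, hd] at h
      have e : Q Γ x d = 2 * (∑ i, d i) * (∑ i, d i * N (x i) b) - Q N x d := by
        have e1 : (∑ i, d i) * (∑ i, d i * N (x i) b) = ∑ i, ∑ j, d i * d j * N b (x j) := by
          rw [Finset.sum_mul_sum]
          exact Finset.sum_congr rfl fun i _ => Finset.sum_congr rfl fun j _ => by
            rw [hs b]; ring
        have e2 : (∑ i, d i) * (∑ i, d i * N (x i) b) = ∑ i, ∑ j, d i * d j * N b (x i) := by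
          rw [e1, Finset.sum_comm]
          exact Finset.sum_congr rfl fun i _ => Finset.sum_congr rfl fun j _ => by ring
        rw [mul_assoc, two_mul]
        nth_rewrite 1 [e2]
        rw [e1]
        simp only [Q, hΓ, ← Finset.sum_add_distrib, ← Finset.sum_sub_distrib]
        exact Finset.sum_congr rfl fun i _ => Finset.sum_congr rfl fun j _ => by ring
      rw [e]; linarith)
    (((hc.const_mul _).sub h1).congr e1.symm)
    ((h2.const_mul 2).congr (Eventually.of_forall fun z => by simp only [hΓ, hd]; ring))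
    (fun a ha => (hi a ha).1) ha l
  rw [integral_congr_ae e1, integral_sub (hc.const_mul _) h1, integral_const_mul, hc0,
    (hi a ha).2] at this
  simp only [hΓ, hd] at this
  linarith

theorem g0_le_log {x y : ℂ} (hx : x ∈ DD) (hy : y ∈ DD) :
    g0 x y ≤ (2 * Real.pi)⁻¹ * Real.log (2 / ‖x - y‖) := by
  rcases eq_or_ne x y with rfl | hxy
  · simp [g0]
  have h1 : ‖x‖ < 1 := by simpa using hx
  have h2 : ‖y‖ < 1 := by simpa using hy
  have h3 : 0 < ‖x - y‖ := norm_pos_iff.2 (sub_ne_zero.2 hxy)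
  have h4 : 0 < ‖1 - x * conj y‖ := by
    have := den_pos hx hy
    exact lt_of_le_of_ne (norm_nonneg _) fun h => by rw [← h] at this; simp at this
  have h5 : ‖1 - x * conj y‖ ≤ 2 := by
    refine (norm_sub_le _ _).trans ?_
    rw [norm_one, norm_mul, Complex.norm_conj]
    nlinarith [norm_nonneg x, norm_nonneg y]
  have := Real.pi_pos
  unfold g0
  gcongr

theorem g0_le_inv {x y : ℂ} (hx : x ∈ DD) (hy : y ∈ DD) : g0 x y ≤ ‖x - y‖⁻¹ := by
  refine (g0_le_log hx hy).trans ?_
  have h1 : Real.log (2 / ‖x - y‖) ≤ 2 / ‖x - y‖ := Real.log_le_self (by positivity)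
  have h2 := Real.two_le_pi
  calc _ ≤ (2 * Real.pi)⁻¹ * (2 / ‖x - y‖) := by gcongr
    _ = Real.pi⁻¹ * ‖x - y‖⁻¹ := by field_simp
    _ ≤ 1 * ‖x - y‖⁻¹ := by gcongr; exact inv_le_one_of_one_le₀ (by linarith)
    _ = _ := one_mul _

theorem le_g0 {x y : ℂ} (hx : x ∈ DD) (hy : y ∈ DD) (hxy : x ≠ y) :
    hh x * hh y / 64 ≤ g0 x y := by
  have h0 := Real.log_le_sub_one_of_pos (sg_pos hx hy hxy 0)
  rw [log_sg] at h0
  have h1 : ‖x‖ < 1 := by simpa using hx
  have h2 : ‖y‖ < 1 := by simpa using hy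
  have h3 := den_pos hx hy
  have h5 : ‖1 - x * conj y‖ ≤ 2 := by
    refine (norm_sub_le _ _).trans ?_
    rw [norm_one, norm_mul, Complex.norm_conj]
    nlinarith [norm_nonneg x, norm_nonneg y]
  have h6 : ‖1 - x * conj y‖ ^ 2 ≤ 4 := by nlinarith [norm_nonneg (1 - x * conj y)]
  have h4 : 1 - sg 0 x y = hh x * hh y / ‖1 - x * conj y‖ ^ 2 := by
    simp only [sg, hh]
    rw [eq_div_iff h3.ne', sub_mul, div_mul_cancel₀ _ h3.ne', nsq2, nsq1]; ring
  have h7 : 0 ≤ hh x * hh y := (mul_pos (hh_pos hx) (hh_pos hy)).le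
  have h8 : hh x * hh y / 4 ≤ 1 - sg 0 x y := by rw [h4]; gcongr
  have h9 := Real.pi_le_four
  have h10 := g0_nonneg hx hy
  simp only [pow_zero, div_one] at h0
  nlinarith

theorem g0_zero_le {x : ℂ} (hx : x ∈ DD) (h : hh x ≤ 1 / 2) : g0 x 0 ≤ hh x := by
  have h0 : x ≠ 0 := by rintro rfl; norm_num [hh] at h
  have hz : (0 : ℂ) ∈ DD := mem_ball_self one_pos
  have h1 := Real.one_sub_inv_le_log_of_pos (sg_pos hx hz h0 0)
  rw [log_sg] at h1
  have h2 : sg 0 x 0 = 1 - hh x := by simp [sg, hh]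
  have h3 : 0 < hh x := hh_pos hx
  have h4 : (1 - hh x)⁻¹ ≤ 1 + 2 * hh x := by
    rw [inv_le_iff_one_le_mul₀ (by linarith)]; nlinarith
  rw [h2] at h1
  have h5 := Real.two_le_pi
  have h6 := g0_nonneg hx hz
  simp only [pow_zero, div_one] at h1
  nlinarith

theorem exists_K0 : ∃ K0 : ℝ, ∀ p ∈ DD, ∃ ψ : ℂ → ℝ, IntegrableOn ψ DD ∧
    (∀ x ∈ DD, g0 x p ≤ ψ x) ∧ ∫ x in DD, ψ x ≤ K0 := by
  have h1 : IntegrableOn (fun x : ℂ => ‖x‖⁻¹) (ball 0 2) :=
    integrableOn_ball_of_norm_le_rpow (C := 1) (α := 1) (by simp) (by simp)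
      (Eventually.of_forall fun x => by simp [Real.rpow_neg_one])
      measurable_norm.inv.aestronglyMeasurable
  have h2 := h1.integrable_indicator measurableSet_ball
  set φ := (ball (0 : ℂ) 2).indicator fun x : ℂ => ‖x‖⁻¹ with hφ
  refine ⟨∫ x, φ x, fun p hp => ⟨fun x => φ (x - p), (h2.comp_sub_right p).integrableOn,
    fun x hx => ?_, ?_⟩⟩
  · have h3 : ‖x‖ < 1 := by simpa using hx
    have h4 : ‖p‖ < 1 := by simpa using hp
    have h5 : x - p ∈ ball (0 : ℂ) 2 := by
      rw [mem_ball_zero_iff]; linarith [norm_sub_le x p]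
    simp only [hφ, indicator_of_mem h5]
    exact g0_le_inv hx hp
  · rw [← integral_sub_right_eq_self φ p]
    exact setIntegral_le_integral (h2.comp_sub_right p) (Eventually.of_forall fun x =>
      indicator_nonneg (fun _ _ => by positivity) _)

end Vale.Agent.P071.FinalAux
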