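import Vale.Agent.P071.Disc

/-! The fundamental solution of the Laplacian in the plane. -/

open MeasureTheory Set Metric Filter Topology
open scoped ENNReal

namespace Vale.Agent.P071

lemma abs_log_le {r R : ℝ} (hr : 0 ≤ r) (hR : r < R) : |Real.log r| ≤ (1 + R ^ 2) * r ^ (-1 : ℝ) := by
  rcases hr.eq_or_lt with rfl | hr
  · simp
  rw [Real.rpow_neg_one, ← div_eq_mul_inv, le_div_iff₀ hr]
  rcases le_total r 1 with h | h
  · have h1 := Real.log_le_sub_one_of_pos (inv_pos.2 hr)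
    rw [Real.log_inv] at h1
    rw [abs_of_nonpos (Real.log_nonpos hr.le h)]
    have h2 : -Real.log r * r ≤ r⁻¹ * r := by gcongr; linarith
    rw [inv_mul_cancel₀ hr.ne'] at h2
    nlinarith [sq_nonneg R]
  · have h1 := Real.log_le_sub_one_of_pos hr
    rw [abs_of_nonneg (Real.log_nonneg h)]
    nlinarith

lemma measurable_log_norm : Measurable fun y : ℂ => Real.log ‖y‖ := by fun_prop

lemma locInt_log : LocallyIntegrable (fun y : ℂ => Real.log ‖y‖) := by
  rw [locallyIntegrable_iff]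
  intro K hK
  obtain ⟨R, -, hR⟩ := hK.isBounded.exists_pos_norm_lt
  refine (integrableOn_ball_of_norm_le_rpow (C := 1 + R ^ 2) (α := 1) (r := R) (by simp) (by simp) ?_
    measurable_log_norm.aestronglyMeasurable).mono_set (mem_ball_zero_iff.mpr <| hR · ·)
  filter_upwards [ae_restrict_mem measurableSet_ball] with y hy
  exact abs_log_le (norm_nonneg y) (mem_ball_zero_iff.1 hy)

lemma locInt_abs_log : LocallyIntegrable (fun y : ℂ => |Real.log ‖y‖|) := fun x =>
  let ⟨s, hs, h⟩ := locInt_log x; ⟨s, hs, h.abs⟩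

lemma dd_comp_hh {g : ℝ → ℝ} {g1 : ℝ} {z : ℂ} (h : HasDerivAt g g1 (hh z)) (v : ℂ) :
    dd v (fun x => g (hh x)) z = g1 * dd v hh z := dd_comp h (diff_hh z)

lemma lap_comp_hh {g g1 : ℝ → ℝ} {g2 : ℝ} {z : ℂ} (h1 : ∀ᶠ t in 𝓝 (hh z), HasDerivAt g (g1 t) t)
    (h2 : HasDerivAt g1 g2 (hh z)) :
    lap (fun x => g (hh x)) z = g2 * (4 * ‖z‖ ^ 2) - 4 * g1 (hh z) := by
  have key : ∀ v : ℂ, dd v (dd v fun x => g (hh x)) z =
      g2 * (dd v hh z * dd v hh z) + g1 (hh z) * dd v (dd v hh) z := by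
    intro v
    have e : dd v (fun x => g (hh x)) =ᶠ[𝓝 z] fun x => g1 (hh x) * dd v hh x := by
      filter_upwards [continuous_hh.continuousAt.eventually h1] with x hx using dd_comp_hh hx v
    rw [dd_congr e, dd_mul (a := fun x => g1 (hh x)) (h2.differentiableAt.comp z (diff_hh z))
      ((contDiff_dd (m := 1) (contDiff_hh (n := 2)) le_rfl).differentiable one_ne_zero z),
      dd_comp_hh h2]
    ring
  have h3 := lap_hh z
  have h4 := gdot_hh z
  simp only [lap, gdot, d1_eq, d2_eq] at h3 h4 ⊢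
  rw [key, key, ← h4]
  linear_combination g1 (hh z) * h3

lemma integral_bump : ∫ y : ℂ, 2 / (‖y‖ ^ 2 + 1) ^ 2 = 2 * Real.pi := by
  rw [integral_fun_norm_addHaar volume fun r : ℝ => 2 / (r ^ 2 + 1) ^ 2]
  have h : ∫ y in Ioi (0 : ℝ), y ^ (Module.finrank ℝ ℂ - 1) • (2 / (y ^ 2 + 1) ^ 2) = 0 - (-1) := by
    have hd : ∀ x ∈ Ici (0 : ℝ), HasDerivAt (fun r : ℝ => -(r ^ 2 + 1)⁻¹)
        (x ^ (Module.finrank ℝ ℂ - 1) • (2 / (x ^ 2 + 1) ^ 2)) x := by
      intro x _
      have := (((hasDerivAt_pow 2 x).add_const 1).inv (by positivity)).neg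
      refine this.congr_deriv ?_
      simp; field_simp
    have ht : Tendsto (fun r : ℝ => -(r ^ 2 + 1)⁻¹) atTop (𝓝 0) := by
      have := (tendsto_atTop_add_const_right atTop (1 : ℝ)
        (tendsto_pow_atTop (α := ℝ) two_ne_zero)).inv_tendsto_atTop.neg
      simpa using this
    have := integral_Ioi_of_hasDerivAt_of_nonneg' hd (fun x hx => by
      have : 0 < x := hx
      simp only [smul_eq_mul]; positivity) ht
    simpa using this
  rw [h]
  simp [Measure.real, Complex.volume_ball]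

lemma integrable_bump : Integrable fun y : ℂ => 2 / (‖y‖ ^ 2 + 1) ^ 2 := by
  by_contra h
  have := integral_bump
  rw [integral_undef h] at this
  have := Real.pi_pos
  linarith

/-- The logarithm is the fundamental solution. -/
theorem fund {ψ : ℂ → ℝ} (hψ : Test univ ψ) : ∫ y, Real.log ‖y‖ * lap ψ y = 2 * Real.pi * ψ 0 := by
  set Γ : ℝ → ℂ → ℝ := fun ε y => 2⁻¹ * Real.log (1 + ε ^ 2 - hh y) with hΓ
  have hs : ∀ (ε : ℝ) (y : ℂ), 1 + ε ^ 2 - hh y = ‖y‖ ^ 2 + ε ^ 2 := fun ε y => by unfold hh; ring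
  have hpos : ∀ {ε : ℝ}, 0 < ε → ∀ y : ℂ, 0 < 1 + ε ^ 2 - hh y := fun hε y => by
    rw [hs]; positivity
  have hc : ∀ {ε : ℝ}, 0 < ε → ContDiff ℝ 2 (Γ ε) := fun hε =>
    contDiff_const.mul ((contDiff_const.sub contDiff_hh).log fun y => (hpos hε y).ne')
  have hl : ∀ {ε : ℝ}, 0 < ε → ∀ y, lap (Γ ε) y = 2 * ε ^ 2 / (‖y‖ ^ 2 + ε ^ 2) ^ 2 := by
    intro ε hε y
    have hp := hpos hε y
    rw [hΓ, lap_comp_hh (g := fun t => 2⁻¹ * Real.log (1 + ε ^ 2 - t))
      (g1 := fun t => -2⁻¹ * (1 + ε ^ 2 - t)⁻¹) (g2 := -2⁻¹ * ((1 + ε ^ 2 - hh y) ^ 2)⁻¹)]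
    · rw [hs] at hp ⊢; field_simp; ring
    · filter_upwards [gt_mem_nhds (sub_pos.1 hp)] with t ht
      exact ((((hasDerivAt_id' t).const_sub (1 + ε ^ 2)).log (sub_pos.2 ht).ne').const_mul
        2⁻¹).congr_deriv (by ring)
    · exact ((((hasDerivAt_id' (hh y)).const_sub (1 + ε ^ 2)).inv hp.ne').const_mul
        (-2⁻¹)).congr_deriv (by ring)
  have h1 : ∀ {ε : ℝ}, 0 < ε → ∫ y, Γ ε y * lap ψ y = ∫ y : ℂ, 2 / (‖y‖ ^ 2 + 1) ^ 2 * ψ (ε • y) := by
    intro ε hε
    have a1 := green1 isOpen_univ (hc hε).contDiffOn hψ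
    have a2 := green2 isOpen_univ ((hc hε).of_le one_le_two).contDiffOn hψ
    simp only [Measure.restrict_univ] at a1 a2
    have a3 := Measure.integral_comp_smul volume (fun y => ε ^ 2 * (lap (Γ ε) y * ψ y)) ε
    rw [integral_const_mul, integral_const_mul] at a3
    have a4 : ∫ y : ℂ, 2 / (‖y‖ ^ 2 + 1) ^ 2 * ψ (ε • y) =
        ε ^ 2 * ∫ y, lap (Γ ε) (ε • y) * ψ (ε • y) := by
      rw [← integral_const_mul]
      refine integral_congr_ae (Eventually.of_forall fun y => ?_)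
      simp only [hl hε, norm_smul, Real.norm_eq_abs, abs_of_pos hε]
      field_simp
    rw [a4, a3]
    simp only [Complex.finrank_real_complex, smul_eq_mul]
    rw [abs_of_pos (by positivity)]
    field_simp
    linarith
  obtain ⟨C, hC⟩ := hψ.bdd
  have t1 : Tendsto (fun ε : ℝ => ∫ y : ℂ, 2 / (‖y‖ ^ 2 + 1) ^ 2 * ψ (ε • y)) (𝓝[>] 0)
      (𝓝 (∫ y : ℂ, 2 / (‖y‖ ^ 2 + 1) ^ 2 * ψ 0)) := by
    refine tendsto_integral_filter_of_dominated_convergence (fun y => 2 / (‖y‖ ^ 2 + 1) ^ 2 * C)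
      (Eventually.of_forall fun ε => integrable_bump.1.mul
        (hψ.continuous.comp (continuous_const_smul ε)).aestronglyMeasurable)
      (Eventually.of_forall fun ε => Eventually.of_forall fun y => ?_)
      (integrable_bump.mul_const C) (Eventually.of_forall fun y => ?_)
    · rw [norm_mul, Real.norm_eq_abs, abs_of_nonneg (by positivity)]
      exact mul_le_mul_of_nonneg_left (hC _) (by positivity)
    · refine Tendsto.const_mul _ (tendsto_nhdsWithin_of_tendsto_nhds ?_)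
      have : Continuous fun ε : ℝ => ψ (ε • y) := hψ.continuous.comp (by fun_prop)
      simpa using this.tendsto 0
  have t2 : Tendsto (fun ε : ℝ => ∫ y, Γ ε y * lap ψ y) (𝓝[>] 0)
      (𝓝 (∫ y, Real.log ‖y‖ * lap ψ y)) := by
    have hae : ∀ᵐ y : ℂ, y ≠ 0 := by simp [ae_iff]
    have hli : LocallyIntegrable (fun y : ℂ => |Real.log ‖y‖| + ‖y‖ ^ 2) :=
      locInt_abs_log.add (Continuous.locallyIntegrable (by fun_prop))
    refine tendsto_integral_filter_of_dominated_convergence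
      (fun y => (|Real.log ‖y‖| + ‖y‖ ^ 2) * |lap ψ y|) ?_ ?_
      (hli.integrable_smul_right_of_hasCompactSupport hψ.lap.continuous.abs hψ.lap.2.1.abs) ?_
    · filter_upwards [self_mem_nhdsWithin] with ε hε
      exact ((hc hε).continuous.mul hψ.lap.continuous).aestronglyMeasurable
    · filter_upwards [Ioo_mem_nhdsGT zero_lt_one] with ε hε
      filter_upwards [hae] with y hy
      have hy' : 0 < ‖y‖ := norm_pos_iff.2 hy
      rw [norm_mul, Real.norm_eq_abs, Real.norm_eq_abs]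
      refine mul_le_mul_of_nonneg_right (abs_le.2 ⟨?_, ?_⟩) (abs_nonneg _)
      · have : Real.log (‖y‖ ^ 2) ≤ Real.log (‖y‖ ^ 2 + ε ^ 2) :=
          Real.log_le_log (by positivity) (by nlinarith)
        rw [Real.log_pow] at this
        simp only [hΓ, hs]
        have := neg_abs_le (Real.log ‖y‖)
        push_cast at *
        nlinarith
      · have := Real.log_le_sub_one_of_pos (hpos hε.1 y)
        simp only [hΓ, hs] at this ⊢
        have := abs_nonneg (Real.log ‖y‖)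
        nlinarith [hε.1, hε.2]
    · filter_upwards [hae] with y hy
      refine Tendsto.mul_const _ (tendsto_nhdsWithin_of_tendsto_nhds ?_)
      have hy' : 0 < ‖y‖ := norm_pos_iff.2 hy
      have : ContinuousAt (fun ε : ℝ => 2⁻¹ * Real.log (‖y‖ ^ 2 + ε ^ 2)) 0 :=
        continuousAt_const.mul (ContinuousAt.log (by fun_prop) (by positivity))
      have e : Real.log ‖y‖ = 2⁻¹ * Real.log (‖y‖ ^ 2 + 0 ^ 2) := by
        simp [Real.log_pow]
      simp only [hΓ, hs]
      rw [e]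
      exact this.tendsto
  rw [integral_mul_const, integral_bump] at t1
  refine tendsto_nhds_unique t2 (t1.congr' ?_)
  filter_upwards [self_mem_nhdsWithin] with ε hε using (h1 hε).symm

end Vale.Agent.P071
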