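import Vale.Agent.P071.Energy

/-! The spectral gap and the hypotheses on the potential. -/

open MeasureTheory Set Metric Filter Topology
open scoped ENNReal

namespace Vale.Agent.P071

lemma le_of_forall_eps {x a K : ℝ} (h : ∀ ε, 0 < ε → ε ≤ 1 → x ≤ a + K * ε) : x ≤ a := by
  have t : Tendsto (fun ε : ℝ => a + K * ε) (𝓝[>] 0) (𝓝 (a + K * 0)) :=
    tendsto_nhdsWithin_of_tendsto_nhds ((tendsto_id.const_mul K).const_add a)
  rw [mul_zero, add_zero] at t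
  refine ge_of_tendsto t ?_
  filter_upwards [Ioc_mem_nhdsGT zero_lt_one] with ε hε using h ε hε.1 hε.2

lemma memLp_g0 {m : Measure ℂ} (hm : ∀ᵐ z ∂m, z ∈ DD)
    (hsq : ∃ A : ℝ≥0∞, A ≠ ⊤ ∧ ∀ x ∈ DD, ∫⁻ w, (1 + g0e x w) ^ 2 ∂m ≤ A) :
    ∃ B > 0, ∀ x ∈ DD, MemLp (g0 x) 2 m ∧ ∫ w, g0 x w ^ 2 ∂m ≤ B := by
  obtain ⟨A, hA, h⟩ := hsq
  refine ⟨A.toReal + 1, by positivity, fun x hx => ?_⟩
  have h1 : ∫⁻ w, ENNReal.ofReal (g0 x w ^ 2) ∂m ≤ A := by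
    refine le_trans (lintegral_mono_ae (hm.mono fun w hw => ?_)) (h x hx)
    rw [ENNReal.ofReal_pow (g0_nonneg hx hw)]
    refine pow_le_pow_left₀ zero_le (le_trans ?_ le_add_self) 2
    unfold g0e
    split_ifs
    exacts [le_top, le_rfl]
  have h2 : AEStronglyMeasurable (fun w => g0 x w ^ 2) m :=
    ((measurable_g0_right x).pow_const 2).aestronglyMeasurable
  have h3 : 0 ≤ᵐ[m] fun w => g0 x w ^ 2 := Eventually.of_forall fun _ => sq_nonneg _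
  refine ⟨(memLp_two_iff_integrable_sq (measurable_g0_right x).aestronglyMeasurable).2
    ⟨h2, (hasFiniteIntegral_iff_ofReal h3).2 (h1.trans_lt hA.lt_top)⟩, ?_⟩
  rw [integral_eq_lintegral_of_nonneg_ae h3 h2]
  linarith [ENNReal.toReal_mono hA h1]

/-- The Green operator of the weighted measure. -/
noncomputable def SG (m : Measure ℂ) (g : ℂ → ℝ) (x : ℂ) : ℝ := ∫ w, g0 x w * g w ∂m

lemma SG_aesm {m : Measure ℂ} [SFinite m] {g : ℂ → ℝ} (hg : AEStronglyMeasurable g m)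
    (ν : Measure ℂ) [SFinite ν] : AEStronglyMeasurable (SG m g) ν :=
  (measurable_g0.aestronglyMeasurable.mul (hg.comp_snd (μ := ν))).integral_prod_right'

variable {ρ : ℂ → ℝ}

lemma Wt.SG_eq (hρ : Wt ρ) (F : ℂ → ℝ) : SG (mm ρ) F = G0 fun w => ρ w * F w := by
  funext x
  rw [SG, hρ.integral, G0]
  simp only [mul_left_comm]

lemma SG_sq_le {m : Measure ℂ} {B : ℝ} {x : ℂ} (h : MemLp (g0 x) 2 m ∧ ∫ w, g0 x w ^ 2 ∂m ≤ B)
    {g : ℂ → ℝ} (hg : MemLp g 2 m) : SG m g x ^ 2 ≤ B * ∫ w, g w ^ 2 ∂m :=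
  (cs_integral h.1 hg).trans
    (mul_le_mul_of_nonneg_right h.2 (integral_nonneg fun _ => sq_nonneg _))

lemma Wt.SG_memLp (hρ : Wt ρ) {B : ℝ}
    (h : ∀ x ∈ DD, MemLp (g0 x) 2 (mm ρ) ∧ ∫ w, g0 x w ^ 2 ∂mm ρ ≤ B)
    {g : ℂ → ℝ} (hg : MemLp g 2 (mm ρ)) : MemLp (SG (mm ρ) g) 2 (mm ρ) :=
  have := hρ.fin
  hρ.memLp_bdd (SG_aesm hg.1 _) fun x hx => Real.abs_le_sqrt (SG_sq_le (h x hx) hg)

lemma Wt.EE_test (hρ : Wt ρ) (μ : ℝ) {Y : ℂ → ℝ} (hY : Test DD Y) :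
    EE ρ μ Y Y = (∫ z in DD, gdot Y Y z) - μ * ∫ z in DD, ρ z * Y z ^ 2 := by
  rw [EE, integral_sub (hY.gdot_right isOpen_DD hY.contDiffOn).integrableOn
    (by exact hY.integrableOn_mul isOpen_DD ((continuousOn_const.mul hρ.smooth.continuousOn).mul
      hY.continuous.continuousOn)), ← integral_const_mul]
  simp only [sq, mul_assoc]

lemma Wt.tendsto_EE (hρ : Wt ρ) (μ : ℝ) {k : ℂ → ℝ} (hk : Test DD k) :
    Tendsto (fun δ => EE ρ μ (fun x => chi δ x * G0 k x) (fun x => chi δ x * G0 k x)) (𝓝[>] 0)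
      (𝓝 ((∫ z in DD, k z * G0 k z) - μ * ∫ z in DD, ρ z * G0 k z ^ 2)) := by
  refine ((G0_energy hk).sub ((tendsto_mul_cut_sq hk hρ.int).const_mul μ)).congr' ?_
  filter_upwards [self_mem_nhdsWithin] with δ hδ using (hρ.EE_test μ (G0_test hk hδ)).symm

lemma gap_arith {μ c B N S I P : ℝ} (hμ : 0 < μ) (hc : 0 < c) (hB : 0 < B) (hN : 0 ≤ N)
    (hS : 0 ≤ S) (h1 : c * I ^ 2 ≤ P - μ * S) (h2 : P ^ 2 ≤ N * S) (h3 : S ^ 2 ≤ B * N * I ^ 2) :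
    S ≤ (max (2 * μ)⁻¹ (μ + c / (4 * μ ^ 2 * B))⁻¹) ^ 2 * N := by
  obtain ⟨n, hn, rfl⟩ : ∃ n, 0 ≤ n ∧ N = n ^ 2 := ⟨√N, Real.sqrt_nonneg _, (Real.sq_sqrt hN).symm⟩
  obtain ⟨s, hs, rfl⟩ : ∃ s, 0 ≤ s ∧ S = s ^ 2 := ⟨√S, Real.sqrt_nonneg _, (Real.sq_sqrt hS).symm⟩
  rw [← mul_pow]
  refine pow_le_pow_left₀ hs ?_ 2
  have hP : P ≤ n * s := abs_le_of_sq_le_sq' (by rw [mul_pow]; exact h2) (by positivity) |>.2
  rcases le_or_gt s ((2 * μ)⁻¹ * n) with h | h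
  · exact h.trans (mul_le_mul_of_nonneg_right (le_max_left _ _) hn)
  refine le_trans ?_ (mul_le_mul_of_nonneg_right (le_max_right _ _) hn)
  have hs0 : 0 < s := lt_of_le_of_lt (by positivity) h
  rw [inv_mul_lt_iff₀ (by positivity)] at h
  have h4 : n ^ 2 ≤ (2 * μ * s) ^ 2 := pow_le_pow_left₀ hn h.le 2
  have h5 : c * (s ^ 2) ^ 2 ≤ B * n ^ 2 * (n * s - μ * s ^ 2) :=
    calc c * (s ^ 2) ^ 2 ≤ c * (B * n ^ 2 * I ^ 2) := by gcongr
      _ = B * n ^ 2 * (c * I ^ 2) := by ring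
      _ ≤ _ := mul_le_mul_of_nonneg_left (by linarith) (by positivity)
  have h6 : 0 ≤ n * s - μ * s ^ 2 := by nlinarith [mul_nonneg hc.le (sq_nonneg I)]
  have h7 : c * (s ^ 2) ^ 2 ≤ B * (2 * μ * s) ^ 2 * (n * s - μ * s ^ 2) := h5.trans (by gcongr)
  have h8 : c * s ≤ 4 * μ ^ 2 * B * (n - μ * s) := by
    refine le_of_mul_le_mul_left ?_ (pow_pos hs0 3)
    nlinarith
  rw [le_inv_mul_iff₀ (by positivity), add_mul, div_mul_eq_mul_div,
    ← le_sub_iff_add_le', div_le_iff₀ (by positivity)]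
  linarith

lemma Wt.gap_test (hρ : Wt ρ) {μ c B : ℝ} (hμ : 0 < μ) (hc : 0 < c) (hB : 0 < B)
    (h : ∀ x ∈ DD, MemLp (g0 x) 2 (mm ρ) ∧ ∫ w, g0 x w ^ 2 ∂mm ρ ≤ B)
    (hDP : ∀ ψ, Test DD ψ → c * (∫ z in DD, ρ z * ψ z) ^ 2 ≤ EE ρ μ ψ ψ)
    {F : ℂ → ℝ} (hF : Test DD F) (h0 : ∀ z, 0 ≤ F z) :
    ∫ x, SG (mm ρ) F x ^ 2 ∂mm ρ ≤
      (max (2 * μ)⁻¹ (μ + c / (4 * μ ^ 2 * B))⁻¹) ^ 2 * ∫ x, F x ^ 2 ∂mm ρ := by
  have := hρ.fin
  have hk := hF.mul_left isOpen_DD hρ.smooth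
  have hFL := hρ.memLp_test hF
  have hSL := hρ.SG_memLp h hFL
  refine gap_arith (I := ∫ x, SG (mm ρ) F x ∂mm ρ) (P := ∫ x, F x * SG (mm ρ) F x ∂mm ρ) hμ hc hB
    (integral_nonneg fun _ => sq_nonneg _) (integral_nonneg fun _ => sq_nonneg _) ?_
    (cs_integral hFL hSL) ?_
  · simp only [hρ.integral, hρ.SG_eq, ← mul_assoc]
    refine le_of_tendsto_of_tendsto (((tendsto_mul_cut hk hρ.int).pow 2).const_mul c)
      (hρ.tendsto_EE μ hk) ?_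
    filter_upwards [self_mem_nhdsWithin] with δ hδ using hDP _ (G0_test hk hδ)
  · have hN : 0 ≤ B * ∫ x, F x ^ 2 ∂mm ρ := mul_nonneg hB.le (integral_nonneg fun _ => sq_nonneg _)
    rw [← Real.sq_sqrt hN, ← mul_pow, ← integral_const_mul]
    refine pow_le_pow_left₀ (integral_nonneg fun _ => sq_nonneg _) (integral_mono_ae
      hSL.integrable_sq ((hSL.integrable one_le_two).const_mul _) ?_) 2
    filter_upwards [ae_mm ρ] with x hx
    rw [sq]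
    refine mul_le_mul_of_nonneg_right (Real.le_sqrt_of_sq_le (SG_sq_le (h x hx) hFL)) ?_
    exact integral_nonneg_of_ae ((ae_mm ρ).mono fun w hw => mul_nonneg (g0_nonneg hx hw) (h0 w))

lemma add_sq_le {τ : ℝ} (hτ : 0 < τ) (a b : ℝ) :
    (a + b) ^ 2 ≤ (1 + τ) * a ^ 2 + (1 + τ⁻¹) * b ^ 2 := by
  have : (1 + τ) * a ^ 2 + (1 + τ⁻¹) * b ^ 2 - (a + b) ^ 2 = τ⁻¹ * (τ * a - b) ^ 2 := by
    field_simp; ring
  have h : 0 ≤ τ⁻¹ * (τ * a - b) ^ 2 := by positivity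
  linarith

lemma integral_add_sq_le {X : Type*} [MeasurableSpace X] {ν : Measure X} {τ : ℝ} (hτ : 0 < τ)
    {f a b : X → ℝ} (ha : MemLp a 2 ν) (hb : MemLp b 2 ν) (h : ∀ᵐ x ∂ν, f x = a x + b x) :
    ∫ x, f x ^ 2 ∂ν ≤ (1 + τ) * ∫ x, a x ^ 2 ∂ν + (1 + τ⁻¹) * ∫ x, b x ^ 2 ∂ν := by
  rw [← integral_const_mul, ← integral_const_mul,
    ← integral_add (ha.integrable_sq.const_mul _) (hb.integrable_sq.const_mul _)]
  refine integral_mono_of_nonneg (Eventually.of_forall fun _ => sq_nonneg _)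
    ((ha.integrable_sq.const_mul _).add (hb.integrable_sq.const_mul _)) ?_
  filter_upwards [h] with x hx
  rw [hx]; exact add_sq_le hτ _ _

theorem Wt.gap (hρ : Wt ρ) {μ c : ℝ} (hμ : 0 < μ) (hc : 0 < c)
    (hsq : ∃ A : ℝ≥0∞, A ≠ ⊤ ∧ ∀ x ∈ DD, ∫⁻ w, (1 + g0e x w) ^ 2 ∂mm ρ ≤ A)
    (hDP : ∀ ψ, Test DD ψ → c * (∫ z in DD, ρ z * ψ z) ^ 2 ≤ EE ρ μ ψ ψ) :
    ∃ θ : ℝ, 0 ≤ θ ∧ μ * θ < 1 ∧ ∀ g : ℂ → ℝ, MemLp g 2 (mm ρ) → (∀ z, 0 ≤ g z) →
      ∫ x, (∫ w, g0 x w * g w ∂mm ρ) ^ 2 ∂mm ρ ≤ θ ^ 2 * ∫ w, g w ^ 2 ∂mm ρ := by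
  have := hρ.fin
  obtain ⟨B, hB, h⟩ := memLp_g0 (ae_mm ρ) hsq
  set θ := max (2 * μ)⁻¹ (μ + c / (4 * μ ^ 2 * B))⁻¹ with hθ
  have hθ0 : 0 < θ := lt_max_of_lt_left (by positivity)
  have hθ1 : μ * θ < 1 := by
    rw [hθ, mul_max_of_nonneg _ _ hμ.le, max_lt_iff, ← div_eq_mul_inv, ← div_eq_mul_inv,
      div_lt_one (by positivity), div_lt_one (by positivity)]
    exact ⟨by linarith, lt_add_of_pos_right _ (by positivity)⟩
  obtain ⟨τ, hτ, hτ1⟩ : ∃ τ > 0, μ * ((1 + τ) * θ) < 1 :=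
    ⟨1 - μ * θ, by linarith, by nlinarith⟩
  refine ⟨(1 + τ) * θ, by positivity, hτ1, fun g hg h0 => ?_⟩
  refine le_of_forall_eps (K := (1 + τ) * θ ^ 2 * (1 + τ⁻¹) + (1 + τ⁻¹) * ((mm ρ).real univ * B))
    fun ε hε _ => ?_
  obtain ⟨F, hF, hF0, hε'⟩ := hρ.dense hg hε
  have hFL := hρ.memLp_test hF
  have hD : MemLp (fun z => g z - F z) 2 (mm ρ) := hg.sub hFL
  have a1 := integral_add_sq_le hτ (f := SG (mm ρ) g) (hρ.SG_memLp h hFL) (hρ.SG_memLp h hD) (by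
    filter_upwards [ae_mm ρ] with x hx
    simp only [SG]
    rw [← integral_add (by exact (h x hx).1.integrable_mul hFL)
      (by exact (h x hx).1.integrable_mul hD)]
    congr 1; funext w; ring)
  have a2 := hρ.gap_test hμ hc hB h hDP hF (hF0 h0)
  have a3 := integral_add_sq_le hτ (f := F) hg hD.neg (Eventually.of_forall fun x => by simp)
  have a4 : ∫ x, SG (mm ρ) (fun z => g z - F z) x ^ 2 ∂mm ρ ≤ (mm ρ).real univ * (B * ε) := by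
    rw [← smul_eq_mul, ← integral_const]
    refine integral_mono_ae (hρ.SG_memLp h hD).integrable_sq (integrable_const _) ?_
    filter_upwards [ae_mm ρ] with x hx
    exact (SG_sq_le (h x hx) hD).trans (mul_le_mul_of_nonneg_left hε' hB.le)
  simp only [Pi.neg_apply, neg_sq] at a3
  rw [← hθ] at a2
  calc _ ≤ _ := a1
    _ ≤ (1 + τ) * (θ ^ 2 * ((1 + τ) * ∫ x, g x ^ 2 ∂mm ρ + (1 + τ⁻¹) * ε)) +
        (1 + τ⁻¹) * ((mm ρ).real univ * (B * ε)) := by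
        gcongr
        refine a2.trans ?_
        gcongr
        refine a3.trans ?_
        gcongr
    _ = _ := by ring

theorem Wt.pot (hρ : Wt ρ) {μ c : ℝ} (hμ : 0 < μ) (hc : 0 < c)
    (hsq : ∃ A : ℝ≥0∞, A ≠ ⊤ ∧ ∀ x ∈ DD, ∫⁻ w, (1 + g0e x w) ^ 2 ∂mm ρ ≤ A)
    (hsm : ∀ ε : ℝ≥0∞, ε ≠ 0 → ∃ r < 1, ∀ x ∈ DD,
      ∫⁻ w in (closedBall 0 r)ᶜ, (1 + g0e x w) ^ 2 ∂mm ρ ≤ ε)
    (hDP : ∀ ψ, Test DD ψ → c * (∫ z in DD, ρ z * ψ z) ^ 2 ≤ EE ρ μ ψ ψ) : Pot (mm ρ) μ := by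
  refine ⟨hμ, hρ.fin, ae_mm ρ, fun r hr => ?_, mm_single ρ, hsq, hsm, hρ.gap hμ hc hsq hDP⟩
  obtain ⟨C, hC⟩ := (isCompact_closedBall (0 : ℂ) r).exists_bound_of_continuousOn
    (hρ.smooth.continuousOn.mono (closedBall_subset_ball hr))
  refine ⟨ENNReal.ofReal C, ENNReal.ofReal_ne_top, ?_⟩
  rw [mm, restrict_withDensity measurableSet_closedBall]
  calc _ ≤ ((volume.restrict DD).restrict (closedBall 0 r)).withDensity
        fun _ => ENNReal.ofReal C := by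
        refine withDensity_mono ?_
        filter_upwards [ae_restrict_mem measurableSet_closedBall] with z hz
        exact ENNReal.ofReal_le_ofReal ((le_abs_self _).trans (hC z hz))
    _ ≤ _ := by
        rw [withDensity_const]
        exact smul_le_smul_left _ (Measure.restrict_le_self.trans Measure.restrict_le_self)

/-- Coercivity of the energy form on test functions. -/
theorem Wt.coercive (hρ : Wt ρ) {μ : ℝ} (h : Pot (mm ρ) μ) :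
    ∃ γ > 0, ∀ R, Test DD R → γ * ∫ z in DD, gdot R R z ≤ EE ρ μ R R := by
  have := hρ.fin
  have hμ := h.mu_pos
  obtain ⟨θ₀, hθ₀, hθ₁, hgap⟩ := h.gap
  obtain ⟨B, hB, hg⟩ := memLp_g0 (ae_mm ρ) h.sq
  obtain ⟨θ, hθ, hθ', hθ''⟩ : ∃ θ > 0, θ₀ ≤ θ ∧ μ * θ < 1 := by
    have : θ₀ < μ⁻¹ := by rwa [← one_div, lt_div_iff₀' hμ]
    refine ⟨(θ₀ + μ⁻¹) / 2, by positivity, by linarith, ?_⟩
    have := mul_inv_cancel₀ hμ.ne'
    nlinarith
  refine ⟨1 - μ * θ, by linarith, fun R hR => ?_⟩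
  have hk := hR.mul_left isOpen_DD hρ.smooth
  have hRL := hρ.memLp_test hR
  set N := ∫ z, R z ^ 2 ∂mm ρ with hN
  have hN0 : 0 ≤ N := integral_nonneg fun _ => sq_nonneg _
  have a1 : ∫ x, SG (mm ρ) R x ^ 2 ∂mm ρ ≤ θ ^ 2 * N := by
    have := hgap _ hRL.abs fun z => abs_nonneg _
    simp only [Pi.abs_apply, sq_abs] at this
    refine le_trans (integral_mono_ae (hρ.SG_memLp hg hRL).integrable_sq
      (hρ.SG_memLp hg hRL.abs).integrable_sq ?_) (this.trans (by gcongr))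
    filter_upwards [ae_mm ρ] with x hx
    rw [← sq_abs]
    refine pow_le_pow_left₀ (abs_nonneg _) (abs_integral_le_integral_abs.trans
      (le_of_eq (integral_congr_ae ?_))) 2
    filter_upwards [ae_mm ρ] with w hw
    rw [abs_mul, abs_of_nonneg (g0_nonneg hx hw), Pi.abs_apply]
  have a2 : ∫ x, R x * SG (mm ρ) R x ∂mm ρ ≤ θ * N := by
    refine (abs_le_of_sq_le_sq' ((cs_integral hRL (hρ.SG_memLp hg hRL)).trans ?_)
      (by positivity)).2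
    calc N * _ ≤ N * (θ ^ 2 * N) := by gcongr
      _ = _ := by ring
  simp only [hρ.integral, hρ.SG_eq, ← mul_assoc] at a2
  have a3 : ∫ x in DD, lap R x * G0 (fun w => ρ w * R w) x = -N := by
    rw [G0_symm hR.lap hk, hN, hρ.integral, ← integral_neg]
    refine setIntegral_congr_fun measurableSet_DD fun x hx => ?_
    simp only [G0, G0_lap hR hx]; ring
  have t1 := (tendsto_mul_cut hk hR.lap.integrableOn).const_mul (-2 * θ)
  have t2 := (G0_energy hk).add_const (θ ^ 2 * ∫ z in DD, gdot R R z)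
  have a4 := le_of_tendsto_of_tendsto t1 t2 (by
    filter_upwards [self_mem_nhdsWithin] with δ hδ
    have hY := G0_test hk hδ
    have e := green2 isOpen_DD (hY.contDiffOn.of_le one_le_oo) hR
    simp only [mul_comm _ (lap R _)] at e
    have i1 := (hY.gdot_right isOpen_DD hY.contDiffOn).integrableOn (V := DD)
    have i2 := (hR.gdot_right isOpen_DD hR.contDiffOn).integrableOn (V := DD)
    have i3 := (hR.gdot_right isOpen_DD hY.contDiffOn).integrableOn (V := DD)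
    have := setIntegral_mono_on (i3.const_mul (2 * θ)) (i1.add (i2.const_mul (θ ^ 2)))
      measurableSet_DD fun z _ => by
        simp only [gdot, Pi.add_apply]
        nlinarith [sq_nonneg (d1 (fun x => chi δ x * G0 (fun w => ρ w * R w) x) z - θ * d1 R z),
          sq_nonneg (d2 (fun x => chi δ x * G0 (fun w => ρ w * R w) x) z - θ * d2 R z)]
    simp only [Pi.add_apply] at this
    rw [integral_add i1 (i2.const_mul _), integral_const_mul, integral_const_mul, e] at this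
    linarith)
  rw [a3] at a4
  rw [hρ.EE_test μ hR, ← hρ.integral, ← hN]
  have a5 : N ≤ θ * ∫ z in DD, gdot R R z := by
    refine le_of_mul_le_mul_left ?_ hθ
    nlinarith
  nlinarith

end Vale.Agent.P071
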