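import Vale.Agent.P071.GreenKer

/-! The Neumann series for the Green kernel: comparison with the free kernel. -/

open MeasureTheory Set Metric
open scoped ENNReal ComplexConjugate

namespace Vale.Agent.P071

namespace Green

variable {m : Measure ℂ} {μ : ℝ}

lemma ae_DD (h : Pot m μ) : ∀ᵐ w ∂m, w ∈ DD := by
  rw [ae_iff]
  exact h.supp

lemma ae_ne (h : Pot m μ) (x : ℂ) : ∀ᵐ w ∂m, w ≠ x := by
  rw [ae_iff]
  simpa using h.noAtoms x

lemma ae_good (h : Pot m μ) (x y : ℂ) : ∀ᵐ w ∂m, w ∈ DD ∧ w ≠ x ∧ w ≠ y :=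
  (ae_DD h).and ((ae_ne h x).and (ae_ne h y))

lemma toReal_g0e {x y : ℂ} (hx : x ∈ DD) (hy : y ∈ DD) : (g0e x y).toReal = g0 x y := by
  by_cases hxy : x = y
  · simp [g0e, hxy, g0_self]
  · simp [g0e, hxy, g0_nonneg hx hy]

lemma threeG_lint (h : Pot m μ) (S : Set ℂ) {ε : ℝ≥0∞}
    (hε : ∀ x ∈ DD, ∫⁻ w in S, (1 + g0e x w) ^ 2 ∂m ≤ ε) {x y : ℂ} (hx : x ∈ DD) (hy : y ∈ DD) :
    ∫⁻ w in S, g0e x w * g0e w y ∂m ≤ 128 * ε * g0e x y := by
  have m1 : Measurable fun w => (1 + g0e x w) ^ 2 := ((mk_g0e.right x).const_add _).pow_const _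
  have m2 : Measurable fun w => (1 + g0e y w) ^ 2 := ((mk_g0e.right y).const_add _).pow_const _
  calc ∫⁻ w in S, g0e x w * g0e w y ∂m
      ≤ ∫⁻ w in S, 64 * g0e x y * ((1 + g0e x w) ^ 2 + (1 + g0e y w) ^ 2) ∂m := by
        refine lintegral_mono_ae (ae_restrict_of_ae ?_)
        filter_upwards [ae_good h x y] with w hw
        refine (threeG_e hx hy hw.1 hw.2.1 hw.2.2).trans (mul_le_mul_right ?_ _)
        rw [g0e_symm w y]
        exact mul_le_sq_add _ _
    _ = 64 * g0e x y * (∫⁻ w in S, (1 + g0e x w) ^ 2 ∂m + ∫⁻ w in S, (1 + g0e y w) ^ 2 ∂m) := by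
        rw [lintegral_const_mul _ (m1.fun_add m2), lintegral_add_left m1]
    _ ≤ 64 * g0e x y * (ε + ε) := mul_le_mul_right (add_le_add (hε x hx) (hε y hy)) _
    _ = 128 * ε * g0e x y := by ring

lemma sq_g0e_le {ν : Measure ℂ} (x : ℂ) :
    ∫⁻ w, g0e x w ^ 2 ∂ν ≤ ∫⁻ w, (1 + g0e x w) ^ 2 ∂ν :=
  lintegral_mono fun _ => pow_le_pow_left₀ zero_le le_add_self 2

lemma gap_e (h : Pot m μ) : ∃ θ : ℝ≥0∞, θ ≠ ⊤ ∧ ENNReal.ofReal μ * θ < 1 ∧
    ∀ f : ℂ → ℝ≥0∞, Measurable f → ∫⁻ w, f w ^ 2 ∂m ≠ ⊤ →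
      ∫⁻ x, (∫⁻ w, g0e x w * f w ∂m) ^ 2 ∂m ≤ θ ^ 2 * ∫⁻ w, f w ^ 2 ∂m := by
  obtain ⟨θ, hθ0, hθ1, hgap⟩ := h.gap
  obtain ⟨A, hA, hsq⟩ := h.sq
  have := h.fin
  refine ⟨ENNReal.ofReal θ, ENNReal.ofReal_ne_top, ?_, fun f hf hfin => ?_⟩
  · rw [← ENNReal.ofReal_mul h.mu_pos.le]
    exact ENNReal.ofReal_lt_one.2 hθ1
  have hf2 : Measurable fun w => f w ^ 2 := hf.pow_const _
  have hT : Measurable fun x => ∫⁻ w, g0e x w * f w ∂m := mk_g0e.apply hf m
  have hTb : ∀ x ∈ DD, ∫⁻ w, g0e x w * f w ∂m ≤ A + ∫⁻ w, f w ^ 2 ∂m := fun x hx => by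
    calc ∫⁻ w, g0e x w * f w ∂m ≤ ∫⁻ w, (g0e x w ^ 2 + f w ^ 2) ∂m :=
          lintegral_mono fun w => mul_le_sq_add _ _
      _ = ∫⁻ w, g0e x w ^ 2 ∂m + ∫⁻ w, f w ^ 2 ∂m := lintegral_add_right _ hf2
      _ ≤ _ := add_le_add ((sq_g0e_le x).trans (hsq x hx)) le_rfl
  have hAf : A + ∫⁻ w, f w ^ 2 ∂m ≠ ⊤ := ENNReal.add_ne_top.2 ⟨hA, hfin⟩
  have hTfin : ∀ x ∈ DD, ∫⁻ w, g0e x w * f w ∂m ≠ ⊤ := fun x hx => ne_top_of_le_ne_top hAf (hTb x hx)
  have hmem : MemLp (fun z => (f z).toReal) 2 m := by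
    rw [memLp_two_iff_integrable_sq hf.ennreal_toReal.aestronglyMeasurable]
    simp only [← ENNReal.toReal_pow]
    exact integrable_toReal_of_lintegral_ne_top hf2.aemeasurable hfin
  have key := hgap _ hmem fun z => ENNReal.toReal_nonneg
  have e1 : ∫ w, (f w).toReal ^ 2 ∂m = (∫⁻ w, f w ^ 2 ∂m).toReal := by
    simp only [← ENNReal.toReal_pow]
    exact integral_toReal hf2.aemeasurable (ae_lt_top hf2 hfin)
  have hfin2 : ∫⁻ x, (∫⁻ w, g0e x w * f w ∂m) ^ 2 ∂m ≠ ⊤ := by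
    refine ne_top_of_le_ne_top (b := ∫⁻ _, (A + ∫⁻ w, f w ^ 2 ∂m) ^ 2 ∂m) ?_ ?_
    · rw [lintegral_const]
      exact ENNReal.mul_ne_top (ENNReal.pow_ne_top hAf) (measure_ne_top _ _)
    · refine lintegral_mono_ae ?_
      filter_upwards [ae_DD h] with x hx
      exact pow_le_pow_left₀ zero_le (hTb x hx) 2
  have e2 : ∫ x, (∫ w, g0 x w * (f w).toReal ∂m) ^ 2 ∂m =
      (∫⁻ x, (∫⁻ w, g0e x w * f w ∂m) ^ 2 ∂m).toReal := by
    rw [← integral_toReal (hT.pow_const _).aemeasurable (ae_lt_top (hT.pow_const _) hfin2)]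
    refine integral_congr_ae ?_
    filter_upwards [ae_DD h] with x hx
    have hm : Measurable fun w => g0e x w * f w := (mk_g0e.right x).fun_mul hf
    rw [ENNReal.toReal_pow, ← integral_toReal hm.aemeasurable (ae_lt_top hm (hTfin x hx))]
    congr 1
    refine integral_congr_ae ?_
    filter_upwards [ae_DD h] with w hw
    rw [ENNReal.toReal_mul, toReal_g0e hx hw]
  rw [e1, e2] at key
  rw [← ENNReal.ofReal_toReal hfin2, ← ENNReal.ofReal_toReal hfin, ← ENNReal.ofReal_pow hθ0,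
    ← ENNReal.ofReal_mul (by positivity)]
  exact ENNReal.ofReal_le_ofReal key

lemma bilinear (h : Pot m μ) : ∃ Θ : ℝ≥0∞, Θ ≠ ⊤ ∧ ∀ (u f : ℂ → ℝ≥0∞) (a b : ℝ≥0∞),
    Measurable u → Measurable f → b ≠ ⊤ → ∫⁻ w, u w ^ 2 ∂m ≤ a ^ 2 → ∫⁻ w, f w ^ 2 ∂m ≤ b ^ 2 →
    ∀ N, ∫⁻ w, u w * (∫⁻ v, SP m (ENNReal.ofReal μ) N w v * f v ∂m) ∂m ≤ Θ * (a * b) := by
  obtain ⟨θ, hθ, hθ1, hgap⟩ := gap_e h
  have := h.fin
  set s := ENNReal.ofReal μ
  refine ⟨θ * ∑' n, (s * θ) ^ n, ?_, fun u f a b hu hf hb ha hfb N => ?_⟩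
  · refine ENNReal.mul_ne_top hθ ?_
    rw [ENNReal.tsum_geometric]
    exact ENNReal.inv_ne_top.2 (tsub_pos_of_lt hθ1).ne'
  have hit : ∀ n, ∫⁻ x, (∫⁻ w, iter m n x w * f w ∂m) ^ 2 ∂m ≤ (θ ^ (n + 1) * b) ^ 2 := by
    intro n
    induction n with
    | zero =>
      refine (hgap f hf (ne_top_of_le_ne_top (ENNReal.pow_ne_top hb) hfb)).trans ?_
      rw [zero_add, pow_one, mul_pow]
      exact mul_le_mul_right hfb _
    | succ n ih =>
      have e : ∀ x, ∫⁻ w, iter m (n + 1) x w * f w ∂m =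
          ∫⁻ v, g0e x v * (∫⁻ w, iter m n v w * f w ∂m) ∂m := fun x =>
        assoc (mk_g0e.right x) hf (mk_iter n) m m
      simp only [e]
      refine (hgap _ ((mk_iter n).apply hf m) (ne_top_of_le_ne_top (ENNReal.pow_ne_top
        (ENNReal.mul_ne_top (ENNReal.pow_ne_top hθ) hb)) ih)).trans ?_
      refine (mul_le_mul_right ih _).trans (le_of_eq ?_)
      ring
  have e1 : ∀ w, u w * (∫⁻ v, SP m s N w v * f v ∂m) =
      ∑ n ∈ Finset.range N, s ^ n * (u w * ∫⁻ v, iter m n w v * f v ∂m) := fun w => by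
    unfold SP
    simp only [Finset.sum_mul]
    rw [lintegral_finsetSum _ fun n _ => (((mk_iter n).right w).const_mul _).fun_mul hf,
      Finset.mul_sum]
    refine Finset.sum_congr rfl fun n _ => ?_
    simp only [mul_assoc]
    rw [lintegral_const_mul _ (((mk_iter n).right w).fun_mul hf)]
    ring
  simp only [e1]
  rw [lintegral_finsetSum _ fun n _ => (hu.fun_mul ((mk_iter n).apply hf m)).const_mul _]
  calc ∑ n ∈ Finset.range N, ∫⁻ w, s ^ n * (u w * ∫⁻ v, iter m n w v * f v ∂m) ∂m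
      ≤ ∑ n ∈ Finset.range N, (s * θ) ^ n * (θ * (a * b)) := by
        refine Finset.sum_le_sum fun n _ => ?_
        rw [lintegral_const_mul _ (hu.fun_mul ((mk_iter n).apply hf m))]
        refine (mul_le_mul_right (cs hu ((mk_iter n).apply hf m) ha (hit n)) _).trans
          (le_of_eq ?_)
        ring
    _ ≤ (∑' n, (s * θ) ^ n) * (θ * (a * b)) := by
        rw [← Finset.sum_mul]
        exact mul_le_mul_left (ENNReal.sum_le_tsum _) _
    _ = _ := by ring

lemma l2_ball (h : Pot m μ) {r : ℝ} (hr : r < 1) : ∃ D : ℝ≥0∞, D ≠ ⊤ ∧ ∀ x ∈ DD,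
    ∫⁻ w in closedBall 0 r, g0e x w ^ 2 ∂m ≤ (D * ENNReal.ofReal (hh x)) ^ 2 := by
  obtain ⟨A, hA, hsq⟩ := h.sq
  have := h.fin
  set d : ℝ := (1 - r) / 2 with hd
  have hd0 : 0 < d := by rw [hd]; linarith
  set E : ℝ≥0∞ := A * ENNReal.ofReal d⁻¹ ^ 2 + ENNReal.ofReal (d ^ 2)⁻¹ ^ 2 * m univ with hE
  have hEt : E ≠ ⊤ := by
    refine ENNReal.add_ne_top.2 ⟨ENNReal.mul_ne_top hA (ENNReal.pow_ne_top ENNReal.ofReal_ne_top),
      ENNReal.mul_ne_top (ENNReal.pow_ne_top ENNReal.ofReal_ne_top) (measure_ne_top _ _)⟩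
  refine ⟨E + 1, ENNReal.add_ne_top.2 ⟨hEt, ENNReal.one_ne_top⟩, fun x hx => ?_⟩
  have hE1 : E ≤ (E + 1) ^ 2 := by
    calc E ≤ (E + 1) * 1 := by rw [mul_one]; exact le_self_add
      _ ≤ (E + 1) * (E + 1) := mul_le_mul_right le_add_self _
      _ = _ := by ring
  rw [mul_pow]
  refine le_trans ?_ (mul_le_mul_left hE1 _)
  have hx1 := norm_lt hx
  have hxp := hh_pos hx
  rcases le_total ‖x‖ (r + d) with hxr | hxr
  · have h1 : d ≤ hh x := by
      unfold hh
      nlinarith [norm_nonneg x]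
    have h2 : 1 ≤ ENNReal.ofReal d⁻¹ * ENNReal.ofReal (hh x) := by
      rw [← ENNReal.ofReal_mul (by positivity), ENNReal.one_le_ofReal, inv_mul_eq_div,
        one_le_div hd0]
      exact h1
    calc ∫⁻ w in closedBall 0 r, g0e x w ^ 2 ∂m ≤ ∫⁻ w, g0e x w ^ 2 ∂m :=
          lintegral_mono' Measure.restrict_le_self le_rfl
      _ ≤ A * 1 ^ 2 := by rw [one_pow, mul_one]; exact (sq_g0e_le x).trans (hsq x hx)
      _ ≤ A * (ENNReal.ofReal d⁻¹ * ENNReal.ofReal (hh x)) ^ 2 :=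
          mul_le_mul_right (pow_le_pow_left₀ zero_le h2 2) _
      _ = (A * ENNReal.ofReal d⁻¹ ^ 2) * ENNReal.ofReal (hh x) ^ 2 := by ring
      _ ≤ _ := mul_le_mul_left le_self_add _
  · calc ∫⁻ w in closedBall 0 r, g0e x w ^ 2 ∂m
        ≤ ∫⁻ _ in closedBall 0 r, (ENNReal.ofReal (d ^ 2)⁻¹ * ENNReal.ofReal (hh x)) ^ 2 ∂m := by
          refine setLIntegral_mono' measurableSet_closedBall fun w hw => ?_
          have hw1 : ‖w‖ ≤ r := by simpa using hw
          have hwD : w ∈ DD := by simp only [DD, mem_ball, dist_zero_right]; linarith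
          have hxw : d ≤ ‖x - w‖ := by linarith [norm_sub_norm_le x w]
          have hne : x ≠ w := by
            rintro rfl
            simp at hxw
            linarith
          refine pow_le_pow_left₀ zero_le ?_ 2
          rw [g0e, if_neg hne, ← ENNReal.ofReal_mul (by positivity)]
          refine ENNReal.ofReal_le_ofReal ((g0_le hx hwD).trans ?_)
          rw [inv_mul_eq_div]
          exact div_le_div₀ hxp.le (mul_le_of_le_one_right hxp.le (hh_le_one w)) (by positivity)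
            (pow_le_pow_left₀ hd0.le hxw 2)
      _ ≤ (ENNReal.ofReal (d ^ 2)⁻¹ * ENNReal.ofReal (hh x)) ^ 2 * m univ := by
          rw [setLIntegral_const]
          exact mul_le_mul_right (measure_mono (subset_univ _)) _
      _ = (ENNReal.ofReal (d ^ 2)⁻¹ ^ 2 * m univ) * ENNReal.ofReal (hh x) ^ 2 := by ring
      _ ≤ _ := mul_le_mul_left le_add_self _

lemma hh_mul_le_e {x y : ℂ} (hx : x ∈ DD) (hy : y ∈ DD) :
    ENNReal.ofReal (hh x) * ENNReal.ofReal (hh y) ≤ 64 * g0e x y := by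
  by_cases hxy : x = y
  · simp [g0e, hxy]
  · rw [g0e, if_neg hxy, ← ENNReal.ofReal_mul (hh_pos hx).le]
    refine (ENNReal.ofReal_le_ofReal (hh_mul_le hx hy hxy)).trans ?_
    rw [ENNReal.ofReal_mul (by norm_num)]
    simp

lemma upper_e (h : Pot m μ) : ∃ C : ℝ≥0∞, C ≠ ⊤ ∧ ∀ x ∈ DD, ∀ y ∈ DD,
    SS m (ENNReal.ofReal μ) x y ≤ C * g0e x y := by
  obtain ⟨A, hA, hsq⟩ := h.sq
  obtain ⟨Θ, hΘ, hbil⟩ := bilinear h
  have := h.fin
  set s := ENNReal.ofReal μ with hs
  have hst : s ≠ ⊤ := ENNReal.ofReal_ne_top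
  set κ : ℝ≥0∞ := 128 * A with hκ
  have hκt : κ ≠ ⊤ := ENNReal.mul_ne_top (by norm_num) hA
  obtain ⟨ε, hε0, hε⟩ := ENNReal.exists_pos_mul_lt (a := 128 * (s + s ^ 2 * κ)) (b := 2⁻¹)
    (ENNReal.mul_ne_top (by norm_num) (ENNReal.add_ne_top.2
      ⟨hst, ENNReal.mul_ne_top (ENNReal.pow_ne_top hst) hκt⟩)) (by norm_num)
  obtain ⟨r₀, hr₀, hsm₀⟩ := h.small ε hε0.ne'
  set r := max r₀ 0 with hrdef
  have hr : r < 1 := max_lt hr₀ one_pos
  set B : Set ℂ := closedBall 0 r with hB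
  have hBm : MeasurableSet B := measurableSet_closedBall
  have hsm : ∀ x ∈ DD, ∫⁻ w in Bᶜ, (1 + g0e x w) ^ 2 ∂m ≤ ε := fun x hx =>
    (lintegral_mono_set (compl_subset_compl.2
      (closedBall_subset_closedBall (le_max_left _ _)))).trans (hsm₀ x hx)
  obtain ⟨D, hD, hl2⟩ := l2_ball h hr
  have h3 : ∀ x ∈ DD, ∀ y ∈ DD, ∫⁻ w in B, g0e x w * g0e w y ∂m ≤ κ * g0e x y :=
    fun x hx y hy => threeG_lint h B (fun z hz =>
      (lintegral_mono' Measure.restrict_le_self le_rfl).trans (hsq z hz)) hx hy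
  have h3c : ∀ x ∈ DD, ∀ y ∈ DD, ∫⁻ w in Bᶜ, g0e x w * g0e w y ∂m ≤ 128 * ε * g0e x y :=
    fun x hx y hy => threeG_lint h Bᶜ hsm hx hy
  set C' : ℝ≥0∞ := 1 + s * κ + s ^ 2 * (Θ * D ^ 2 * 64) with hC'
  have hC't : C' ≠ ⊤ := by
    refine ENNReal.add_ne_top.2 ⟨ENNReal.add_ne_top.2 ⟨ENNReal.one_ne_top,
      ENNReal.mul_ne_top hst hκt⟩, ENNReal.mul_ne_top (ENNReal.pow_ne_top hst)
      (ENNReal.mul_ne_top (ENNReal.mul_ne_top hΘ (ENNReal.pow_ne_top hD)) (by norm_num))⟩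
  set C : ℝ≥0∞ := 2 * C' with hC
  refine ⟨C, ENNReal.mul_ne_top (by norm_num) hC't, ?_⟩
  have main : ∀ N, ∀ x ∈ DD, ∀ y ∈ DD, SP m s N x y ≤ C * g0e x y := by
    intro N
    induction N with
    | zero => intro x _ y _; simp [SP]
    | succ N ih =>
      intro x hx y hy
      have mS := mk_SP (m := m) s N
      have t1 : ∫⁻ w in Bᶜ, g0e x w * SP m s N w y ∂m ≤ C * (128 * ε * g0e x y) := by
        calc ∫⁻ w in Bᶜ, g0e x w * SP m s N w y ∂m
            ≤ ∫⁻ w in Bᶜ, C * (g0e x w * g0e w y) ∂m := by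
              refine lintegral_mono_ae (ae_restrict_of_ae ?_)
              filter_upwards [ae_DD h] with w hw
              refine (mul_le_mul_right (ih w hw y hy) _).trans (le_of_eq ?_)
              ring
          _ ≤ _ := by
              rw [lintegral_const_mul _ ((mk_g0e.right x).fun_mul (mk_g0e.left y))]
              exact mul_le_mul_right (h3c x hx y hy) _
      have t2 : ∀ w ∈ DD, ∫⁻ v in Bᶜ, SP m s N w v * g0e v y ∂m ≤ C * (128 * ε * g0e w y) := by
        intro w hw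
        calc ∫⁻ v in Bᶜ, SP m s N w v * g0e v y ∂m
            ≤ ∫⁻ v in Bᶜ, C * (g0e w v * g0e v y) ∂m := by
              refine lintegral_mono_ae (ae_restrict_of_ae ?_)
              filter_upwards [ae_DD h] with v hv
              refine (mul_le_mul_left (ih w hw v hv) _).trans (le_of_eq ?_)
              ring
          _ ≤ _ := by
              rw [lintegral_const_mul _ ((mk_g0e.right w).fun_mul (mk_g0e.left y))]
              exact mul_le_mul_right (h3c w hw y hy) _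
      have mI : Measurable fun w => ∫⁻ v in B, SP m s N w v * g0e v y ∂m :=
        mS.apply (mk_g0e.left y) _
      have t3 : ∫⁻ w in B, g0e x w * (∫⁻ v in B, SP m s N w v * g0e v y ∂m) ∂m ≤
          Θ * D ^ 2 * 64 * g0e x y := by
        have hb := hbil (B.indicator fun w => g0e x w) (B.indicator fun v => g0e v y)
          (D * ENNReal.ofReal (hh x)) (D * ENNReal.ofReal (hh y))
          ((mk_g0e.right x).indicator hBm) ((mk_g0e.left y).indicator hBm)
          (ENNReal.mul_ne_top hD ENNReal.ofReal_ne_top) ?_ ?_ N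
        · have e1 : ∀ w, ∫⁻ v, SP m s N w v * (B.indicator (fun v => g0e v y) v) ∂m =
              ∫⁻ v in B, SP m s N w v * g0e v y ∂m := fun w => by
            rw [← lintegral_indicator hBm]
            refine lintegral_congr fun v => ?_
            by_cases hv : v ∈ B <;> simp [hv]
          simp only [e1] at hb
          have e2 : ∫⁻ w in B, g0e x w * (∫⁻ v in B, SP m s N w v * g0e v y ∂m) ∂m =
              ∫⁻ w, B.indicator (fun w => g0e x w) w *
                (∫⁻ v in B, SP m s N w v * g0e v y ∂m) ∂m := by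
            rw [← lintegral_indicator hBm]
            refine lintegral_congr fun v => ?_
            by_cases hv : v ∈ B <;> simp [hv]
          rw [e2]
          refine hb.trans ?_
          calc Θ * (D * ENNReal.ofReal (hh x) * (D * ENNReal.ofReal (hh y)))
              = Θ * D ^ 2 * (ENNReal.ofReal (hh x) * ENNReal.ofReal (hh y)) := by ring
            _ ≤ Θ * D ^ 2 * (64 * g0e x y) := mul_le_mul_right (hh_mul_le_e hx hy) _
            _ = _ := by ring
        · refine le_trans (le_of_eq ?_) (hl2 x hx)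
          rw [← lintegral_indicator hBm]
          refine lintegral_congr fun v => ?_
          by_cases hv : v ∈ B <;> simp [hv]
        · refine le_trans (le_of_eq ?_) (hl2 y hy)
          rw [← lintegral_indicator hBm]
          refine lintegral_congr fun v => ?_
          by_cases hv : v ∈ B <;> simp [hv, g0e_symm v y]
      have t4 : ∫⁻ w in B, g0e x w * SP m s N w y ∂m ≤
          (1 + s * (C * (128 * ε))) * (κ * g0e x y) + s * (Θ * D ^ 2 * 64 * g0e x y) := by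
        calc ∫⁻ w in B, g0e x w * SP m s N w y ∂m
            ≤ ∫⁻ w in B, ((1 + s * (C * (128 * ε))) * (g0e x w * g0e w y) +
                s * (g0e x w * ∫⁻ v in B, SP m s N w v * g0e v y ∂m)) ∂m := by
              refine lintegral_mono_ae (ae_restrict_of_ae ?_)
              filter_upwards [ae_DD h] with w hw
              have a1 := SP_le (m := m) s N w y
              rw [← lintegral_add_compl _ hBm] at a1
              have a2 := a1.trans (add_le_add le_rfl (mul_le_mul_right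
                (add_le_add le_rfl (t2 w hw)) s))
              refine (mul_le_mul_right a2 _).trans (le_of_eq ?_)
              ring
          _ ≤ _ := by
              rw [lintegral_add_left (((mk_g0e.right x).fun_mul (mk_g0e.left y)).const_mul _),
                lintegral_const_mul _ ((mk_g0e.right x).fun_mul (mk_g0e.left y)),
                lintegral_const_mul _ ((mk_g0e.right x).fun_mul mI)]
              exact add_le_add (mul_le_mul_right (h3 x hx y hy) _) (mul_le_mul_right t3 _)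
      rw [SP_succ, ← lintegral_add_compl _ hBm]
      refine (add_le_add le_rfl (mul_le_mul_right (add_le_add t4 t1) s)).trans ?_
      have hhalf : C * (ε * (128 * (s + s ^ 2 * κ))) ≤ C' := by
        refine (mul_le_mul_right hε.le _).trans (le_of_eq ?_)
        rw [hC, mul_comm 2, mul_assoc, ENNReal.mul_inv_cancel (by norm_num) (by norm_num), mul_one]
      calc g0e x y + s * ((1 + s * (C * (128 * ε))) * (κ * g0e x y) +
            s * (Θ * D ^ 2 * 64 * g0e x y) + C * (128 * ε * g0e x y))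
          = (C' + C * (ε * (128 * (s + s ^ 2 * κ)))) * g0e x y := by rw [hC']; ring
        _ ≤ (C' + C') * g0e x y := mul_le_mul_left (add_le_add le_rfl hhalf) _
        _ = C * g0e x y := by rw [hC, two_mul]
  intro x hx y hy
  rw [SS_eq_iSup]
  exact iSup_le fun N => main N x hx y hy

end Green

open Green in
theorem exists_greenAn {m : Measure ℂ} {μ : ℝ} (h : Pot m μ) :
    ∃ C : ℝ, 1 ≤ C ∧ GreenAn m μ C := by
  obtain ⟨C, hC, hup⟩ := upper_e h
  obtain ⟨A, hA, hsq⟩ := h.sq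
  have := h.fin
  have hκt : 128 * A ≠ ⊤ := ENNReal.mul_ne_top (by norm_num) hA
  have h3 : ∀ x ∈ DD, ∀ y ∈ DD, ∫⁻ w, g0e x w * g0e w y ∂m ≤ 128 * A * g0e x y :=
    fun x hx y hy => by
      simpa using threeG_lint h univ (fun z hz => by simpa using hsq z hz) hx hy
  have hgt : ∀ x y, x ≠ y → g0e x y ≠ ⊤ := fun x y hxy => by simp [g0e, hxy]
  have hups : ∀ s ∈ Icc 0 μ, ∀ x ∈ DD, ∀ y ∈ DD,
      SS m (ENNReal.ofReal s) x y ≤ C * g0e x y := fun s hs x hx y hy =>
    (SS_mono (ENNReal.ofReal_le_ofReal hs.2) x y).trans (hup x hx y hy)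
  have hfin : ∀ s ∈ Icc 0 μ, ∀ x ∈ DD, ∀ y ∈ DD, x ≠ y →
      SS m (ENNReal.ofReal s) x y ≠ ⊤ := fun s hs x hx y hy hxy =>
    ne_top_of_le_ne_top (ENNReal.mul_ne_top hC (hgt x y hxy)) (hups s hs x hx y hy)
  have hdiag : ∀ s x, GG m s x x = 0 := fun s x => by
    have h1 := g0e_le_SS (m := m) (ENNReal.ofReal s) x x
    rw [show g0e x x = ⊤ by simp [g0e], top_le_iff] at h1
    rw [GG_eq, h1, ENNReal.toReal_top]
  have hgg : ∀ x ∈ DD, ∀ y ∈ DD, (fun w => g0 x w * g0 w y) =ᵐ[m]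
      fun w => (g0e x w * g0e w y).toReal := fun x hx y hy => by
    filter_upwards [ae_DD h] with w hw
    rw [ENNReal.toReal_mul, toReal_g0e hx hw, toReal_g0e hw hy]
  have hggm : ∀ x y, Measurable fun w => g0e x w * g0e w y := fun x y =>
    (mk_g0e.right x).fun_mul (mk_g0e.left y)
  have hggfin : ∀ x ∈ DD, ∀ y ∈ DD, ∫⁻ w, g0e x w * g0e w y ∂m ≠ ⊤ := fun x hx y hy => by
    refine ne_top_of_le_ne_top (ENNReal.add_ne_top.2 ⟨hA, hA⟩) ?_
    calc ∫⁻ w, g0e x w * g0e w y ∂m ≤ ∫⁻ w, (g0e x w ^ 2 + g0e y w ^ 2) ∂m :=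
          lintegral_mono fun w => by rw [g0e_symm w y]; exact mul_le_sq_add _ _
      _ = ∫⁻ w, g0e x w ^ 2 ∂m + ∫⁻ w, g0e y w ^ 2 ∂m :=
          lintegral_add_left ((mk_g0e.right x).pow_const _) _
      _ ≤ _ := add_le_add ((sq_g0e_le x).trans (hsq x hx)) ((sq_g0e_le y).trans (hsq y hy))
  have c1 : 0 ≤ C.toReal := ENNReal.toReal_nonneg
  have c2 : 0 ≤ (128 * A).toReal := ENNReal.toReal_nonneg
  refine ⟨1 + C.toReal + (128 * A).toReal, by linarith, ?_⟩
  refine
    { meas := fun s => (mk_SS _).ennreal_toReal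
      symm := fun s x y => by rw [GG_eq, GG_eq, SS_symm]
      diag := hdiag
      zero := fun x hx y hy => by rw [GG_eq, ENNReal.ofReal_zero, SS_zero, toReal_g0e hx hy]
      finite := hfin
      lower := fun s hs x hx y hy => ?_
      upper := fun s hs x hx y hy => ?_
      threeG_int := fun x hx y hy => ?_
      threeG := fun x hx y hy hxy => ?_
      resolvent := fun s' s h0 h1 h2 x hx y hy hxy => ?_ }
  · by_cases hxy : x = y
    · rw [hxy, hdiag, g0_self]
    · rw [GG_eq, ← toReal_g0e hx hy]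
      exact ENNReal.toReal_mono (hfin s hs x hx y hy hxy) (g0e_le_SS _ x y)
  · by_cases hxy : x = y
    · rw [hxy, hdiag, g0_self, mul_zero]
    · have h1 := ENNReal.toReal_mono (ENNReal.mul_ne_top hC (hgt x y hxy)) (hups s hs x hx y hy)
      rw [ENNReal.toReal_mul, toReal_g0e hx hy] at h1
      have := g0_nonneg hx hy
      rw [GG_eq]
      nlinarith
  · exact (integrable_toReal_of_lintegral_ne_top (hggm x y).aemeasurable
      (hggfin x hx y hy)).congr (hgg x hx y hy).symm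
  · rw [integral_congr_ae (hgg x hx y hy),
      integral_toReal (hggm x y).aemeasurable (ae_lt_top (hggm x y) (hggfin x hx y hy))]
    have h1 := ENNReal.toReal_mono (ENNReal.mul_ne_top hκt (hgt x y hxy)) (h3 x hx y hy)
    rw [ENNReal.toReal_mul, toReal_g0e hx hy] at h1
    have := g0_nonneg hx hy
    nlinarith
  · have hs : s ∈ Icc 0 μ := ⟨h0.trans h1, h2⟩
    have hs' : s' ∈ Icc 0 μ := ⟨h0, h1.trans h2⟩
    have e : ENNReal.ofReal s' + ENNReal.ofReal (s - s') = ENNReal.ofReal s := by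
      rw [← ENNReal.ofReal_add h0 (by linarith)]
      congr 1
      ring
    have hm : Measurable fun w => SS m (ENNReal.ofReal s) x w * SS m (ENNReal.ofReal s') w y :=
      ((mk_SS _).right x).fun_mul ((mk_SS _).left y)
    have hI : ∫⁻ w, SS m (ENNReal.ofReal s) x w * SS m (ENNReal.ofReal s') w y ∂m ≠ ⊤ := by
      refine ne_top_of_le_ne_top (b := ∫⁻ w, C * C * (g0e x w * g0e w y) ∂m) ?_ ?_
      · rw [lintegral_const_mul _ (hggm x y)]
        exact ENNReal.mul_ne_top (ENNReal.mul_ne_top hC hC) (hggfin x hx y hy)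
      · refine lintegral_mono_ae ?_
        filter_upwards [ae_DD h] with w hw
        refine (mul_le_mul' (hups s hs x hx w hw) (hups s' hs' w hw y hy)).trans (le_of_eq ?_)
        ring
    simp only [GG_eq]
    rw [resolvent_e e x y, ENNReal.toReal_add (hfin s' hs' x hx y hy hxy)
      (ENNReal.mul_ne_top ENNReal.ofReal_ne_top hI), ENNReal.toReal_mul,
      ENNReal.toReal_ofReal (by linarith), ← integral_toReal hm.aemeasurable (ae_lt_top hm hI)]
    simp only [ENNReal.toReal_mul]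

end Vale.Agent.P071
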