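import Mathlib

/-! Algebra of Lorentzian kernels (one positive square). -/

open Filter Topology Finset

namespace Vale.Agent.P071.CNDAux

variable {X : Type*}

/-- Quadratic form of a kernel on a finite family. -/
def Q (M : X → X → ℝ) {n : ℕ} (x : Fin n → X) (c : Fin n → ℝ) : ℝ :=
  ∑ i, ∑ j, c i * c j * M (x i) (x j)

/-- Symmetric kernels. -/
def Sy (M : X → X → ℝ) : Prop := ∀ a b, M a b = M b a

/-- Positive semidefinite kernels. -/
def PK (M : X → X → ℝ) : Prop := ∀ (n : ℕ) (x : Fin n → X) (c : Fin n → ℝ), 0 ≤ Q M x c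

/-- Lorentzian kernels: the reverse Cauchy-Schwarz inequality. -/
def Lor (M : X → X → ℝ) : Prop :=
  ∀ (p : X) (n : ℕ) (x : Fin n → X) (c : Fin n → ℝ),
    M p p * Q M x c ≤ (∑ i, c i * M (x i) p) ^ 2

/-- Negative on the kernel of the functional `u`. -/
def Hyp (M : X → X → ℝ) (u : X → ℝ) : Prop :=
  ∀ (n : ℕ) (x : Fin n → X) (c : Fin n → ℝ), ∑ i, c i * u (x i) = 0 → Q M x c ≤ 0

theorem Q_cons {M : X → X → ℝ} (hs : Sy M) {n : ℕ} (x : Fin n → X) (c : Fin n → ℝ) (p : X)
    (t : ℝ) : Q M (Fin.cons p x : Fin (n + 1) → X) (Fin.cons t c : Fin (n + 1) → ℝ) =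
      t ^ 2 * M p p + 2 * t * (∑ i, c i * M (x i) p) + Q M x c := by
  simp only [Q, Fin.sum_univ_succ, Fin.cons_zero, Fin.cons_succ, sum_add_distrib]
  have h1 : ∑ i, t * c i * M p (x i) = t * ∑ i, c i * M (x i) p := by
    rw [mul_sum]; exact sum_congr rfl fun i _ => by rw [hs p]; ring
  have h2 : ∑ i, c i * t * M (x i) p = t * ∑ i, c i * M (x i) p := by
    rw [mul_sum]; exact sum_congr rfl fun i _ => by ring
  rw [h1, h2]; ring

theorem lor_of_hyp {M : X → X → ℝ} {u : X → ℝ} (hs : Sy M) (hp : ∀ p, 0 < M p p)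
    (h : Hyp M u) : Lor M := by
  intro p n x c
  have hu : u p ≠ 0 := by
    intro h0
    have := h 1 (fun _ => p) (fun _ => 1) (by simp [h0])
    simp [Q] at this
    linarith [hp p]
  set t := -(∑ i, c i * u (x i)) / u p with ht
  have h1 := h (n + 1) (Fin.cons p x) (Fin.cons t c) (by
    simp only [Fin.sum_univ_succ, Fin.cons_zero, Fin.cons_succ]
    rw [ht]; field_simp; ring)
  rw [Q_cons hs] at h1
  set S := ∑ i, c i * M (x i) p
  have := hp p
  nlinarith [sq_nonneg (t * M p p + S), mul_le_mul_of_nonneg_left h1 this.le]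

theorem hyp_of_lor {M : X → X → ℝ} (h : Lor M) {p : X} (hp : 0 < M p p) :
    Hyp M (fun a => M a p) := by
  intro n x c hc
  have := h p n x c
  rw [hc] at this
  by_contra hq
  push Not at hq
  nlinarith [mul_pos hp hq]

theorem tendsto_Q {ι : Type*} {l : Filter ι} {F : ι → X → X → ℝ} {M : X → X → ℝ}
    (h : ∀ a b, Tendsto (fun k => F k a b) l (𝓝 (M a b))) {n : ℕ} (x : Fin n → X)
    (c : Fin n → ℝ) : Tendsto (fun k => Q (F k) x c) l (𝓝 (Q M x c)) :=
  tendsto_finsetSum _ fun _ _ => tendsto_finsetSum _ fun _ _ => (h _ _).const_mul _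

theorem lor_of_tendsto {F : ℕ → X → X → ℝ} {M : X → X → ℝ} (hF : ∀ k, Lor (F k))
    (h : ∀ a b, Tendsto (fun k => F k a b) atTop (𝓝 (M a b))) : Lor M := by
  intro p n x c
  refine le_of_tendsto_of_tendsto' ((h p p).mul (tendsto_Q h x c))
    ((tendsto_finsetSum _ fun i _ => (h (x i) p).const_mul (c i)).pow 2) fun k => hF k p n x c

theorem pk_of_tendsto {F : ℕ → X → X → ℝ} {M : X → X → ℝ} (hF : ∀ k, PK (F k))
    (h : ∀ a b, Tendsto (fun k => F k a b) atTop (𝓝 (M a b))) : PK M := by
  intro n x c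
  exact ge_of_tendsto' (tendsto_Q h x c) fun k => hF k n x c

theorem psd_of_pk {M : X → X → ℝ} (hs : Sy M) (h : PK M) {n : ℕ} (x : Fin n → X) :
    (Matrix.of fun i j => M (x i) (x j)).PosSemidef := by
  refine Matrix.PosSemidef.of_dotProduct_mulVec_nonneg ?_ fun c => ?_
  · ext i j; simp [hs (x i)]
  · have := h n x c
    simp only [Q] at this
    simp only [dotProduct, Matrix.mulVec, star_trivial, Matrix.of_apply, mul_sum]
    exact this.trans_eq (sum_congr rfl fun i _ => sum_congr rfl fun j _ => by ring)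

theorem PK.mul {M N : X → X → ℝ} (hs : Sy M) (hM : PK M) (ht : Sy N) (hN : PK N) :
    PK (fun a b => M a b * N a b) := by
  intro n x c
  have := ((psd_of_pk hs hM x).hadamard (psd_of_pk ht hN x)).dotProduct_mulVec_nonneg c
  simp only [dotProduct, Matrix.mulVec, star_trivial, Matrix.hadamard_apply, Matrix.of_apply,
    mul_sum] at this
  simp only [Q]
  exact this.trans_eq (sum_congr rfl fun i _ => sum_congr rfl fun j _ => by ring)

theorem pk_one : PK (fun _ _ : X => (1 : ℝ)) := by
  intro n x c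
  have : Q (fun _ _ : X => (1 : ℝ)) x c = (∑ i, c i) ^ 2 := by
    simp only [Q, mul_one, sq, sum_mul_sum]
  rw [this]; positivity

theorem PK.pow {M : X → X → ℝ} (hs : Sy M) (hM : PK M) (k : ℕ) :
    PK (fun a b => M a b ^ k) := by
  induction k with
  | zero => simpa using pk_one
  | succ k ih =>
    simp only [pow_succ]
    exact PK.mul (fun a b => by simp only [hs a b]) ih hs hM

theorem PK.scale {M : X → X → ℝ} (hM : PK M) (v : X → ℝ) :
    PK (fun a b => v a * v b * M a b) := by
  intro n x c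
  have := hM n x fun i => c i * v (x i)
  simp only [Q] at this ⊢
  exact this.trans_eq (sum_congr rfl fun i _ => sum_congr rfl fun j _ => by ring)

theorem PK.const_mul {M : X → X → ℝ} (hM : PK M) {r : ℝ} (hr : 0 ≤ r) :
    PK (fun a b => r * M a b) := by
  intro n x c
  have := mul_nonneg hr (hM n x c)
  simp only [Q, mul_sum] at this ⊢
  exact this.trans_eq (sum_congr rfl fun i _ => sum_congr rfl fun j _ => by ring)

theorem pk_sum {F : ℕ → X → X → ℝ} (hF : ∀ k, PK (F k)) (N : ℕ) :
    PK (fun a b => ∑ k ∈ range N, F k a b) := by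
  intro n x c
  have : Q (fun a b => ∑ k ∈ range N, F k a b) x c = ∑ k ∈ range N, Q (F k) x c := by
    simp only [Q, mul_sum]
    rw [sum_comm (s := range N)]
    exact sum_congr rfl fun i _ => sum_comm
  rw [this]
  exact sum_nonneg fun k _ => hF k n x c

theorem PK.two {M : X → X → ℝ} (hs : Sy M) (hM : PK M) (a b : X) :
    0 ≤ M a a + 2 * M a b + M b b := by
  have := hM 2 ![a, b] ![1, 1]
  simp [Q, Fin.sum_univ_succ, hs b a] at this
  linarith

/-- The reciprocal of a positive Lorentzian kernel is positive semidefinite. -/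
theorem pk_inv {M : X → X → ℝ} (hs : Sy M) (hp : ∀ a b, 0 < M a b) (h : Lor M) :
    PK (fun a b => (M a b)⁻¹) := by
  intro n x c
  rcases Nat.eq_zero_or_pos n with rfl | hn
  · simp [Q]
  revert n x c
  suffices H : ∀ p : X, PK (fun a b => (M a b)⁻¹) by
    intro n x c hn; exact H (x ⟨0, hn⟩) n x c
  intro p
  set ρ : X → X → ℝ := fun a b => 1 - M p p * M a b / (M a p * M b p) with hρ
  have hρs : Sy ρ := fun a b => by simp only [hρ, hs a b, mul_comm (M a p)]
  have hP : PK (fun a b => M a p * M b p - M p p * M a b) := by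
    intro n x c
    have h1 := h p n x c
    have h2 : Q (fun a b => M a p * M b p - M p p * M a b) x c =
        (∑ i, c i * M (x i) p) ^ 2 - M p p * Q M x c := by
      rw [sq, sum_mul_sum]
      simp only [Q, mul_sum, ← sum_sub_distrib]
      exact sum_congr rfl fun i _ => sum_congr rfl fun j _ => by ring
    rw [h2]; linarith
  have hρP : PK ρ := by
    have := hP.scale fun a => (M a p)⁻¹
    convert this using 3 with a b
    have := hp a p; have := hp b p
    simp only [hρ]; field_simp
  have hlt : ∀ a b, ρ a b < 1 := fun a b => by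
    have := hp a p; have := hp b p; have := hp p p; have := hp a b
    simp only [hρ]
    have : 0 < M p p * M a b / (M a p * M b p) := by positivity
    linarith
  have habs : ∀ a b, |ρ a b| < 1 := fun a b => by
    rw [abs_lt]
    refine ⟨?_, hlt a b⟩
    have := hρP.two hρs a b
    linarith [hlt a a, hlt b b]
  have hgeo : PK (fun a b => (1 - ρ a b)⁻¹) :=
    pk_of_tendsto (F := fun N a b => ∑ k ∈ range N, ρ a b ^ k)
      (fun N => pk_sum (fun k => hρP.pow hρs k) N)
      fun a b => (hasSum_geometric_of_abs_lt_one (habs a b)).tendsto_sum_nat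
  have := (hgeo.scale fun a => (M a p)⁻¹).const_mul (hp p p).le
  convert this using 3 with a b
  have := hp a p; have := hp b p; have := hp p p; have := hp a b
  simp only [hρ]; field_simp; ring

theorem Lor.const_mul {M : X → X → ℝ} (h : Lor M) (r : ℝ) : Lor (fun a b => r * M a b) := by
  intro p n x c
  have h1 := mul_le_mul_of_nonneg_left (h p n x c) (sq_nonneg r)
  have h2 : Q (fun a b => r * M a b) x c = r * Q M x c := by
    simp only [Q, mul_sum]
    exact sum_congr rfl fun i _ => sum_congr rfl fun j _ => by ring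
  have h3 : ∑ i, c i * (r * M (x i) p) = r * ∑ i, c i * M (x i) p := by
    simp only [mul_sum]
    exact sum_congr rfl fun i _ => by ring
  rw [h2, h3]; nlinarith

theorem Lor.comp {Y : Type*} {M : X → X → ℝ} (h : Lor M) (f : Y → X) :
    Lor (fun a b => M (f a) (f b)) :=
  fun p n x c => h (f p) n (fun i => f (x i)) c

/-- Conditional negativity at a base point. -/
theorem cnd_of_lor {G : X → X → ℝ} (hp : ∀ a b, 0 < G a b) (h : Lor fun a b => (G a b)⁻¹)
    (p : X) {n : ℕ} (x : Fin n → X) (c : Fin n → ℝ) (hc : ∑ i, c i = 0) :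
    Q (fun a b => G a p * G b p * (G a b)⁻¹) x c ≤ 0 := by
  have := hyp_of_lor h (p := p) (inv_pos.2 (hp p p)) n x (fun i => c i * G (x i) p) (by
    rw [← hc]
    exact sum_congr rfl fun i _ => by have := hp (x i) p; field_simp)
  simp only [Q] at this ⊢
  exact le_of_eq_of_le (sum_congr rfl fun i _ => sum_congr rfl fun j _ => by ring) this

/-- A rank one update preserves the Lorentzian property of the reciprocal. -/
theorem lor_update {G : X → X → ℝ} (hs : Sy G) (hp : ∀ a b, 0 < G a b)
    (h : Lor fun a b => (G a b)⁻¹) (w : X) {ε : ℝ} (hε : 0 ≤ ε) :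
    Lor fun a b => (G a b + ε * (G a w * G b w))⁻¹ := by
  rcases hε.eq_or_lt with rfl | hε
  · simpa using h
  set T : X → X → ℝ := fun a b => 1 + ε * (G a w * G b w * (G a b)⁻¹) with hT
  have hTp : ∀ a b, 0 < T a b := fun a b => by
    have := hp a w; have := hp b w; have := hp a b
    simp only [hT]; positivity
  have hTs : Sy T := fun a b => by simp only [hT, hs a b, mul_comm (G a w)]
  have hTL : Lor T := by
    refine lor_of_hyp (u := fun _ => 1) hTs (fun p => hTp p p) fun n x c hc => ?_
    simp only [mul_one] at hc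
    have h1 := cnd_of_lor hp h w x c hc
    have h2 : Q T x c = (∑ i, c i) ^ 2 + ε * Q (fun a b => G a w * G b w * (G a b)⁻¹) x c := by
      rw [sq, sum_mul_sum]
      simp only [Q, hT, mul_sum, ← sum_add_distrib]
      exact sum_congr rfl fun i _ => sum_congr rfl fun j _ => by ring
    rw [h2, hc]; nlinarith
  have hTi := (pk_inv hTs hTp hTL).scale fun a => (G a w)⁻¹
  refine lor_of_hyp (u := fun a => (G a w)⁻¹) (fun a b => by simp only [hs a b, mul_comm (G a w)])
    (fun p => by have := hp p w; have := hp p p; positivity) fun n x c hc => ?_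
  have h1 := hTi n x c
  have h2 : ε * Q (fun a b => (G a b + ε * (G a w * G b w))⁻¹) x c =
      (∑ i, c i * (G (x i) w)⁻¹) ^ 2 -
        Q (fun a b => (G a w)⁻¹ * (G b w)⁻¹ * (T a b)⁻¹) x c := by
    rw [sq, sum_mul_sum]
    simp only [Q, hT, mul_sum, ← sum_sub_distrib]
    refine sum_congr rfl fun i _ => sum_congr rfl fun j _ => ?_
    have := hp (x i) w; have := hp (x j) w; have := hp (x i) (x j)
    field_simp; ring
  rw [hc] at h2
  by_contra hq
  push Not at hq
  nlinarith [mul_pos hε hq]

/-- Passing from `L = (c + 1/c)/2` to `c`. -/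
theorem lor_half {L c : X → X → ℝ} (hs : Sy L) (hc : ∀ a b, 1 ≤ c a b)
    (hL : ∀ a b, 2 * L a b = c a b + (c a b)⁻¹) (h : Lor L) : Lor c := by
  have hL1 : ∀ a b, 1 ≤ L a b ∧ L a b ≤ c a b := fun a b => by
    have h1 := hc a b
    have h2 := hL a b
    have h3 : (c a b)⁻¹ ≤ 1 := inv_le_one_of_one_le₀ h1
    have h4 : c a b * (c a b)⁻¹ = 1 := mul_inv_cancel₀ (by linarith)
    constructor <;> nlinarith
  let F : ℕ → X → X → ℝ := fun k => Nat.rec L (fun _ f a b => 2 * L a b - (f a b)⁻¹) k
  have hF0 : F 0 = L := rfl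
  have hF : ∀ k a b, F (k + 1) a b = 2 * L a b - (F k a b)⁻¹ := fun _ _ _ => rfl
  have key : ∀ k, Sy (F k) ∧ Lor (F k) ∧ ∀ a b, 1 ≤ F k a b ∧ 0 ≤ c a b - F k a b ∧
      c a b - F k a b ≤ (c a b - 1) * (c a b)⁻¹ ^ k := by
    intro k
    induction k with
    | zero =>
      refine ⟨hs, h, fun a b => ?_⟩
      rw [hF0]
      have := hL1 a b
      refine ⟨this.1, by linarith, by simp; linarith⟩
    | succ k ih =>
      obtain ⟨i1, i2, i3⟩ := ih
      have hb : ∀ a b, 1 ≤ F (k + 1) a b ∧ 0 ≤ c a b - F (k + 1) a b ∧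
          c a b - F (k + 1) a b ≤ (c a b - 1) * (c a b)⁻¹ ^ (k + 1) := fun a b => by
        obtain ⟨j1, j2, j3⟩ := i3 a b
        have h1 := hc a b
        have h3 : (F k a b)⁻¹ ≤ 1 := inv_le_one_of_one_le₀ j1
        have h5 : c a b - F (k + 1) a b = (c a b - F k a b) * (c a b)⁻¹ * (F k a b)⁻¹ := by
          rw [hF, hL]; field_simp; ring
        have h6 : 0 ≤ (c a b)⁻¹ := by positivity
        have h7 : 0 ≤ (F k a b)⁻¹ := by positivity
        refine ⟨?_, by rw [h5]; positivity, ?_⟩
        · rw [hF]; linarith [(hL1 a b).1]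
        · rw [h5, pow_succ, ← mul_assoc]
          calc (c a b - F k a b) * (c a b)⁻¹ * (F k a b)⁻¹
              ≤ (c a b - F k a b) * (c a b)⁻¹ * 1 := by gcongr
            _ ≤ _ := by rw [mul_one]; gcongr
      have hsy : Sy (F (k + 1)) := fun a b => by rw [hF, hF, hs a b, i1 a b]
      refine ⟨hsy, ?_, hb⟩
      intro p
      have hyp := hyp_of_lor h (p := p) (by linarith [(hL1 p p).1])
      refine lor_of_hyp (u := fun a => L a p) hsy (fun q => by linarith [(hb q q).1])
        (fun n x d hd => ?_) p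
      have h1 := hyp n x d hd
      have h2 := pk_inv i1 (fun a b => by linarith [(i3 a b).1]) i2 n x d
      have h3 : Q (F (k + 1)) x d = 2 * Q L x d - Q (fun a b => (F k a b)⁻¹) x d := by
        simp only [Q, hF, mul_sum, ← sum_sub_distrib]
        exact sum_congr rfl fun i _ => sum_congr rfl fun j _ => by ring
      linarith
  refine lor_of_tendsto (fun k => (key k).2.1) fun a b => ?_
  have h0 : Tendsto (fun k : ℕ => (c a b - 1) * (c a b)⁻¹ ^ k) atTop (𝓝 0) := by
    rcases (hc a b).eq_or_lt with h1 | h1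
    · simp [← h1]
    · have := (tendsto_pow_atTop_nhds_zero_of_lt_one (r := (c a b)⁻¹) (by positivity)
        (inv_lt_one_of_one_lt₀ h1)).const_mul (c a b - 1)
      simpa using this
  have h1 : Tendsto (fun k => c a b - F k a b) atTop (𝓝 0) :=
    squeeze_zero (fun k => ((key k).2.2 a b).2.1) (fun k => ((key k).2.2 a b).2.2) h0
  have := (tendsto_const_nhds (x := c a b)).sub h1
  simpa using this

/-- Resolvent of a finitely supported potential, built by rank one updates. -/
theorem exists_resolvent [DecidableEq X] {A : X → X → ℝ} (hs : Sy A) (hp : ∀ a b, 0 < A a b)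
    (hL : Lor fun a b => (A a b)⁻¹) {α : X → ℝ} (hα : ∀ l, 0 ≤ α l) (S : Finset X)
    (hex : ∃ f W : X → ℝ, (∀ i, 0 < f i) ∧ (∀ i, 0 ≤ W i) ∧
      ∀ i, f i + ∑ l ∈ S, A i l * (α l * W l) ≤ W i) :
    ∃ U : X → X → ℝ, Sy U ∧ (∀ a b, 0 < U a b) ∧ Lor (fun a b => (U a b)⁻¹) ∧
      (∀ a b, U a b = A a b + ∑ l ∈ S, A a l * (α l * U l b)) ∧
      ∀ f W : X → ℝ, (∀ i, 0 ≤ f i) → (∀ i, 0 ≤ W i) →
        (∀ i, f i + ∑ l ∈ S, A i l * (α l * W l) ≤ W i) →
        ∀ i, f i + ∑ l ∈ S, U i l * (α l * f l) ≤ W i := by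
  induction S using Finset.induction_on with
  | empty => exact ⟨A, hs, hp, hL, by simp, fun f W _ _ h => by simpa using h⟩
  | insert w S hw ih =>
    obtain ⟨f0, W0, hf0, hW0, h0⟩ := hex
    obtain ⟨U, Us, Up, UL, Ue, Um⟩ := ih ⟨f0, W0, hf0, hW0, fun i => by
      have := h0 i
      rw [sum_insert hw] at this
      have h2 : 0 ≤ A i w * (α w * W0 w) := mul_nonneg (hp i w).le (mul_nonneg (hα w) (hW0 w))
      linarith⟩
    have Ue' : ∀ a b, U a b = A a b + ∑ l ∈ S, U a l * (α l * A l b) := fun a b => by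
      rw [Us a b, Ue b a, hs b a]
      congr 1
      exact sum_congr rfl fun l _ => by rw [hs b l, Us l a]; ring
    have step : ∀ f W : X → ℝ, (∀ i, 0 ≤ f i) → (∀ i, 0 ≤ W i) →
        (∀ i, f i + ∑ l ∈ insert w S, A i l * (α l * W l) ≤ W i) →
        ∀ i, (f i + ∑ l ∈ S, U i l * (α l * f l)) + α w * W w * U i w ≤ W i := by
      intro f W hf hW h i
      have := Um (fun i => f i + A i w * (α w * W w)) W
        (fun i => add_nonneg (hf i) (mul_nonneg (hp i w).le (mul_nonneg (hα w) (hW w)))) hW
        (fun i => by have := h i; rw [sum_insert hw] at this; linarith) i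
      have h2 : ∑ l ∈ S, U i l * (α l * (f l + A l w * (α w * W w))) =
          ∑ l ∈ S, U i l * (α l * f l) + α w * W w * ∑ l ∈ S, U i l * (α l * A l w) := by
        rw [mul_sum, ← sum_add_distrib]
        exact sum_congr rfl fun l _ => by ring
      rw [h2] at this
      rw [Ue' i w]
      linarith
    have hlt : α w * U w w < 1 := by
      have h1 := step f0 W0 (fun i => (hf0 i).le) hW0 h0 w
      have h2 : 0 ≤ ∑ l ∈ S, U w l * (α l * f0 l) :=
        sum_nonneg fun l _ => mul_nonneg (Up w l).le (mul_nonneg (hα l) (hf0 l).le)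
      have h3 := hf0 w
      have h4 := hW0 w
      by_contra h5
      push Not at h5
      nlinarith
    set ε := α w / (1 - α w * U w w) with hε
    have hd : 0 < 1 - α w * U w w := by linarith
    have hε0 : 0 ≤ ε := div_nonneg (hα w) hd.le
    have hεe : α w * (1 + ε * U w w) = ε := by rw [hε]; field_simp; ring
    refine ⟨fun a b => U a b + ε * (U a w * U b w), fun a b => by
      simp only [Us a b, mul_comm (U a w)], fun a b => by
      have := Up a b; have := Up a w; have := Up b w; positivity,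
      lor_update Us Up UL w hε0, fun a b => ?_, fun f W hf hW h i => ?_⟩
    · rw [sum_insert hw]
      have h2 : ∑ l ∈ S, A a l * (α l * (U l b + ε * (U l w * U b w))) =
          ∑ l ∈ S, A a l * (α l * U l b) + ε * U b w * ∑ l ∈ S, A a l * (α l * U l w) := by
        rw [mul_sum, ← sum_add_distrib]
        exact sum_congr rfl fun l _ => by ring
      have h3 := Ue a b
      have h4 := Ue a w
      beta_reduce
      rw [h2, Us w b]
      linear_combination h3 + ε * U b w * h4 - A a w * U b w * hεe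
    · rw [sum_insert hw]
      have h1 := step f W hf hW h
      have h2 : ∑ l ∈ S, (U i l + ε * (U i w * U l w)) * (α l * f l) =
          ∑ l ∈ S, U i l * (α l * f l) + ε * U i w * ∑ l ∈ S, U w l * (α l * f l) := by
        rw [mul_sum, ← sum_add_distrib]
        exact sum_congr rfl fun l _ => by rw [Us l w]; ring
      beta_reduce
      rw [h2]
      have h3 := h1 w
      have h4 := h1 i
      set Fw := f w + ∑ l ∈ S, U w l * (α l * f l) with hFw
      have h5 : ε * Fw ≤ α w * W w := by
        rw [hε, div_mul_eq_mul_div, div_le_iff₀ hd]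
        nlinarith [hα w]
      have h6 := mul_le_mul_of_nonneg_right h5 (Up i w).le
      have h7 : (U i w + ε * (U i w * U w w)) * (α w * f w) = ε * U i w * f w := by
        linear_combination U i w * f w * hεe
      rw [h7]
      rw [hFw] at h6
      linarith

end Vale.Agent.P071.CNDAux
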