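import Vale.Agent.P071.Basic
import Vale.Agent.P071.GreenCNDAux1

/-! Bounded approximations of the Green function of the disc with Lorentzian reciprocal. -/

open Filter Topology Finset MeasureTheory
open scoped ComplexConjugate

namespace Vale.Agent.P071.CNDAux

/-- Iterated square roots of the squared pseudo-hyperbolic distance. -/
noncomputable def sg : ℕ → ℂ → ℂ → ℝ
  | 0 => fun x y => ‖x - y‖ ^ 2 / ‖1 - x * conj y‖ ^ 2
  | n + 1 => fun x y => √(sg n x y)

/-- Bounded approximations of `g0`. -/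
noncomputable def kk (n : ℕ) (x y : ℂ) : ℝ :=
  (2 * Real.pi)⁻¹ * 2 ^ n * ((1 - sg n x y) / (1 + sg n x y))

theorem nsq1 (x y : ℂ) : ‖x - y‖ ^ 2 = ‖x‖ ^ 2 + ‖y‖ ^ 2 - 2 * (x.re * y.re + x.im * y.im) := by
  simp only [Complex.sq_norm, Complex.normSq_apply, Complex.sub_re, Complex.sub_im]; ring

theorem nsq2 (x y : ℂ) :
    ‖1 - x * conj y‖ ^ 2 = 1 + ‖x‖ ^ 2 * ‖y‖ ^ 2 - 2 * (x.re * y.re + x.im * y.im) := by
  simp only [Complex.sq_norm, Complex.normSq_apply, Complex.sub_re, Complex.sub_im,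
    Complex.mul_re, Complex.mul_im, Complex.conj_re, Complex.conj_im, Complex.one_re,
    Complex.one_im]
  ring

theorem hh_pos {x : ℂ} (hx : x ∈ DD) : 0 < 1 - ‖x‖ ^ 2 := by
  have h : ‖x‖ < 1 := by simpa using hx
  nlinarith [norm_nonneg x]

theorem nsq_lt {x y : ℂ} (hx : x ∈ DD) (hy : y ∈ DD) : ‖x - y‖ ^ 2 < ‖1 - x * conj y‖ ^ 2 := by
  have := mul_pos (hh_pos hx) (hh_pos hy)
  rw [nsq1, nsq2]; nlinarith

theorem den_pos {x y : ℂ} (hx : x ∈ DD) (hy : y ∈ DD) : 0 < ‖1 - x * conj y‖ ^ 2 :=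
  (sq_nonneg _).trans_lt (nsq_lt hx hy)

theorem sg_nonneg (n : ℕ) (x y : ℂ) : 0 ≤ sg n x y := by
  cases n with
  | zero => simp only [sg]; positivity
  | succ n => exact Real.sqrt_nonneg _

theorem sg_lt {x y : ℂ} (hx : x ∈ DD) (hy : y ∈ DD) (n : ℕ) : sg n x y < 1 := by
  induction n with
  | zero => exact (div_lt_one (den_pos hx hy)).2 (nsq_lt hx hy)
  | succ n ih => exact (Real.sqrt_lt' one_pos).2 (by simpa using ih)

theorem sg_symm (n : ℕ) (x y : ℂ) : sg n x y = sg n y x := by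
  induction n with
  | zero => simp only [sg]; rw [nsq2, nsq2, nsq1 x, nsq1 y]; ring
  | succ n ih => simp only [sg, ih]

theorem sg_diag (n : ℕ) (x : ℂ) : sg n x x = 0 := by
  induction n with
  | zero => simp [sg]
  | succ n ih => simp [sg, ih]

theorem sg_pos {x y : ℂ} (hx : x ∈ DD) (hy : y ∈ DD) (hxy : x ≠ y) (n : ℕ) : 0 < sg n x y := by
  induction n with
  | zero => exact div_pos (pow_pos (norm_pos_iff.2 (sub_ne_zero.2 hxy)) 2) (den_pos hx hy)
  | succ n ih => exact Real.sqrt_pos.2 ih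

theorem log_sg (n : ℕ) (x y : ℂ) :
    Real.log (sg n x y) = -(4 * Real.pi * g0 x y) / 2 ^ n := by
  induction n with
  | zero =>
    simp only [sg, g0, ← div_pow, Real.log_pow]
    rw [← inv_div, Real.log_inv]
    have := Real.pi_pos
    field_simp
    push_cast
    ring
  | succ n ih =>
    simp only [sg]
    rw [Real.log_sqrt (sg_nonneg n x y), ih]
    field_simp
    ring

theorem g0_pos {x y : ℂ} (hx : x ∈ DD) (hy : y ∈ DD) (hxy : x ≠ y) : 0 < g0 x y := by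
  have h1 := Real.log_neg (sg_pos hx hy hxy 0) (sg_lt hx hy 0)
  rw [log_sg] at h1
  have := Real.pi_pos
  by_contra h
  push Not at h
  simp only [pow_zero, div_one] at h1
  nlinarith

theorem g0_diag (x : ℂ) : g0 x x = 0 := by simp [g0]

theorem g0_nonneg {x y : ℂ} (hx : x ∈ DD) (hy : y ∈ DD) : 0 ≤ g0 x y := by
  rcases eq_or_ne x y with rfl | h
  · rw [g0_diag]
  · exact (g0_pos hx hy h).le

theorem g0_symm (x y : ℂ) : g0 x y = g0 y x := by
  have h1 := log_sg 0 x y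
  rw [sg_symm, log_sg] at h1
  have := Real.pi_pos
  field_simp at h1
  linarith

theorem kk_pos {x y : ℂ} (hx : x ∈ DD) (hy : y ∈ DD) (n : ℕ) : 0 < kk n x y := by
  have h1 := sg_nonneg n x y
  have h2 := sub_pos.2 (sg_lt hx hy n)
  have := Real.pi_pos
  unfold kk; positivity

theorem kk_symm (n : ℕ) (x y : ℂ) : kk n x y = kk n y x := by simp only [kk, sg_symm n x y]

theorem kk_diag (n : ℕ) (x : ℂ) : kk n x x = (2 * Real.pi)⁻¹ * 2 ^ n := by simp [kk, sg_diag]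

theorem kk_le {x y : ℂ} (hx : x ∈ DD) (hy : y ∈ DD) (hxy : x ≠ y) (n : ℕ) :
    kk n x y ≤ g0 x y := by
  have h0 := sg_pos hx hy hxy n
  have h1 := sg_lt hx hy n
  have h2 := log_sg n x y
  unfold kk
  set σ := sg n x y
  have h3 := Real.le_log_one_add_of_nonneg (x := (1 - σ) / σ) (div_nonneg (by linarith) h0.le)
  have h4 : 1 + (1 - σ) / σ = σ⁻¹ := by field_simp; ring
  have h5 : 2 * ((1 - σ) / σ) / ((1 - σ) / σ + 2) = 2 * ((1 - σ) / (1 + σ)) := by
    have : (1 - σ) / σ + 2 = (1 + σ) / σ := by field_simp; ring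
    rw [this]; field_simp
  rw [h4, h5, Real.log_inv, h2] at h3
  have hpi := Real.pi_pos
  have h6 : (0 : ℝ) < (2 * Real.pi)⁻¹ * 2 ^ n := by positivity
  calc _ ≤ (2 * Real.pi)⁻¹ * 2 ^ n * (2 * Real.pi * g0 x y / 2 ^ n) := by
        refine mul_le_mul_of_nonneg_left ?_ h6.le
        have : 2 * Real.pi * g0 x y / 2 ^ n = (- (-(4 * Real.pi * g0 x y) / 2 ^ n)) / 2 := by ring
        rw [this]; linarith
    _ = _ := by field_simp

theorem le_kk {x y : ℂ} (hx : x ∈ DD) (hy : y ∈ DD) (hxy : x ≠ y) (n : ℕ) :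
    sg n x y * g0 x y ≤ kk n x y := by
  have h0 := sg_pos hx hy hxy n
  have h1 := sg_lt hx hy n
  have h2 := log_sg n x y
  unfold kk
  set σ := sg n x y
  have h3 := Real.one_sub_inv_le_log_of_pos h0
  have hpi := Real.pi_pos
  have h6 : (0 : ℝ) < (2 * Real.pi)⁻¹ * 2 ^ n := by positivity
  have h7 : σ * (2 * Real.pi * g0 x y / 2 ^ n) ≤ (1 - σ) / (1 + σ) := by
    have e : 2 * Real.pi * g0 x y / 2 ^ n = - Real.log σ / 2 := by rw [h2]; ring
    have e2 : σ * σ⁻¹ = 1 := mul_inv_cancel₀ h0.ne'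
    have e3 : σ * (- Real.log σ / 2) ≤ (1 - σ) / 2 := by nlinarith
    rw [e]
    refine e3.trans ?_
    gcongr
    linarith
  calc _ = (2 * Real.pi)⁻¹ * 2 ^ n * (σ * (2 * Real.pi * g0 x y / 2 ^ n)) := by field_simp
    _ ≤ _ := mul_le_mul_of_nonneg_left h7 h6.le

theorem tendsto_sg {x y : ℂ} (hx : x ∈ DD) (hy : y ∈ DD) (hxy : x ≠ y) :
    Tendsto (fun n => sg n x y) atTop (𝓝 1) := by
  have h1 : Tendsto (fun n : ℕ => -(4 * Real.pi * g0 x y) / 2 ^ n) atTop (𝓝 0) :=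
    tendsto_const_nhds.div_atTop (tendsto_pow_atTop_atTop_of_one_lt one_lt_two)
  have h2 := (Real.continuous_exp.tendsto 0).comp h1
  rw [Real.exp_zero] at h2
  refine h2.congr fun n => ?_
  simp only [Function.comp, ← log_sg, Real.exp_log (sg_pos hx hy hxy n)]

theorem tendsto_kk {x y : ℂ} (hx : x ∈ DD) (hy : y ∈ DD) (hxy : x ≠ y) :
    Tendsto (fun n => kk n x y) atTop (𝓝 (g0 x y)) := by
  have h1 := (tendsto_sg hx hy hxy).mul_const (g0 x y)
  rw [one_mul] at h1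
  exact tendsto_of_tendsto_of_tendsto_of_le_of_le h1 tendsto_const_nhds
    (fun n => le_kk hx hy hxy n) fun n => kk_le hx hy hxy n

theorem lor_c {X : Type*} {e : X → ℂ} (he : ∀ i, e i ∈ DD) (n : ℕ) :
    Lor fun a b => (1 + sg n (e a) (e b)) / (1 - sg n (e a) (e b)) := by
  induction n with
  | zero =>
    set u : X → ℝ := fun a => (1 + ‖e a‖ ^ 2) / (1 - ‖e a‖ ^ 2) with hu
    set v : X → ℝ := fun a => 2 * (e a).re / (1 - ‖e a‖ ^ 2) with hv
    set w : X → ℝ := fun a => 2 * (e a).im / (1 - ‖e a‖ ^ 2) with hw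
    have hL : ∀ a b, (1 + sg 0 (e a) (e b)) / (1 - sg 0 (e a) (e b)) =
        u a * u b - v a * v b - w a * w b := fun a b => by
      have h1 := den_pos (he a) (he b)
      have h2 := hh_pos (he a)
      have h3 := hh_pos (he b)
      have h4 : 1 - sg 0 (e a) (e b) =
          (1 - ‖e a‖ ^ 2) * (1 - ‖e b‖ ^ 2) / ‖1 - e a * conj (e b)‖ ^ 2 := by
        simp only [sg]
        rw [eq_div_iff h1.ne', sub_mul, div_mul_cancel₀ _ h1.ne', nsq2, nsq1]; ring
      have h5 : 1 + sg 0 (e a) (e b) = ((1 + ‖e a‖ ^ 2) * (1 + ‖e b‖ ^ 2) -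
          4 * ((e a).re * (e b).re + (e a).im * (e b).im)) / ‖1 - e a * conj (e b)‖ ^ 2 := by
        simp only [sg]
        rw [eq_div_iff h1.ne', add_mul, div_mul_cancel₀ _ h1.ne', nsq2, nsq1]; ring
      rw [h4, h5, div_div_div_cancel_right₀ h1.ne']
      simp only [hu, hv, hw]
      field_simp
      ring
    refine lor_of_hyp (u := u) (fun a b => by simp only [sg_symm 0 (e a)])
      (fun p => by simp [sg_diag]) fun n x c hc => ?_
    have : Q (fun a b => (1 + sg 0 (e a) (e b)) / (1 - sg 0 (e a) (e b))) x c =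
        (∑ i, c i * u (x i)) ^ 2 - (∑ i, c i * v (x i)) ^ 2 - (∑ i, c i * w (x i)) ^ 2 := by
      simp only [Q, hL, sq, sum_mul_sum, ← sum_sub_distrib]
      exact sum_congr rfl fun i _ => sum_congr rfl fun j _ => by ring
    rw [this, hc]
    nlinarith [sq_nonneg (∑ i, c i * v (x i)), sq_nonneg (∑ i, c i * w (x i))]
  | succ n ih =>
    refine lor_half (fun a b => by simp only [sg_symm n (e a)]) (fun a b => ?_) (fun a b => ?_) ih
    · have h1 := sg_nonneg (n + 1) (e a) (e b)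
      have h2 := sg_lt (he a) (he b) (n + 1)
      rw [le_div_iff₀ (by linarith)]; linarith
    · have h1 := sg_nonneg (n + 1) (e a) (e b)
      have h2 := sub_pos.2 (sg_lt (he a) (he b) (n + 1))
      have h3 : sg n (e a) (e b) = sg (n + 1) (e a) (e b) ^ 2 :=
        (Real.sq_sqrt (sg_nonneg n _ _)).symm
      rw [h3]
      set σ := sg (n + 1) (e a) (e b)
      have h4 : 1 - σ ^ 2 = (1 - σ) * (1 + σ) := by ring
      rw [h4]
      field_simp
      ring

theorem lor_kk {X : Type*} {e : X → ℂ} (he : ∀ i, e i ∈ DD) (n : ℕ) (θ : ℝ) :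
    Lor fun a b => (θ * kk n (e a) (e b))⁻¹ := by
  have := (lor_c he n).const_mul (θ * ((2 * Real.pi)⁻¹ * 2 ^ n))⁻¹
  convert this using 3 with a b
  simp only [kk, mul_inv, inv_div]
  ring

theorem contOn_sg (n : ℕ) : ContinuousOn (fun p : ℂ × ℂ => sg n p.1 p.2) (DD ×ˢ DD) := by
  induction n with
  | zero =>
    simp only [sg]
    refine ContinuousOn.div (by fun_prop) (by fun_prop) fun p hp => (den_pos hp.1 hp.2).ne'
  | succ n ih => exact ih.sqrt

theorem contOn_kk (n : ℕ) : ContinuousOn (fun p : ℂ × ℂ => kk n p.1 p.2) (DD ×ˢ DD) := by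
  unfold kk
  refine continuousOn_const.mul ((continuousOn_const.sub (contOn_sg n)).div
    (continuousOn_const.add (contOn_sg n)) fun p _ => ?_)
  have := sg_nonneg n p.1 p.2
  linarith

theorem exists_delta {r : ℝ} (hr : r < 1) (n : ℕ) {θ : ℝ} (h0 : 0 < θ) (h1 : θ < 1) :
    ∃ δ > 0, ∀ x ∈ Metric.closedBall (0 : ℂ) r, ∀ y ∈ Metric.closedBall (0 : ℂ) r,
      ∀ x' ∈ Metric.closedBall (0 : ℂ) r, ∀ y' ∈ Metric.closedBall (0 : ℂ) r,
        dist x' x < δ → dist y' y < δ → θ * kk n x' y' ≤ kk n x y := by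
  have hsub : Metric.closedBall (0 : ℂ) r ⊆ DD := Metric.closedBall_subset_ball hr
  have hK := (isCompact_closedBall (0 : ℂ) r).prod (isCompact_closedBall (0 : ℂ) r)
  have hc : ContinuousOn (fun p : ℂ × ℂ => Real.log (kk n p.1 p.2))
      (Metric.closedBall (0 : ℂ) r ×ˢ Metric.closedBall (0 : ℂ) r) :=
    ((contOn_kk n).mono (Set.prod_mono hsub hsub)).log
      fun p hp => (kk_pos (hsub hp.1) (hsub hp.2) n).ne'
  have hu := Metric.uniformContinuousOn_iff.1 (hK.uniformContinuousOn_of_continuous hc)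
  obtain ⟨δ, hδ, H⟩ := hu (-Real.log θ) (neg_pos.2 (Real.log_neg h0 h1))
  refine ⟨δ, hδ, fun x hx y hy x' hx' y' hy' d1 d2 => ?_⟩
  have := H (x', y') ⟨hx', hy'⟩ (x, y) ⟨hx, hy⟩ (by rw [Prod.dist_eq]; exact max_lt d1 d2)
  rw [Real.dist_eq, abs_lt] at this
  have p1 := kk_pos (hsub hx) (hsub hy) n
  have p2 := kk_pos (hsub hx') (hsub hy') n
  rw [← Real.log_le_log_iff (mul_pos h0 p2) p1, Real.log_mul h0.ne' p2.ne']
  linarith [this.2]

theorem exists_net {r : ℝ} (hr : 0 ≤ r) {δ : ℝ} (hδ : 0 < δ) :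
    ∃ (e : ℕ → ℂ) (N : ℕ) (π : ℂ → ℕ), Measurable π ∧ (∀ i, e i ∈ Metric.closedBall (0 : ℂ) r) ∧
      (∀ x, π x ∈ range (N + 1)) ∧ ∀ x ∈ Metric.closedBall (0 : ℂ) r, dist (e (π x)) x < δ := by
  set K := Metric.closedBall (0 : ℂ) r
  have : Nonempty K := ⟨⟨0, Metric.mem_closedBall_self hr⟩⟩
  let e : ℕ → ℂ := fun i => (TopologicalSpace.denseSeq K i : ℂ)
  obtain ⟨t, ht⟩ := (isCompact_closedBall (0 : ℂ) r).elim_finite_subcover
    (fun i => Metric.ball (e i) δ) (fun _ => Metric.isOpen_ball) (fun x hx => by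
      obtain ⟨i, hi⟩ := (TopologicalSpace.denseRange_denseSeq K).exists_dist_lt ⟨x, hx⟩ hδ
      exact Set.mem_iUnion.2 ⟨i, hi⟩)
  refine ⟨e, t.sup id, SimpleFunc.nearestPtInd e (t.sup id), SimpleFunc.measurable _,
    fun i => (TopologicalSpace.denseSeq K i).2,
    fun x => mem_range.2 (Nat.lt_succ_of_le (SimpleFunc.nearestPtInd_le _ _ _)), fun x hx => ?_⟩
  obtain ⟨i, hi, hx'⟩ := Set.mem_iUnion₂.1 (ht hx)
  have h1 := SimpleFunc.edist_nearestPt_le e x (k := i) (N := t.sup id) (le_sup (f := id) hi)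
  have h2 : dist (e i) x < δ := by rw [dist_comm]; exact hx'
  rw [edist_dist, edist_dist, ENNReal.ofReal_le_ofReal_iff dist_nonneg] at h1
  exact h1.trans_lt h2

end Vale.Agent.P071.CNDAux
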