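import Vale.Agent.P071.GreenAn

/-! A Hoelder bound for the Green kernel near the boundary. -/

open MeasureTheory Set Metric
open scoped ENNReal ComplexConjugate

namespace Vale.Agent.P071

namespace Green

lemma log_sub_le_lin {s t : ℝ} (hs : 1 ≤ s) (ht : 1 ≤ t) : Real.log s - Real.log t ≤ |s - t| := by
  rw [← Real.log_div (by linarith) (by linarith)]
  refine (Real.log_le_sub_one_of_pos (by positivity)).trans ?_
  rw [div_sub_one (by linarith), div_le_iff₀ (by linarith)]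
  nlinarith [le_abs_self (s - t), abs_nonneg (s - t)]

lemma abs_log_sub_le_lin {s t : ℝ} (hs : 1 ≤ s) (ht : 1 ≤ t) :
    |Real.log s - Real.log t| ≤ |s - t| := by
  rw [abs_le]
  have h1 := log_sub_le_lin hs ht
  have h2 := log_sub_le_lin ht hs
  rw [abs_sub_comm] at h2
  constructor <;> linarith

lemma log_sub_le_sqrt {s t ρ δ : ℝ} (hρ : 0 < ρ) (hs : ρ ≤ s) (ht : ρ ≤ t) (hδ : |s - t| ≤ δ) :
    Real.log s - Real.log t ≤ 2 * (√δ * (√ρ)⁻¹) := by
  have hs0 : 0 < s := by linarith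
  have ht0 : 0 < t := by linarith
  have hδ0 : 0 ≤ δ := (abs_nonneg _).trans hδ
  have hu : 0 ≤ √δ * (√ρ)⁻¹ := by positivity
  have hu2 : (√δ * (√ρ)⁻¹) ^ 2 = δ / ρ := by
    rw [mul_pow, inv_pow, Real.sq_sqrt hδ0, Real.sq_sqrt hρ.le, div_eq_mul_inv]
  set u := √δ * (√ρ)⁻¹
  have h1 : s / t ≤ (1 + u) ^ 2 := by
    have h2 : s / t ≤ 1 + δ / ρ := by
      have h3 : δ / t ≤ δ / ρ := div_le_div_of_nonneg_left hδ0 hρ ht
      have h4 : s / t ≤ 1 + δ / t := by
        rw [div_le_iff₀ ht0, add_mul, div_mul_cancel₀ _ ht0.ne']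
        linarith [le_abs_self (s - t)]
      linarith
    nlinarith
  rw [← Real.log_div hs0.ne' ht0.ne']
  refine (Real.log_le_log (by positivity) h1).trans ?_
  rw [Real.log_pow]
  have := Real.log_le_sub_one_of_pos (show 0 < 1 + u by linarith)
  push_cast
  linarith

lemma abs_log_sub_le_sqrt {s t ρ δ : ℝ} (hρ : 0 < ρ) (hs : ρ ≤ s) (ht : ρ ≤ t)
    (hδ : |s - t| ≤ δ) : |Real.log s - Real.log t| ≤ 2 * (√δ * (√ρ)⁻¹) := by
  rw [abs_le]
  have h1 := log_sub_le_sqrt hρ hs ht hδ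
  have h2 := log_sub_le_sqrt hρ ht hs (δ := δ) (by rwa [abs_sub_comm])
  constructor <;> linarith

lemma norm_sub_le_two {x y : ℂ} (hx : x ∈ DD) (hy : y ∈ DD) : ‖x - y‖ ≤ 2 := by
  linarith [norm_sub_le x y, norm_lt hx, norm_lt hy]

lemma far_bound {w y a : ℂ} (hw : w ∈ DD) (hy : y ∈ DD) (ha : a ∈ DD) {d : ℝ} (hd : 0 < d)
    (h1 : d ≤ ‖w - y‖) (h2 : d ≤ ‖w - a‖) :
    |g0 w y - g0 w a| ≤ 12 / d ^ 4 * ‖y - a‖ * hh w := by
  have hwy : w ≠ y := by rintro rfl; simp at h1; linarith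
  have hwa : w ≠ a := by rintro rfl; simp at h2; linarith
  have pw := hh_pos hw
  have py := hh_pos hy
  have pa := hh_pos ha
  rw [g0_eq hw hy hwy, g0_eq hw ha hwa, ← mul_sub, abs_mul]
  have hpi := Real.pi_gt_three
  have e1 : |(4 * Real.pi)⁻¹| ≤ 1 := by
    rw [abs_of_nonneg (by positivity)]
    exact inv_le_one_of_one_le₀ (by linarith)
  refine (mul_le_of_le_one_left (abs_nonneg _) e1).trans ?_
  set P := ‖w - y‖ with hP
  set Q := ‖w - a‖ with hQ
  have hP0 : 0 < P := by linarith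
  have hQ0 : 0 < Q := by linarith
  refine (abs_log_sub_le_lin (le_add_of_nonneg_right (by positivity))
    (le_add_of_nonneg_right (by positivity))).trans ?_
  have e2 : 1 + hh w * hh y / P ^ 2 - (1 + hh w * hh a / Q ^ 2) =
      ((hh y - hh a) * Q ^ 2 + hh a * (Q ^ 2 - P ^ 2)) / (P ^ 2 * Q ^ 2) * hh w := by
    field_simp
    ring
  rw [e2, abs_mul, abs_of_pos pw]
  refine mul_le_mul_of_nonneg_right ?_ pw.le
  have hPQ : |Q - P| ≤ ‖y - a‖ := by
    have := abs_norm_sub_norm_le (w - a) (w - y)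
    rwa [show w - a - (w - y) = y - a by ring] at this
  have hP2 : P ≤ 2 := norm_sub_le_two hw hy
  have hQ2 : Q ≤ 2 := norm_sub_le_two hw ha
  have b1 : |hh y - hh a| ≤ 2 * ‖y - a‖ := by
    have e : hh y - hh a = (‖a‖ - ‖y‖) * (‖a‖ + ‖y‖) := by unfold hh; ring
    have := abs_norm_sub_norm_le a y
    rw [norm_sub_rev a y] at this
    rw [e, abs_mul, abs_of_nonneg (show 0 ≤ ‖a‖ + ‖y‖ by positivity), mul_comm]
    exact mul_le_mul (by linarith [norm_lt hy, norm_lt ha]) this (abs_nonneg _) (by norm_num)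
  have b2 : |Q ^ 2 - P ^ 2| ≤ 4 * ‖y - a‖ := by
    rw [show Q ^ 2 - P ^ 2 = (Q + P) * (Q - P) by ring, abs_mul, abs_of_pos (by positivity)]
    exact mul_le_mul (by linarith) hPQ (abs_nonneg _) (by norm_num)
  have b3 : |(hh y - hh a) * Q ^ 2 + hh a * (Q ^ 2 - P ^ 2)| ≤ 12 * ‖y - a‖ := by
    refine (abs_add_le _ _).trans ?_
    rw [abs_mul, abs_mul, abs_of_pos pa, abs_of_pos (show 0 < Q ^ 2 by positivity)]
    have c1 : |hh y - hh a| * Q ^ 2 ≤ 2 * ‖y - a‖ * 4 :=
      mul_le_mul b1 (by nlinarith) (by positivity) (by positivity)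
    have c2 : hh a * |Q ^ 2 - P ^ 2| ≤ 1 * (4 * ‖y - a‖) :=
      mul_le_mul (hh_le_one a) b2 (abs_nonneg _) (by norm_num)
    linarith
  rw [abs_div, abs_of_pos (show 0 < P ^ 2 * Q ^ 2 by positivity), div_mul_eq_mul_div]
  refine div_le_div₀ (by positivity) b3 (by positivity) ?_
  calc d ^ 4 = d ^ 2 * d ^ 2 := by ring
    _ ≤ P ^ 2 * Q ^ 2 := by gcongr

lemma near_bound {w y a : ℂ} (hw : w ∈ DD) (hy : y ∈ DD) (ha : a ∈ DD) (hwy : w ≠ y)
    (hwa : w ≠ a) :
    |g0 w y - g0 w a| ≤ √‖y - a‖ * ((√‖w - y‖)⁻¹ + (√‖w - a‖)⁻¹) := by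
  have hP0 : 0 < ‖w - y‖ := norm_pos_iff.2 (sub_ne_zero.2 hwy)
  have hQ0 : 0 < ‖w - a‖ := norm_pos_iff.2 (sub_ne_zero.2 hwa)
  have a1 := one_sub_pos hw hy
  have a2 := one_sub_pos hw ha
  set ρ := min ‖w - y‖ ‖w - a‖ with hρ
  have hρ0 : 0 < ρ := lt_min hP0 hQ0
  have l1 : |Real.log ‖w - a‖ - Real.log ‖w - y‖| ≤ 2 * (√‖y - a‖ * (√ρ)⁻¹) := by
    refine abs_log_sub_le_sqrt hρ0 (min_le_right _ _) (min_le_left _ _) ?_
    have := abs_norm_sub_norm_le (w - a) (w - y)
    rwa [show w - a - (w - y) = y - a by ring] at this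
  have l2 : |Real.log ‖1 - w * conj y‖ - Real.log ‖1 - w * conj a‖| ≤
      2 * (√‖y - a‖ * (√ρ)⁻¹) := by
    refine abs_log_sub_le_sqrt hρ0 ((min_le_left _ _).trans (sub_le_one_sub hw hy))
      ((min_le_right _ _).trans (sub_le_one_sub hw ha)) ?_
    refine (abs_norm_sub_norm_le _ _).trans ?_
    rw [show 1 - w * conj y - (1 - w * conj a) = w * conj (a - y) by rw [map_sub]; ring, norm_mul,
      Complex.norm_conj, norm_sub_rev a y]
    exact mul_le_of_le_one_left (norm_nonneg _) (norm_lt hw).le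
  have l3 : (√ρ)⁻¹ ≤ (√‖w - y‖)⁻¹ + (√‖w - a‖)⁻¹ := by
    rcases min_choice ‖w - y‖ ‖w - a‖ with h | h <;> rw [hρ, h]
    · exact le_add_of_nonneg_right (by positivity)
    · exact le_add_of_nonneg_left (by positivity)
  unfold g0
  rw [Real.log_div a1.ne' hP0.ne', Real.log_div a2.ne' hQ0.ne', ← mul_sub, abs_mul]
  have hpi := Real.pi_gt_three
  have e1 : |(2 * Real.pi)⁻¹| ≤ 4⁻¹ := by
    rw [abs_of_nonneg (by positivity)]
    exact inv_anti₀ (by norm_num) (by linarith)
  have e2 : |Real.log ‖1 - w * conj y‖ - Real.log ‖w - y‖ -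
      (Real.log ‖1 - w * conj a‖ - Real.log ‖w - a‖)| ≤ 4 * (√‖y - a‖ * (√ρ)⁻¹) := by
    rw [abs_le] at l1 l2 ⊢
    constructor <;> linarith [l1.1, l1.2, l2.1, l2.2]
  refine (mul_le_mul e1 e2 (abs_nonneg _) (by norm_num)).trans ?_
  have := mul_le_mul_of_nonneg_left l3 (Real.sqrt_nonneg ‖y - a‖)
  linarith

/-- The truncated singular weight. -/
noncomputable def sing (w : ℂ) : ℝ := (ball (0 : ℂ) 3).indicator (fun w => (√‖w‖)⁻¹) w

lemma sing_nonneg (w : ℂ) : 0 ≤ sing w :=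
  indicator_nonneg (fun _ _ => by positivity) w

lemma integrable_sing : Integrable sing volume := by
  unfold sing
  rw [integrable_indicator_iff measurableSet_ball]
  refine integrableOn_ball_of_norm_le_rpow (C := 1) (α := 1 / 2) (by simp) (by norm_num)
    (Filter.Eventually.of_forall fun x => ?_) (Measurable.aestronglyMeasurable (by fun_prop))
  rw [Real.norm_of_nonneg (by positivity), one_mul, Real.rpow_neg (norm_nonneg _),
    Real.sqrt_eq_rpow]

variable {m : Measure ℂ} {μ : ℝ}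

lemma sing_int (h : Pot m μ) {r : ℝ} (hr : r < 1) : ∃ J : ℝ, ∀ y : ℂ,
    Integrable ((closedBall (0 : ℂ) r).indicator fun w => sing (w - y)) m ∧
      ∫ w, (closedBall (0 : ℂ) r).indicator (fun w => sing (w - y)) w ∂m ≤ J := by
  obtain ⟨C, hC, hle⟩ := h.locBdd r hr
  refine ⟨C.toReal * ∫ w, sing w, fun y => ?_⟩
  have h1 : Integrable (fun w => sing (w - y)) (C • volume) :=
    (integrable_sing.comp_sub_right y).smul_measure hC
  refine ⟨(integrable_indicator_iff measurableSet_closedBall).2 (h1.mono_measure hle), ?_⟩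
  rw [integral_indicator measurableSet_closedBall]
  refine (integral_mono_measure hle (Filter.Eventually.of_forall fun w => sing_nonneg _) h1).trans
    (le_of_eq ?_)
  rw [integral_smul_measure, integral_sub_right_eq_self, smul_eq_mul]

end Green

open Green in
theorem green_holder {m : Measure ℂ} {μ C : ℝ} (h : Pot m μ) (hG : GreenAn m μ C) {r : ℝ}
    (hr : r < 1) : ∃ K R : ℝ, R < 1 ∧ ∀ y ∈ closedBall (0 : ℂ) r, ∀ a ∈ closedBall (0 : ℂ) r,
      ∀ z ∈ DD, R ≤ ‖z‖ → |GG m μ y z - GG m μ a z| ≤ K * √‖y - a‖ * hh z := by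
  set d : ℝ := (1 - r) / 3 with hd
  have hd0 : 0 < d := by rw [hd]; linarith
  have hr' : r + d < 1 := by rw [hd]; linarith
  obtain ⟨J, hJ⟩ := sing_int h hr'
  set B : Set ℂ := closedBall 0 (r + d) with hB
  have hμ := h.mu_pos
  refine ⟨24 / d ^ 4 + μ * (|C| / d ^ 2 * (2 * J) + |C| * (24 / d ^ 4 * 64) * (|C| / d ^ 2)),
    r + 2 * d, by rw [hd]; linarith, fun y hy a ha z hz hzR => ?_⟩
  have hy1 : ‖y‖ ≤ r := by simpa using hy
  have ha1 : ‖a‖ ≤ r := by simpa using ha
  have hr0 : 0 ≤ r := (norm_nonneg y).trans hy1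
  have hyD : y ∈ DD := by simp only [DD, mem_ball, dist_zero_right]; linarith
  have haD : a ∈ DD := by simp only [DD, mem_ball, dist_zero_right]; linarith
  have h0D : (0 : ℂ) ∈ DD := by simp [DD]
  have hzy : z ≠ y := by rintro rfl; linarith
  have hza : z ≠ a := by rintro rfl; linarith
  have hz0 : z ≠ 0 := by rintro rfl; simp at hzR; linarith
  have pz := hh_pos hz
  have hμI : μ ∈ Icc 0 μ := ⟨hμ.le, le_rfl⟩
  set σ := √‖y - a‖ with hσ
  have hσ0 : 0 ≤ σ := Real.sqrt_nonneg _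
  have hδ : ‖y - a‖ ≤ 2 * σ := by
    have e1 : σ ^ 2 = ‖y - a‖ := Real.sq_sqrt (norm_nonneg _)
    have e2 := norm_sub_le_two hyD haD
    have e3 : σ ≤ 2 := by nlinarith
    nlinarith
  have hGn : ∀ w, 0 ≤ GG m μ z w := fun w => ENNReal.toReal_nonneg
  have hGu : ∀ w ∈ DD, GG m μ z w ≤ |C| * g0 z w := fun w hw =>
    (hG.upper μ hμI z hz w hw).trans
      (mul_le_mul_of_nonneg_right (le_abs_self C) (g0_nonneg hz hw))
  have hGm : Measurable fun w => GG m μ z w :=
    (hG.meas μ).comp (measurable_const.prodMk measurable_id)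
  have hint : ∀ b ∈ DD, Integrable (fun w => GG m μ z w * g0 w b) m := fun b hb => by
    refine ((hG.threeG_int z hz b hb).const_mul |C|).mono'
      (hGm.fun_mul (measurable_g0.comp (measurable_id.prodMk measurable_const))).aestronglyMeasurable
      ?_
    filter_upwards [ae_DD h] with w hw
    rw [Real.norm_of_nonneg (mul_nonneg (hGn w) (g0_nonneg hw hb)), ← mul_assoc]
    exact mul_le_mul_of_nonneg_right (hGu w hw) (g0_nonneg hw hb)
  have hres : ∀ b ∈ DD, z ≠ b → GG m μ b z = g0 z b + μ * ∫ w, GG m μ z w * g0 w b ∂m := by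
    intro b hb hzb
    rw [hG.symm μ b z, hG.resolvent 0 μ le_rfl hμ.le le_rfl z hz b hb hzb, hG.zero z hz b hb,
      sub_zero]
    congr 2
    refine integral_congr_ae ?_
    filter_upwards [ae_DD h] with w hw
    rw [hG.zero w hw b hb]
  have hfar : ∀ w ∈ DD, r + d ≤ ‖w‖ → |g0 w y - g0 w a| ≤ 24 / d ^ 4 * σ * hh w := by
    intro w hw hwr
    refine (far_bound hw hyD haD hd0 (by linarith [norm_sub_norm_le w y])
      (by linarith [norm_sub_norm_le w a])).trans ?_
    refine mul_le_mul_of_nonneg_right ?_ (hh_pos hw).le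
    calc 12 / d ^ 4 * ‖y - a‖ ≤ 12 / d ^ 4 * (2 * σ) := by gcongr
      _ = _ := by ring
  have hclose : ∀ w ∈ DD, d ≤ ‖z - w‖ → g0 z w ≤ hh z / d ^ 2 := fun w hw hzw =>
    (g0_le hz hw).trans (div_le_div₀ pz.le (mul_le_of_le_one_right pz.le (hh_le_one w))
      (by positivity) (pow_le_pow_left₀ hd0.le hzw 2))
  set c1 : ℝ := |C| / d ^ 2 * σ * hh z with hc1
  set c2 : ℝ := |C| * (24 / d ^ 4 * 64) * σ with hc2
  have hc10 : 0 ≤ c1 := by positivity
  have hc20 : 0 ≤ c2 := by positivity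
  have hI : |∫ w, GG m μ z w * g0 w y ∂m - ∫ w, GG m μ z w * g0 w a ∂m| ≤
      c1 * (2 * J) + c2 * (|C| / d ^ 2 * hh z) := by
    rw [← integral_sub (hint y hyD) (hint a haD), ← Real.norm_eq_abs]
    have i1 := (hJ y).1
    have i2 := (hJ a).1
    have i3 := hG.threeG_int z hz 0 h0D
    have i4 : Integrable (fun w => c1 * (B.indicator (fun w => sing (w - y)) w +
        B.indicator (fun w => sing (w - a)) w)) m := (i1.add i2).const_mul c1
    have i5 : Integrable (fun w => c2 * (g0 z w * g0 w 0)) m := i3.const_mul c2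
    refine (norm_integral_le_of_norm_le (i4.add i5) ?_).trans ?_
    · filter_upwards [ae_good h y a, ae_ne h 0] with w hw hw0
      obtain ⟨hw, hwy, hwa⟩ := hw
      rw [← mul_sub, Real.norm_eq_abs, abs_mul, abs_of_nonneg (hGn w), Pi.add_apply]
      have n1 := g0_nonneg hz hw
      have n2 := g0_nonneg hw h0D
      by_cases hwB : w ∈ B
      · have hw1 : ‖w‖ ≤ r + d := by simpa [hB] using hwB
        have s1 : ∀ b ∈ DD, sing (w - b) = (√‖w - b‖)⁻¹ := fun b hb => by
          unfold sing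
          rw [indicator_of_mem]
          simp only [mem_ball, dist_zero_right]
          linarith [norm_sub_le_two hw hb]
        rw [indicator_of_mem hwB, indicator_of_mem hwB, s1 y hyD, s1 a haD]
        have b1 : GG m μ z w ≤ |C| * (hh z / d ^ 2) := (hGu w hw).trans
          (mul_le_mul_of_nonneg_left (hclose w hw (by linarith [norm_sub_norm_le z w]))
            (abs_nonneg C))
        refine (mul_le_mul b1 (near_bound hw hyD haD hwy hwa) (abs_nonneg _)
          (by positivity)).trans ?_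
        refine le_trans (le_of_eq ?_) (le_add_of_nonneg_right (by positivity))
        rw [hc1]
        ring
      · have hw1 : r + d ≤ ‖w‖ := by
          simp only [hB, mem_closedBall, dist_zero_right, not_le] at hwB
          exact hwB.le
        rw [indicator_of_notMem hwB, indicator_of_notMem hwB, add_zero, mul_zero, zero_add]
        have b1 := hh_mul_le hw h0D hw0
        rw [show hh 0 = 1 by simp [hh], mul_one] at b1
        have b2 : |g0 w y - g0 w a| ≤ 24 / d ^ 4 * σ * (64 * g0 w 0) :=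
          (hfar w hw hw1).trans (mul_le_mul_of_nonneg_left b1 (by positivity))
        refine (mul_le_mul (hGu w hw) b2 (abs_nonneg _) (by positivity)).trans (le_of_eq ?_)
        rw [hc2]
        ring
    · simp only [Pi.add_apply]
      rw [integral_add i4 i5, integral_const_mul, integral_const_mul, integral_add i1 i2]
      refine add_le_add (mul_le_mul_of_nonneg_left (by linarith [(hJ y).2, (hJ a).2]) hc10)
        (mul_le_mul_of_nonneg_left ?_ hc20)
      refine (hG.threeG z hz 0 h0D hz0).trans ?_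
      refine (mul_le_mul_of_nonneg_right (le_abs_self C) (g0_nonneg hz h0D)).trans ?_
      refine (mul_le_mul_of_nonneg_left (hclose 0 h0D (by rw [sub_zero]; linarith))
        (abs_nonneg C)).trans (le_of_eq ?_)
      ring
  rw [hres y hyD hzy, hres a haD hza]
  have e : g0 z y + μ * ∫ w, GG m μ z w * g0 w y ∂m - (g0 z a + μ * ∫ w, GG m μ z w * g0 w a ∂m) =
      (g0 z y - g0 z a) +
        μ * (∫ w, GG m μ z w * g0 w y ∂m - ∫ w, GG m μ z w * g0 w a ∂m) := by ring
  rw [e]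
  refine (abs_add_le _ _).trans ?_
  rw [abs_mul, abs_of_pos hμ]
  refine (add_le_add (hfar z hz (by linarith)) (mul_le_mul_of_nonneg_left hI hμ.le)).trans
    (le_of_eq ?_)
  rw [hc1, hc2]
  ring

end Vale.Agent.P071
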