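import Vale.Agent.P071.GreenPt

/-! Kernel algebra for the Neumann series. -/

open MeasureTheory Set Metric
open scoped ENNReal ComplexConjugate

namespace Vale.Agent.P071.Green

/-- Joint measurability of a kernel. -/
abbrev MK (K : ℂ → ℂ → ℝ≥0∞) : Prop := Measurable fun p : ℂ × ℂ => K p.1 p.2

lemma MK.left {K : ℂ → ℂ → ℝ≥0∞} (h : MK K) (y : ℂ) : Measurable fun x => K x y :=
  h.comp (measurable_id.prodMk measurable_const)

lemma MK.right {K : ℂ → ℂ → ℝ≥0∞} (h : MK K) (x : ℂ) : Measurable fun y => K x y :=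
  h.comp (measurable_const.prodMk measurable_id)

lemma mk_g0e : MK g0e := measurable_g0e

lemma MK.apply {K : ℂ → ℂ → ℝ≥0∞} (h : MK K) {f : ℂ → ℝ≥0∞} (hf : Measurable f)
    (ν : Measure ℂ) [SFinite ν] : Measurable fun x => ∫⁻ w, K x w * f w ∂ν :=
  Measurable.lintegral_prod_right' (f := fun p : ℂ × ℂ => K p.1 p.2 * f p.2)
    (h.fun_mul (hf.comp measurable_snd))

lemma MK.comp' {K L : ℂ → ℂ → ℝ≥0∞} (hK : MK K) (hL : MK L) (ν : Measure ℂ) [SFinite ν] :
    MK fun x y => ∫⁻ w, K x w * L w y ∂ν :=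
  Measurable.lintegral_prod_right' (f := fun q : (ℂ × ℂ) × ℂ => K q.1.1 q.2 * L q.2 q.1.2)
    ((hK.comp (measurable_fst.fst.prodMk measurable_snd)).mul
      (hL.comp (measurable_snd.prodMk measurable_fst.snd)))

lemma assoc {u f : ℂ → ℝ≥0∞} {L : ℂ → ℂ → ℝ≥0∞} (hu : Measurable u) (hf : Measurable f)
    (hL : MK L) (ν ρ : Measure ℂ) [SFinite ν] [SFinite ρ] :
    ∫⁻ w, (∫⁻ v, u v * L v w ∂ν) * f w ∂ρ = ∫⁻ v, u v * (∫⁻ w, L v w * f w ∂ρ) ∂ν := by
  have h1 : ∀ w, (∫⁻ v, u v * L v w ∂ν) * f w = ∫⁻ v, u v * L v w * f w ∂ν := fun w =>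
    (lintegral_mul_const _ (hu.fun_mul (hL.left w))).symm
  have h2 : ∀ v, u v * (∫⁻ w, L v w * f w ∂ρ) = ∫⁻ w, u v * L v w * f w ∂ρ := fun v => by
    rw [← lintegral_const_mul _ ((hL.right v).fun_mul hf)]
    simp only [mul_assoc]
  simp only [h1, h2]
  refine (lintegral_lintegral_swap ?_).symm
  exact (((hu.comp measurable_fst).fun_mul hL).fun_mul (hf.comp measurable_snd)).aemeasurable

variable {m : Measure ℂ}

lemma mk_iter [SFinite m] : ∀ n, MK (iter m n)
  | 0 => mk_g0e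
  | n + 1 => mk_g0e.comp' (mk_iter n) m

lemma iter_add [SFinite m] (b : ℕ) (y : ℂ) : ∀ (a : ℕ) (x : ℂ),
    ∫⁻ w, iter m a x w * iter m b w y ∂m = iter m (a + b + 1) x y
  | 0, x => by rw [zero_add]; rfl
  | a + 1, x => by
    have h := assoc (mk_g0e.right x) ((mk_iter (m := m) b).left y) (mk_iter (m := m) a) m m
    have e : a + 1 + b + 1 = (a + b + 1) + 1 := by ring
    rw [e]
    refine h.trans ?_
    simp only [iter_add b y a]
    rfl

lemma iter_symm [SFinite m] : ∀ (n : ℕ) (x y : ℂ), iter m n x y = iter m n y x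
  | 0, x, y => g0e_symm x y
  | n + 1, x, y => by
    have h := iter_add (m := m) 0 x n y
    rw [add_zero] at h
    rw [← h]
    show ∫⁻ w, g0e x w * iter m n w y ∂m = ∫⁻ w, iter m n y w * g0e w x ∂m
    refine lintegral_congr fun w => ?_
    rw [iter_symm n w y, g0e_symm x w, mul_comm]

/-- The Neumann series. -/
noncomputable def SS (m : Measure ℂ) (s : ℝ≥0∞) (x y : ℂ) : ℝ≥0∞ := ∑' n, s ^ n * iter m n x y

/-- Finite sums of the Neumann series. -/
noncomputable def SP (m : Measure ℂ) (s : ℝ≥0∞) (N : ℕ) (x y : ℂ) : ℝ≥0∞ :=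
  ∑ n ∈ Finset.range N, s ^ n * iter m n x y

lemma GG_eq (s : ℝ) (x y : ℂ) : GG m s x y = (SS m (ENNReal.ofReal s) x y).toReal := rfl

lemma mk_SS [SFinite m] (s : ℝ≥0∞) : MK (SS m s) :=
  Measurable.tsum fun n => (mk_iter n).const_mul _

lemma mk_SP [SFinite m] (s : ℝ≥0∞) (N : ℕ) : MK (SP m s N) :=
  Finset.measurable_sum _ fun n _ => (mk_iter n).const_mul _

lemma SS_eq_iSup (s : ℝ≥0∞) (x y : ℂ) : SS m s x y = ⨆ N, SP m s N x y :=
  ENNReal.tsum_eq_iSup_nat

lemma SS_mono {s t : ℝ≥0∞} (h : s ≤ t) (x y : ℂ) : SS m s x y ≤ SS m t x y :=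
  ENNReal.tsum_le_tsum fun n => mul_le_mul_left (pow_le_pow_left₀ zero_le h n) _

lemma g0e_le_SS (s : ℝ≥0∞) (x y : ℂ) : g0e x y ≤ SS m s x y := by
  have h := ENNReal.le_tsum (f := fun n => s ^ n * iter m n x y) 0
  simpa [iter, SS] using h

lemma SS_zero (x y : ℂ) : SS m 0 x y = g0e x y := by
  unfold SS
  rw [tsum_eq_single 0]
  · simp [iter]
  · intro n hn
    simp [hn]

lemma SS_symm [SFinite m] (s : ℝ≥0∞) (x y : ℂ) : SS m s x y = SS m s y x := by
  unfold SS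
  simp only [iter_symm _ x y]

lemma SP_symm [SFinite m] (s : ℝ≥0∞) (N : ℕ) (x y : ℂ) : SP m s N x y = SP m s N y x := by
  unfold SP
  simp only [iter_symm _ x y]

lemma SP_succ [SFinite m] (s : ℝ≥0∞) (N : ℕ) (x y : ℂ) :
    SP m s (N + 1) x y = g0e x y + s * ∫⁻ w, g0e x w * SP m s N w y ∂m := by
  unfold SP
  rw [Finset.sum_range_succ', add_comm]
  simp only [Finset.mul_sum]
  rw [lintegral_finsetSum _ fun n _ => (mk_g0e.right x).fun_mul (((mk_iter n).left y).const_mul _),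
    Finset.mul_sum]
  congr 1
  · simp [iter]
  · refine Finset.sum_congr rfl fun n _ => ?_
    have : ∀ w, g0e x w * (s ^ n * iter m n w y) = s ^ n * (g0e x w * iter m n w y) :=
      fun w => by ring
    simp only [this]
    rw [lintegral_const_mul _ ((mk_g0e.right x).fun_mul ((mk_iter n).left y)), pow_succ]
    show _ = s * (s ^ n * iter m (n + 1) x y)
    ring

lemma SP_le [SFinite m] (s : ℝ≥0∞) (N : ℕ) (x y : ℂ) :
    SP m s N x y ≤ g0e x y + s * ∫⁻ w, SP m s N x w * g0e w y ∂m := by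
  have h1 : SP m s N x y ≤ SP m s (N + 1) x y := by
    unfold SP
    rw [Finset.sum_range_succ]
    exact le_self_add
  refine h1.trans (le_of_eq ?_)
  rw [SP_symm, SP_succ, g0e_symm]
  congr 2
  refine lintegral_congr fun w => ?_
  rw [SP_symm, g0e_symm, mul_comm]

lemma geom_id {s t d : ℝ≥0∞} (h : t + d = s) (n : ℕ) :
    t ^ (n + 1) + d * ∑ p ∈ Finset.HasAntidiagonal.antidiagonal n, s ^ p.1 * t ^ p.2 = s ^ (n + 1) := by
  induction n with
  | zero => simpa using h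
  | succ n ih =>
    rw [Finset.Nat.antidiagonal_succ', Finset.sum_cons, Finset.sum_map]
    simp only [Function.Embedding.prodMap, Function.Embedding.coeFn_mk, Prod.map,
      Function.Embedding.refl_apply, Nat.succ_eq_add_one]
    have e : ∑ p ∈ Finset.HasAntidiagonal.antidiagonal n, s ^ p.1 * t ^ (p.2 + 1) =
        t * ∑ p ∈ Finset.HasAntidiagonal.antidiagonal n, s ^ p.1 * t ^ p.2 := by
      rw [Finset.mul_sum]
      exact Finset.sum_congr rfl fun p _ => by ring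
    rw [e]
    calc t ^ (n + 1 + 1) + d * (s ^ (n + 1) * t ^ 0 +
          t * ∑ p ∈ Finset.HasAntidiagonal.antidiagonal n, s ^ p.1 * t ^ p.2)
        = t * (t ^ (n + 1) + d * ∑ p ∈ Finset.HasAntidiagonal.antidiagonal n, s ^ p.1 * t ^ p.2) +
          d * s ^ (n + 1) := by ring
      _ = (t + d) * s ^ (n + 1) := by rw [ih]; ring
      _ = s ^ (n + 1 + 1) := by rw [h]; ring

lemma resolvent_e [SFinite m] {s t d : ℝ≥0∞} (h : t + d = s) (x y : ℂ) :
    SS m s x y = SS m t x y + d * ∫⁻ w, SS m s x w * SS m t w y ∂m := by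
  have h1 : ∫⁻ w, SS m s x w * SS m t w y ∂m =
      ∑' p : ℕ × ℕ, s ^ p.1 * t ^ p.2 * iter m (p.1 + p.2 + 1) x y := by
    have e : ∀ w, SS m s x w * SS m t w y =
        ∑' p : ℕ × ℕ, s ^ p.1 * t ^ p.2 * (iter m p.1 x w * iter m p.2 w y) := fun w => by
      unfold SS
      rw [ENNReal.tsum_prod', ← ENNReal.tsum_mul_right]
      refine tsum_congr fun a => ?_
      rw [← ENNReal.tsum_mul_left]
      exact tsum_congr fun b => by ring
    simp only [e]
    rw [lintegral_tsum fun p : ℕ × ℕ =>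
      ((((mk_iter p.1).right x).fun_mul ((mk_iter p.2).left y)).const_mul _).aemeasurable]
    refine tsum_congr fun p => ?_
    rw [lintegral_const_mul _ (((mk_iter p.1).right x).fun_mul ((mk_iter p.2).left y)), iter_add]
  have h2 : ∑' p : ℕ × ℕ, s ^ p.1 * t ^ p.2 * iter m (p.1 + p.2 + 1) x y =
      ∑' n : ℕ, (∑ p ∈ Finset.HasAntidiagonal.antidiagonal n, s ^ p.1 * t ^ p.2) * iter m (n + 1) x y := by
    rw [← Finset.HasAntidiagonal.sigmaAntidiagonalEquivProd.tsum_eq, ENNReal.tsum_sigma']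
    refine tsum_congr fun n => ?_
    rw [Finset.sum_mul, ← Finset.tsum_subtype]
    refine tsum_congr fun p => ?_
    have hp : p.1.1 + p.1.2 = n := Finset.HasAntidiagonal.mem_antidiagonal.1 p.2
    simp [hp]
  rw [h1, h2]
  unfold SS
  rw [tsum_eq_zero_add' ENNReal.summable, tsum_eq_zero_add' (f := fun n => t ^ n * iter m n x y)
    ENNReal.summable, add_assoc, ← ENNReal.tsum_mul_left, ← ENNReal.tsum_add]
  congr 1
  · simp
  · refine tsum_congr fun n => ?_
    rw [← geom_id h n]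
    ring

lemma mul_le_sq_add (a b : ℝ≥0∞) : a * b ≤ a ^ 2 + b ^ 2 := by
  rcases le_total a b with h | h
  · calc a * b ≤ b * b := mul_le_mul_left h _
      _ = b ^ 2 := by ring
      _ ≤ _ := le_add_self
  · calc a * b ≤ a * a := mul_le_mul_right h _
      _ = a ^ 2 := by ring
      _ ≤ _ := le_self_add

lemma cs {ν : Measure ℂ} {u v : ℂ → ℝ≥0∞} (hu : Measurable u) (hv : Measurable v) {a b : ℝ≥0∞}
    (ha : ∫⁻ w, u w ^ 2 ∂ν ≤ a ^ 2) (hb : ∫⁻ w, v w ^ 2 ∂ν ≤ b ^ 2) :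
    ∫⁻ w, u w * v w ∂ν ≤ a * b := by
  have h := ENNReal.lintegral_mul_le_Lp_mul_Lq ν Real.HolderConjugate.two_two hu.aemeasurable
    hv.aemeasurable
  have e : ∀ c : ℝ≥0∞, (c ^ 2) ^ (1 / (2 : ℝ)) = c := fun c => by
    rw [← ENNReal.rpow_two, ← ENNReal.rpow_mul]; norm_num
  simp only [ENNReal.rpow_two, Pi.mul_apply] at h
  refine h.trans (mul_le_mul' ?_ ?_)
  · rw [← e a]; exact ENNReal.rpow_le_rpow ha (by norm_num)
  · rw [← e b]; exact ENNReal.rpow_le_rpow hb (by norm_num)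

end Vale.Agent.P071.Green
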