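import Vale.Agent.P071.Basic

/-! Pointwise estimates for the Green function of the disc. -/

open MeasureTheory Set Metric
open scoped ENNReal ComplexConjugate

namespace Vale.Agent.P071.Green

lemma norm_lt {x : ℂ} (hx : x ∈ DD) : ‖x‖ < 1 := by
  simpa [DD] using hx

lemma hh_pos {x : ℂ} (hx : x ∈ DD) : 0 < hh x := by
  have h := norm_lt hx
  have h0 := norm_nonneg x
  unfold hh
  nlinarith

lemma hh_le_one (x : ℂ) : hh x ≤ 1 := by
  unfold hh
  nlinarith [sq_nonneg ‖x‖]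

lemma sq_one_sub (x y : ℂ) : ‖1 - x * conj y‖ ^ 2 = hh x * hh y + ‖x - y‖ ^ 2 := by
  unfold hh
  simp only [Complex.sq_norm, Complex.normSq_apply]
  simp
  ring

lemma norm_one_sub_comm (x y : ℂ) : ‖1 - x * conj y‖ = ‖1 - y * conj x‖ := by
  rw [← Complex.norm_conj]
  simp [mul_comm]

lemma g0_symm (x y : ℂ) : g0 x y = g0 y x := by
  unfold g0
  rw [norm_one_sub_comm, norm_sub_rev x y]

lemma g0e_symm (x y : ℂ) : g0e x y = g0e y x := by
  unfold g0e
  by_cases h : x = y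
  · simp [h]
  · rw [if_neg h, if_neg (Ne.symm h), g0_symm]

lemma g0_self (x : ℂ) : g0 x x = 0 := by
  simp [g0]

lemma sub_le_one_sub {x y : ℂ} (hx : x ∈ DD) (hy : y ∈ DD) : ‖x - y‖ ≤ ‖1 - x * conj y‖ := by
  have h := sq_one_sub x y
  have h1 := mul_pos (hh_pos hx) (hh_pos hy)
  exact (abs_le_of_sq_le_sq' (by linarith) (norm_nonneg _)).2

lemma one_sub_le_two {x y : ℂ} (hx : x ∈ DD) (hy : y ∈ DD) : ‖1 - x * conj y‖ ≤ 2 := by
  have h1 := norm_lt hx
  have h2 := norm_lt hy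
  have h3 : ‖1 - x * conj y‖ ≤ 1 + ‖x‖ * ‖y‖ := by
    refine (norm_sub_le _ _).trans ?_
    simp
  nlinarith [norm_nonneg x, norm_nonneg y]

lemma g0_eq {x y : ℂ} (_hx : x ∈ DD) (_hy : y ∈ DD) (hxy : x ≠ y) :
    g0 x y = (4 * Real.pi)⁻¹ * Real.log (1 + hh x * hh y / ‖x - y‖ ^ 2) := by
  have hd : 0 < ‖x - y‖ := norm_pos_iff.2 (sub_ne_zero.2 hxy)
  have h1 : 1 + hh x * hh y / ‖x - y‖ ^ 2 = (‖1 - x * conj y‖ / ‖x - y‖) ^ 2 := by
    rw [div_pow, sq_one_sub]
    field_simp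
    ring
  rw [h1, Real.log_pow, g0]
  have := Real.pi_pos
  field_simp
  push_cast
  ring

lemma g0_nonneg {x y : ℂ} (hx : x ∈ DD) (hy : y ∈ DD) : 0 ≤ g0 x y := by
  by_cases hxy : x = y
  · rw [hxy, g0_self]
  · rw [g0_eq hx hy hxy]
    have := Real.pi_pos
    have h1 := hh_pos hx
    have h2 := hh_pos hy
    exact mul_nonneg (by positivity) (Real.log_nonneg (by
      have : 0 ≤ hh x * hh y / ‖x - y‖ ^ 2 := by positivity
      linarith))

lemma g0_le {x y : ℂ} (hx : x ∈ DD) (hy : y ∈ DD) : g0 x y ≤ hh x * hh y / ‖x - y‖ ^ 2 := by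
  have h1 := hh_pos hx
  have h2 := hh_pos hy
  have ht : 0 ≤ hh x * hh y / ‖x - y‖ ^ 2 := by positivity
  by_cases hxy : x = y
  · rw [hxy, g0_self]; rw [hxy] at ht; exact ht
  · rw [g0_eq hx hy hxy]
    have hpi := Real.pi_gt_three
    have h3 := Real.log_le_sub_one_of_pos (show 0 < 1 + hh x * hh y / ‖x - y‖ ^ 2 by linarith)
    have h4 : (4 * Real.pi)⁻¹ ≤ 1 := inv_le_one_of_one_le₀ (by linarith)
    have h5 : 0 ≤ Real.log (1 + hh x * hh y / ‖x - y‖ ^ 2) := Real.log_nonneg (by linarith)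
    nlinarith

/-- Two-sided comparison of `log (1 + t)` with `t / (1 + t)`. -/
lemma log_two_sided {t : ℝ} (ht : 0 ≤ t) :
    t / (1 + t) ≤ Real.log (1 + t) ∧ Real.log (1 + t) ≤ t / (1 + t) * (1 + Real.log (1 + t)) := by
  have h0 : 0 < 1 + t := by linarith
  constructor
  · have h := Real.one_sub_inv_le_log_of_pos h0
    have : t / (1 + t) = 1 - (1 + t)⁻¹ := by field_simp; ring
    linarith
  · have h := Real.log_le_sub_one_of_pos h0
    rw [div_mul_eq_mul_div, le_div_iff₀ h0]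
    nlinarith

lemma q_eq {x y : ℂ} (hx : x ∈ DD) (hy : y ∈ DD) (hxy : x ≠ y) :
    (hh x * hh y / ‖x - y‖ ^ 2) / (1 + hh x * hh y / ‖x - y‖ ^ 2) =
      hh x * hh y / ‖1 - x * conj y‖ ^ 2 := by
  have hd : 0 < ‖x - y‖ := norm_pos_iff.2 (sub_ne_zero.2 hxy)
  have h1 := hh_pos hx
  have h2 := hh_pos hy
  rw [sq_one_sub]
  field_simp
  ring

lemma q_le_g0 {x y : ℂ} (hx : x ∈ DD) (hy : y ∈ DD) (hxy : x ≠ y) :
    hh x * hh y / ‖1 - x * conj y‖ ^ 2 ≤ 4 * Real.pi * g0 x y := by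
  have h1 := hh_pos hx
  have h2 := hh_pos hy
  have h := (log_two_sided (t := hh x * hh y / ‖x - y‖ ^ 2) (by positivity)).1
  rw [q_eq hx hy hxy] at h
  rw [g0_eq hx hy hxy]
  have := Real.pi_pos
  rwa [← mul_assoc, mul_inv_cancel₀ (by positivity), one_mul]

lemma g0_le_q {x y : ℂ} (hx : x ∈ DD) (hy : y ∈ DD) (hxy : x ≠ y) :
    4 * Real.pi * g0 x y ≤
      hh x * hh y / ‖1 - x * conj y‖ ^ 2 * (1 + 4 * Real.pi * g0 x y) := by
  have h1 := hh_pos hx
  have h2 := hh_pos hy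
  have h := (log_two_sided (t := hh x * hh y / ‖x - y‖ ^ 2) (by positivity)).2
  rw [q_eq hx hy hxy] at h
  rw [g0_eq hx hy hxy]
  have := Real.pi_pos
  rwa [← mul_assoc, mul_inv_cancel₀ (by positivity), one_mul]

lemma one_sub_pos {x y : ℂ} (hx : x ∈ DD) (hy : y ∈ DD) : 0 < ‖1 - x * conj y‖ := by
  have h := sq_one_sub x y
  have h1 := mul_pos (hh_pos hx) (hh_pos hy)
  have h2 : 0 < ‖1 - x * conj y‖ ^ 2 := by nlinarith [sq_nonneg ‖x - y‖]
  exact lt_of_le_of_ne (norm_nonneg _) (fun h0 => by rw [← h0] at h2; simp at h2)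

lemma hh_mul_le {x y : ℂ} (hx : x ∈ DD) (hy : y ∈ DD) (hxy : x ≠ y) :
    hh x * hh y ≤ 64 * g0 x y := by
  have h := q_le_g0 hx hy hxy
  have h1 := hh_pos hx
  have h2 := hh_pos hy
  have h3 := one_sub_pos hx hy
  have h4 := one_sub_le_two hx hy
  have h5 := g0_nonneg hx hy
  have hpi := Real.pi_lt_four
  rw [div_le_iff₀ (by positivity)] at h
  have h6 : ‖1 - x * conj y‖ ^ 2 ≤ 4 := by nlinarith
  have h7 : 4 * Real.pi * g0 x y ≤ 16 * g0 x y := by nlinarith
  have h8 : 0 ≤ 4 * Real.pi * g0 x y := by have := Real.pi_pos; positivity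
  nlinarith

lemma q_three {x y w : ℂ} (hx : x ∈ DD) (hy : y ∈ DD) (hw : w ∈ DD) :
    hh x * hh w / ‖1 - x * conj w‖ ^ 2 * (hh w * hh y / ‖1 - w * conj y‖ ^ 2) ≤
      4 * (hh x * hh y / ‖1 - x * conj y‖ ^ 2) := by
  have h1 := hh_pos hx
  have h2 := hh_pos hy
  have h3 := hh_pos hw
  have a1 := one_sub_pos hx hy
  have a2 := one_sub_pos hx hw
  have a3 := one_sub_pos hw hy
  have hid : (1 - x * conj y) * ((hh w : ℝ) : ℂ) =
      (1 - x * conj w) * (1 - w * conj y) - (x - w) * conj (y - w) := by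
    have : ((hh w : ℝ) : ℂ) = 1 - w * conj w := by
      rw [Complex.mul_conj, Complex.normSq_eq_norm_sq]; simp [hh]
    rw [this, map_sub]; ring
  have hn : ‖1 - x * conj y‖ * hh w ≤ 2 * (‖1 - x * conj w‖ * ‖1 - w * conj y‖) := by
    have e1 : ‖1 - x * conj y‖ * hh w = ‖(1 - x * conj y) * ((hh w : ℝ) : ℂ)‖ := by
      rw [norm_mul, Complex.norm_real, Real.norm_of_nonneg h3.le]
    rw [e1, hid]
    refine (norm_sub_le _ _).trans ?_
    rw [norm_mul, norm_mul, Complex.norm_conj, norm_sub_rev y w]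
    have b1 := sub_le_one_sub hx hw
    have b2 := sub_le_one_sub hw hy
    have := mul_le_mul b1 b2 (norm_nonneg _) (norm_nonneg _)
    linarith
  have hn2 : (‖1 - x * conj y‖ * hh w) ^ 2 ≤ (2 * (‖1 - x * conj w‖ * ‖1 - w * conj y‖)) ^ 2 :=
    pow_le_pow_left₀ (by positivity) hn 2
  rw [div_mul_div_comm, ← mul_div_assoc, div_le_div_iff₀ (by positivity) (by positivity)]
  have := mul_le_mul_of_nonneg_left hn2 (mul_pos h1 h2).le
  nlinarith

lemma threeG_pt {x y w : ℂ} (hx : x ∈ DD) (hy : y ∈ DD) (hw : w ∈ DD) (hxw : x ≠ w)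
    (hwy : w ≠ y) (hxy : x ≠ y) :
    g0 x w * g0 w y ≤ 64 * g0 x y * ((1 + g0 x w) * (1 + g0 w y)) := by
  have h1 := g0_le_q hx hw hxw
  have h2 := g0_le_q hw hy hwy
  have h3 := q_le_g0 hx hy hxy
  have h4 := q_three hx hy hw
  have n1 := g0_nonneg hx hw
  have n2 := g0_nonneg hw hy
  have n3 := g0_nonneg hx hy
  have p1 := hh_pos hx
  have p2 := hh_pos hy
  have p3 := hh_pos hw
  set a := g0 x w
  set b := g0 w y
  set c := g0 x y
  set q1 := hh x * hh w / ‖1 - x * conj w‖ ^ 2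
  set q2 := hh w * hh y / ‖1 - w * conj y‖ ^ 2
  set q3 := hh x * hh y / ‖1 - x * conj y‖ ^ 2
  have hq1 : 0 ≤ q1 := by positivity
  have hq2 : 0 ≤ q2 := by positivity
  have hpi := Real.pi_gt_three
  have hpi' := Real.pi_lt_four
  set P := 4 * Real.pi with hP
  have hP0 : 12 ≤ P := by linarith
  have e1 : a ≤ q1 * (1 + a) := by
    have : P * a ≤ P * (q1 * (1 + a)) := by nlinarith
    exact le_of_mul_le_mul_left this (by linarith)
  have e2 : b ≤ q2 * (1 + b) := by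
    have : P * b ≤ P * (q2 * (1 + b)) := by nlinarith
    exact le_of_mul_le_mul_left this (by linarith)
  have e3 : q1 * q2 ≤ 64 * c := by nlinarith
  calc a * b ≤ (q1 * (1 + a)) * (q2 * (1 + b)) := mul_le_mul e1 e2 n2 (by positivity)
    _ = (q1 * q2) * ((1 + a) * (1 + b)) := by ring
    _ ≤ 64 * c * ((1 + a) * (1 + b)) := mul_le_mul_of_nonneg_right e3 (by positivity)

lemma threeG_e {x y w : ℂ} (hx : x ∈ DD) (hy : y ∈ DD) (hw : w ∈ DD) (hxw : w ≠ x)
    (hwy : w ≠ y) :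
    g0e x w * g0e w y ≤ 64 * g0e x y * ((1 + g0e x w) * (1 + g0e w y)) := by
  by_cases hxy : x = y
  · have : g0e x y = ⊤ := by simp [g0e, hxy]
    rw [this, ENNReal.mul_top (by norm_num), ENNReal.top_mul (by simp)]
    exact le_top
  · have n1 := g0_nonneg hx hw
    have n2 := g0_nonneg hw hy
    have n3 := g0_nonneg hx hy
    have h := ENNReal.ofReal_le_ofReal (threeG_pt hx hy hw hxw.symm hwy hxy)
    rw [ENNReal.ofReal_mul n1, ENNReal.ofReal_mul (by positivity),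
      ENNReal.ofReal_mul (by positivity), ENNReal.ofReal_mul (by positivity),
      ENNReal.ofReal_add (by norm_num) n1, ENNReal.ofReal_add (by norm_num) n2] at h
    simp only [g0e, if_neg hxy, if_neg hwy, if_neg hxw.symm]
    simpa using h

lemma measurable_g0 : Measurable fun p : ℂ × ℂ => g0 p.1 p.2 := by
  unfold g0
  have hc : Measurable fun p : ℂ × ℂ => conj p.2 :=
    Complex.continuous_conj.measurable.comp measurable_snd
  fun_prop

lemma measurable_g0e : Measurable fun p : ℂ × ℂ => g0e p.1 p.2 := by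
  unfold g0e
  exact Measurable.ite (measurableSet_eq_fun measurable_fst measurable_snd) measurable_const
    measurable_g0.ennreal_ofReal

end Vale.Agent.P071.Green
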