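import Vale.Agent.P071.HodgeAux

/-! The Hodge inequality for tangential fields on the disc. -/

open MeasureTheory Set Metric Filter Topology
open scoped ENNReal

namespace Vale.Agent.P071

namespace HodgeAux

lemma iadd {f g : ℂ → ℝ} (hf : IntegrableOn f DD) (hg : IntegrableOn g DD) :
    IntegrableOn (fun z => f z + g z) DD := hf.add hg

lemma isub {f g : ℂ → ℝ} (hf : IntegrableOn f DD) (hg : IntegrableOn g DD) :
    IntegrableOn (fun z => f z - g z) DD := hf.sub hg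

lemma np_mean {ρ : ℂ → ℝ} {μ : ℝ} (hρ : Wt ρ) (hNP : NP ρ μ) {a : ℂ → ℝ} (ha : Adm DD a) :
    ∃ c : ℝ, μ * ∫ z in DD, ρ z * (a z - c) ^ 2 ≤ ∫ z in DD, gdot a a z := by
  set m := ∫ z in DD, ρ z with hm
  set s := ∫ z in DD, ρ z * a z with hs
  have hb := bd_of_adm ha
  have i1 : IntegrableOn (fun z => ρ z * a z) DD := int_mul_bd hρ.int hb
  have i2 : IntegrableOn (fun z => ρ z * a z ^ 2) DD := by
    simpa only [sq] using int_mul_bd hρ.int (hb.mul hb)
  refine ⟨s / m, le_trans (le_of_eq ?_) (hNP a ha)⟩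
  congr 1
  have e : ∀ z, ρ z * (a z - s / m) ^ 2 =
      ρ z * a z ^ 2 - 2 * (s / m) * (ρ z * a z) + (s / m) ^ 2 * ρ z := fun z => by ring
  simp_rw [e]
  rw [integral_add (isub i2 (i1.const_mul _)) (hρ.int.const_mul _),
    integral_sub i2 (i1.const_mul _), integral_const_mul, integral_const_mul, ← hm, ← hs]
  by_cases h0 : m = 0
  · simp [h0]
  · field_simp; ring

lemma field_step (hS : DirSolv) {ρ p q : ℂ → ℝ} {μ : ℝ} (hμ : 0 < μ) (hρ : Wt ρ)
    (hp : L2 p) (hq : L2 q) (hpq : ∀ z ∈ DD, ρ z = p z ^ 2 + q z ^ 2)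
    (hNP : NP ρ μ) (hDP : ∀ ψ, Test DD ψ → 0 ≤ EE ρ μ ψ ψ)
    {P Q α κ : ℂ → ℝ} (hP : ContDiffOn ℝ oo P DD) (hQ : ContDiffOn ℝ oo Q DD)
    (hP2 : L2 P) (hQ2 : L2 Q) (hα : L2 α) (hκ : L2 κ)
    (hcurl : ∀ z ∈ DD, d1 Q z - d2 P z = p z * κ z - q z * α z)
    (htan : ∀ a, Adm DD a →
      ∫ z in DD, (P z * d1 a z + Q z * d2 a z) = -∫ z in DD, (p z * α z + q z * κ z) * a z)
    {δ : ℝ} (hδ : 0 < δ) :
    2 * μ * ∫ z in DD, chi δ z ^ 1 * (P z ^ 2 + Q z ^ 2) ≤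
      (∫ z in DD, (α z ^ 2 + κ z ^ 2)) + μ * ∫ z in DD, chi δ z ^ 2 * (P z ^ 2 + Q z ^ 2) := by
  have hF1 : Test DD fun z => chi δ z * P z := (chi_test hδ).mul_right isOpen_DD hP
  have hF2 : Test DD fun z => chi δ z * Q z := (chi_test hδ).mul_right isOpen_DD hQ
  set F1 : ℂ → ℝ := fun z => chi δ z * P z with hF1d
  set F2 : ℂ → ℝ := fun z => chi δ z * Q z with hF2d
  obtain ⟨ψ, C, hψ, hlap, hψ1, hψ2⟩ := hS _ ((hF2.dd 1).sub (hF1.dd Complex.I))
  have hV : Van ψ := ⟨hψ, C, hψ1, hψ2⟩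
  have hdψ : ∀ v, ContDiffOn ℝ oo (dd v ψ) DD := fun v => contDiffOn_dd isOpen_DD hψ oo_add_one
  obtain ⟨a0, ha0s, ha0, hd0⟩ := exists_primitive (P := fun z => F1 z - d2 ψ z)
    (Q := fun z => F2 z + d1 ψ z) (hF1.contDiffOn.sub (hdψ _)) (hF2.contDiffOn.add (hdψ _))
    ((bd_of_test hF1).sub hV.bd_d2) ((bd_of_test hF2).add hV.bd_d1) (fun z hz => by
      have := hlap z hz
      simp only [lap, d1_eq, d2_eq] at this ⊢
      rw [dd_sub (hF1.diffAt z) (diffAt (hdψ _) oo_ne_zero hz),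
        dd_add (hF2.diffAt z) (diffAt (hdψ _) oo_ne_zero hz)]
      linarith)
  obtain ⟨c, hc⟩ := np_mean hρ hNP ha0
  set a : ℂ → ℝ := fun z => a0 z - c with hadef
  have hda : ∀ v, ∀ z ∈ DD, dd v a z = dd v a0 z := fun v z hz => by
    rw [hadef, dd_sub (diffAt ha0s oo_ne_zero hz) (differentiableAt_const _), dd_const, sub_zero]
  have has : ContDiffOn ℝ oo a DD := ha0s.sub contDiffOn_const
  have ha : Adm DD a := adm_of (has.of_le one_le_oo) ((bd_of_adm ha0).sub (bd_const c))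
    (l2_congr (l2_d1 ha0) (hda 1)) (l2_congr (l2_d2 ha0) (hda Complex.I))
  have hd : ∀ z ∈ DD, F1 z = d1 a z + d2 ψ z ∧ F2 z = d2 a z - d1 ψ z := fun z hz => by
    have h1 := hda 1 z hz
    have h2 := hda Complex.I z hz
    obtain ⟨h3, h4⟩ := hd0 z hz
    rw [← d1_eq] at h1
    rw [← d2_eq] at h2
    constructor <;> linarith
  have hc' : μ * ∫ z in DD, ρ z * a z ^ 2 ≤ ∫ z in DD, gdot a a z := by
    refine hc.trans_eq (setIntegral_congr_fun measurableSet_DD fun z hz => ?_)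
    simp only [gdot, d1_eq, d2_eq, hda _ z hz]
  have la1 := l2_d1 ha
  have la2 := l2_d2 ha
  have lψ1 := hV.bd_d1.l2
  have lψ2 := hV.bd_d2.l2
  have hab := bd_of_adm ha
  have hdas : ∀ v, ContDiffOn ℝ 1 (dd v a) DD := fun v =>
    (contDiffOn_dd isOpen_DD has oo_add_one).of_le one_le_oo
  have hcomm : ∀ z ∈ DD, d1 (d2 a) z - d2 (d1 a) z = 0 := fun z hz => by
    simp only [d1_eq, d2_eq]
    rw [dd_comm ((has.of_le two_le_oo).contDiffAt (isOpen_DD.mem_nhds hz)), sub_self]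
  have r1 := hV.rot (hdas 1) (hdas Complex.I) (l2_int la1) (l2_int la2)
    ((integrableOn_congr_fun hcomm measurableSet_DD).2 integrableOn_zero)
  rw [setIntegral_congr_fun measurableSet_DD (g := fun _ => (0 : ℝ))
    (f := fun z => (d1 (dd Complex.I a) z - d2 (dd 1 a) z) * ψ z)
    (fun z hz => by have := hcomm z hz; rw [d2_eq, d1_eq] at this; simp only [d1_eq, d2_eq, this,
      zero_mul]), integral_zero, ← d1_eq, ← d2_eq] at r1
  have ic : IntegrableOn (fun z => p z * κ z - q z * α z) DD := (int_mul hp hκ).sub (int_mul hq hα)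
  have idv : IntegrableOn (fun z => p z * α z + q z * κ z) DD :=
    (int_mul hp hα).add (int_mul hq hκ)
  have r2 := hV.rot (hP.of_le one_le_oo) (hQ.of_le one_le_oo) (l2_int hP2) (l2_int hQ2)
    ((integrableOn_congr_fun hcurl measurableSet_DD).2 ic)
  rw [setIntegral_congr_fun measurableSet_DD (g := fun z => (p z * κ z - q z * α z) * ψ z)
    (f := fun z => (d1 Q z - d2 P z) * ψ z) (fun z hz => by simp only [hcurl z hz])] at r2
  have r3 := htan a ha
  have r4 := hV.dp hρ hDP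
  have iψ : IntegrableOn (gdot ψ ψ) DD := (int_mul lψ1 lψ1).add (int_mul lψ2 lψ2)
  have iρψ : IntegrableOn (fun z => ρ z * ψ z ^ 2) DD := by
    simpa only [sq] using int_mul_bd hρ.int (hV.bd.mul hV.bd)
  have iρa : IntegrableOn (fun z => ρ z * a z ^ 2) DD := by
    simpa only [sq] using int_mul_bd hρ.int (hab.mul hab)
  have r5 : μ * ∫ z in DD, ρ z * ψ z ^ 2 ≤ ∫ z in DD, gdot ψ ψ z := by
    have e : EE ρ μ ψ ψ = (∫ z in DD, gdot ψ ψ z) - μ * ∫ z in DD, ρ z * ψ z ^ 2 := by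
      rw [← integral_const_mul, ← integral_sub iψ (iρψ.const_mul _)]
      exact integral_congr_ae (Eventually.of_forall fun z => by ring)
    linarith
  have i1 : IntegrableOn (fun z => P z * d1 a z + Q z * d2 a z) DD :=
    (int_mul hP2 la1).add (int_mul hQ2 la2)
  have i2 : IntegrableOn (fun z => P z * d2 ψ z - Q z * d1 ψ z) DD :=
    (int_mul hP2 lψ2).sub (int_mul hQ2 lψ1)
  have i3 : IntegrableOn (fun z => d1 a z * d2 ψ z - d2 a z * d1 ψ z) DD :=
    (int_mul la1 lψ2).sub (int_mul la2 lψ1)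
  have e1 : ∫ z in DD, chi δ z ^ 1 * (P z ^ 2 + Q z ^ 2) =
      (∫ z in DD, (P z * d1 a z + Q z * d2 a z)) + ∫ z in DD, (P z * d2 ψ z - Q z * d1 ψ z) := by
    rw [← integral_add i1 i2]
    refine setIntegral_congr_fun measurableSet_DD fun z hz => ?_
    obtain ⟨h1, h2⟩ := hd z hz
    simp only [hF1d, hF2d] at h1 h2
    linear_combination P z * h1 + Q z * h2
  have e2 : ∫ z in DD, chi δ z ^ 2 * (P z ^ 2 + Q z ^ 2) =
      (∫ z in DD, gdot a a z) + (∫ z in DD, gdot ψ ψ z) +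
        2 * ∫ z in DD, (d1 a z * d2 ψ z - d2 a z * d1 ψ z) := by
    rw [← integral_const_mul, ← integral_add ha.2.2 iψ,
      ← integral_add (iadd ha.2.2 iψ) (i3.const_mul _)]
    refine setIntegral_congr_fun measurableSet_DD fun z hz => ?_
    obtain ⟨h1, h2⟩ := hd z hz
    simp only [hF1d, hF2d] at h1 h2
    have : chi δ z ^ 2 * (P z ^ 2 + Q z ^ 2) = (chi δ z * P z) ^ 2 + (chi δ z * Q z) ^ 2 := by ring
    simp only [gdot]
    rw [this, h1, h2]; ring
  have i4 := int_mul_bd idv hab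
  have i5 := int_mul_bd ic hV.bd
  have i6 : IntegrableOn (fun z => α z ^ 2 + κ z ^ 2) DD := (int_sq hα).add (int_sq hκ)
  have e3 : 2 * μ * ((∫ z in DD, (p z * κ z - q z * α z) * ψ z) -
      ∫ z in DD, (p z * α z + q z * κ z) * a z) ≤ (∫ z in DD, (α z ^ 2 + κ z ^ 2)) +
      μ ^ 2 * ((∫ z in DD, ρ z * a z ^ 2) + ∫ z in DD, ρ z * ψ z ^ 2) := by
    rw [← integral_sub i5 i4, ← integral_add iρa iρψ, ← integral_const_mul, ← integral_const_mul,
      ← integral_add i6 ((iadd iρa iρψ).const_mul _)]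
    refine setIntegral_mono_on ((isub i5 i4).const_mul _) (iadd i6 ((iadd iρa iρψ).const_mul _))
      measurableSet_DD fun z hz => ?_
    simp only [hpq z hz]
    nlinarith [sq_nonneg (α z + μ * (p z * a z + q z * ψ z)),
      sq_nonneg (κ z - μ * (p z * ψ z - q z * a z))]
  rw [e1, e2, r1, r2, r3]
  nlinarith

lemma field_ineq (hS : DirSolv) {ρ p q : ℂ → ℝ} {μ : ℝ} (hμ : 0 < μ) (hρ : Wt ρ)
    (hp : L2 p) (hq : L2 q) (hpq : ∀ z ∈ DD, ρ z = p z ^ 2 + q z ^ 2)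
    (hNP : NP ρ μ) (hDP : ∀ ψ, Test DD ψ → 0 ≤ EE ρ μ ψ ψ)
    {P Q α κ : ℂ → ℝ} (hP : ContDiffOn ℝ oo P DD) (hQ : ContDiffOn ℝ oo Q DD)
    (hP2 : L2 P) (hQ2 : L2 Q) (hα : L2 α) (hκ : L2 κ)
    (hcurl : ∀ z ∈ DD, d1 Q z - d2 P z = p z * κ z - q z * α z)
    (htan : ∀ a, Adm DD a →
      ∫ z in DD, (P z * d1 a z + Q z * d2 a z) = -∫ z in DD, (p z * α z + q z * κ z) * a z) :
    0 ≤ ∫ z in DD, (α z ^ 2 + κ z ^ 2 - μ * (P z ^ 2 + Q z ^ 2)) := by
  have i1 : IntegrableOn (fun z => P z ^ 2 + Q z ^ 2) DD := (int_sq hP2).add (int_sq hQ2)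
  have i6 : IntegrableOn (fun z => α z ^ 2 + κ z ^ 2) DD := (int_sq hα).add (int_sq hκ)
  have t1 := (tendsto_chi_mul i1 1).const_mul (2 * μ)
  have t2 := ((tendsto_chi_mul i1 2).const_mul μ).const_add (∫ z in DD, (α z ^ 2 + κ z ^ 2))
  have := le_of_tendsto_of_tendsto t1 t2 (by
    filter_upwards [self_mem_nhdsWithin] with δ hδ
    exact field_step hS hμ hρ hp hq hpq hNP hDP hP hQ hP2 hQ2 hα hκ hcurl htan hδ)
  rw [integral_sub i6 (i1.const_mul _), integral_const_mul]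
  linarith

lemma int_ee {ρ A R : ℂ → ℝ} {μ : ℝ} (hρ : Wt ρ) (hA : ContDiffOn ℝ oo A DD) (hR : Test DD R) :
    IntegrableOn (fun z => gdot A R z - μ * ρ z * A z * R z) DD :=
  (hR.integrableOn_gdot isOpen_DD (hA.of_le one_le_oo)).sub
    (hR.integrableOn_mul isOpen_DD
      ((continuousOn_const.mul hρ.smooth.continuousOn).mul hA.continuousOn))

lemma int_jac {A R : ℂ → ℝ} (hA : ContDiffOn ℝ oo A DD) (hR : Test DD R) :
    IntegrableOn (fun z => d1 A z * d2 R z - d2 A z * d1 R z) DD :=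
  ((hR.dd _).integrableOn_mul isOpen_DD (cont_dd (hA.of_le one_le_oo) _)).sub
    ((hR.dd _).integrableOn_mul isOpen_DD (cont_dd (hA.of_le one_le_oo) _))

/-- The bilinear integrand. -/
noncomputable def bil (ρ : ℂ → ℝ) (μ : ℝ) (A0 A1 R0 R1 : ℂ → ℝ) (z : ℂ) : ℝ :=
  (d1 A0 z + d2 A1 z) * (d1 R0 z + d2 R1 z) + (d1 A1 z - d2 A0 z) * (d1 R1 z - d2 R0 z) -
    μ * ρ z * (A0 z * R0 z + A1 z * R1 z)

lemma bil_test {ρ A0 A1 R0 R1 : ℂ → ℝ} {μ : ℝ} (hρ : Wt ρ) (h0 : ContDiffOn ℝ oo A0 DD)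
    (h1 : ContDiffOn ℝ oo A1 DD) (r0 : Test DD R0) (r1 : Test DD R1) :
    IntegrableOn (bil ρ μ A0 A1 R0 R1) DD ∧
      ∫ z in DD, bil ρ μ A0 A1 R0 R1 z = EE ρ μ A0 R0 + EE ρ μ A1 R1 := by
  have e : bil ρ μ A0 A1 R0 R1 = fun z => ((gdot A0 R0 z - μ * ρ z * A0 z * R0 z) +
      (gdot A1 R1 z - μ * ρ z * A1 z * R1 z)) + ((d1 A0 z * d2 R1 z - d2 A0 z * d1 R1 z) -
        (d1 A1 z * d2 R0 z - d2 A1 z * d1 R0 z)) := by
    funext z; simp only [bil, gdot]; ring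
  have i1 := int_ee (μ := μ) hρ h0 r0
  have i2 := int_ee (μ := μ) hρ h1 r1
  have i3 := int_jac h0 r1
  have i4 := int_jac h1 r0
  rw [e]
  refine ⟨(i1.add i2).add (i3.sub i4), ?_⟩
  beta_reduce
  rw [integral_add (iadd i1 i2) (isub i3 i4), integral_add i1 i2, integral_sub i3 i4, jac_zero h0 r1,
    jac_zero h1 r0, sub_self, add_zero]
  rfl

end HodgeAux

open HodgeAux

theorem hodge (hS : DirSolv) {ρ p q U : ℂ → ℝ} {w : Fin 2 → ℂ → ℝ} {μ : ℝ} (hμ : 0 < μ)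
    (hρ : Wt ρ) (hp : ContDiffOn ℝ oo p DD) (hq : ContDiffOn ℝ oo q DD)
    (hpq : ∀ z ∈ DD, ρ z = p z ^ 2 + q z ^ 2)
    (hcr : ∀ z ∈ DD, d1 p z = d2 q z ∧ d2 p z = -d1 q z)
    (hU : ContDiffOn ℝ oo U DD) (hUa : Adm DD U) (hw : ∀ i, ContDiffOn ℝ oo (w i) DD)
    (hw2 : ∀ i, IntegrableOn (fun z => w i z ^ 2) DD)
    (hd : ∀ z ∈ DD, d1 U z = w 0 z * p z + w 1 z * q z ∧ d2 U z = w 1 z * p z - w 0 z * q z)
    (hlap : ∀ z ∈ DD, lap U z = -μ * ρ z * U z)
    (hWE : ∀ a, Adm DD a → ∫ z in DD, gdot U a z = μ * ∫ z in DD, ρ z * U z * a z)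
    (hNP : NP ρ μ) (hDP : ∀ ψ, Test DD ψ → 0 ≤ EE ρ μ ψ ψ) : Hodge ρ μ w := by
  intro β hβ R hR
  have lp : L2 p := l2_of_sq_le hp.continuousOn hρ.int fun z hz => by
    rw [hpq z hz]; nlinarith [sq_nonneg (q z)]
  have lq : L2 q := l2_of_sq_le hq.continuousOn hρ.int fun z hz => by
    rw [hpq z hz]; nlinarith [sq_nonneg (p z)]
  have lw : ∀ i, L2 (w i) := fun i => l2_of_sq_le (hw i).continuousOn (hw2 i) fun _ _ => le_rfl
  have bβ : Bd β := bd_of_continuous hβ.continuous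
  have bβ1 : Bd (d1 β) := bd_dd hβ 1
  have bβ2 : Bd (d2 β) := bd_dd hβ Complex.I
  have bU : Bd U := bd_of_adm hUa
  have aβ : Adm DD β := adm_of_contDiff hβ
  have dβ : ∀ z, DifferentiableAt ℝ β z := fun z => hβ.differentiable oo_ne_zero z
  -- divergence and curl of a rotated field
  have hdc : ∀ {Z0 Z1 : ℂ → ℝ}, ContDiffOn ℝ oo Z0 DD → ContDiffOn ℝ oo Z1 DD → ∀ z ∈ DD,
      d1 (fun z => Z0 z * p z + Z1 z * q z) z + d2 (fun z => Z1 z * p z - Z0 z * q z) z =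
        p z * (d1 Z0 z + d2 Z1 z) + q z * (d1 Z1 z - d2 Z0 z) ∧
      d1 (fun z => Z1 z * p z - Z0 z * q z) z - d2 (fun z => Z0 z * p z + Z1 z * q z) z =
        p z * (d1 Z1 z - d2 Z0 z) - q z * (d1 Z0 z + d2 Z1 z) := by
    intro Z0 Z1 h0 h1 z hz
    have a0 := diffAt h0 oo_ne_zero hz
    have a1 := diffAt h1 oo_ne_zero hz
    have ap := diffAt hp oo_ne_zero hz
    have aq := diffAt hq oo_ne_zero hz
    obtain ⟨c1, c2⟩ := hcr z hz
    simp only [d1_eq, d2_eq] at c1 c2 ⊢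
    simp only [dd_add (a0.fun_mul ap) (a1.fun_mul aq), dd_sub (a1.fun_mul ap) (a0.fun_mul aq),
      dd_mul a0 ap, dd_mul a1 aq, dd_mul a1 ap, dd_mul a0 aq, c1, c2]
    constructor <;> ring
  have hw' : ∀ z ∈ DD, d1 (w 0) z + d2 (w 1) z = -μ * p z * U z ∧
      d1 (w 1) z - d2 (w 0) z = -μ * q z * U z := by
    intro z hz
    obtain ⟨h1, h2⟩ := hdc (hw 0) (hw 1) z hz
    have e1 : d1 U =ᶠ[𝓝 z] fun z => w 0 z * p z + w 1 z * q z := by
      filter_upwards [isOpen_DD.mem_nhds hz] with x hx using (hd x hx).1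
    have e2 : d2 U =ᶠ[𝓝 z] fun z => w 1 z * p z - w 0 z * q z := by
      filter_upwards [isOpen_DD.mem_nhds hz] with x hx using (hd x hx).2
    have h3 := hlap z hz
    have h4 := dd_comm (v := 1) (v' := Complex.I)
      ((hU.of_le two_le_oo).contDiffAt (isOpen_DD.mem_nhds hz))
    simp only [lap, d1_eq, d2_eq] at h1 h2 h3 e1 e2 ⊢
    rw [← dd_congr e1, ← dd_congr e2] at h1 h2
    have hρz := hρ.pos z hz
    have h5 := hpq z hz
    constructor
    · refine mul_left_cancel₀ hρz.ne' ?_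
      rw [h5] at h3 ⊢
      linear_combination p z * (h3 - h1) + q z * (h2 - h4)
    · refine mul_left_cancel₀ hρz.ne' ?_
      rw [h5] at h3 ⊢
      linear_combination q z * (h3 - h1) - p z * (h2 - h4)
  set A : Fin 2 → ℂ → ℝ := fun i z => β z * w i z with hA
  have sA : ∀ i, ContDiffOn ℝ oo (A i) DD := fun i => hβ.contDiffOn.mul (hw i)
  have hA' : ∀ z ∈ DD,
      d1 (A 0) z + d2 (A 1) z = d1 β z * w 0 z + d2 β z * w 1 z - μ * (β z * U z * p z) ∧
      d1 (A 1) z - d2 (A 0) z = d1 β z * w 1 z - d2 β z * w 0 z - μ * (β z * U z * q z) := by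
    intro z hz
    obtain ⟨h1, h2⟩ := hw' z hz
    simp only [hA, d1_eq, d2_eq, dd_mul (dβ z) (diffAt (hw _) oo_ne_zero hz)] at h1 h2 ⊢
    constructor
    · linear_combination β z * h1
    · linear_combination β z * h2
  have lαA : L2 fun z => d1 (A 0) z + d2 (A 1) z :=
    l2_congr (((bβ1.mul_l2 (lw 0)).add (bβ2.mul_l2 (lw 1))).sub
      (((bβ.mul bU).mul_l2 lp).const_mul μ)) fun z hz => (hA' z hz).1
  have lκA : L2 fun z => d1 (A 1) z - d2 (A 0) z :=
    l2_congr (((bβ1.mul_l2 (lw 1)).sub (bβ2.mul_l2 (lw 0))).sub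
      (((bβ.mul bU).mul_l2 lq).const_mul μ)) fun z hz => (hA' z hz).2
  set Z : Fin 2 → ℂ → ℝ := fun i z => A i z + R i z with hZ
  have sZ : ∀ i, ContDiffOn ℝ oo (Z i) DD := fun i => (sA i).add (hR i).contDiffOn
  have dZ : ∀ i v, ∀ z ∈ DD, dd v (Z i) z = dd v (A i) z + dd v (R i) z := fun i v z hz =>
    dd_add (diffAt (sA i) oo_ne_zero hz) ((hR i).diffAt z)
  have tα : Test DD fun z => d1 (R 0) z + d2 (R 1) z := ((hR 0).dd _).add ((hR 1).dd _)
  have tκ : Test DD fun z => d1 (R 1) z - d2 (R 0) z := ((hR 1).dd _).sub ((hR 0).dd _)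
  have tP : Test DD fun z => R 0 z * p z + R 1 z * q z :=
    ((hR 0).mul_right isOpen_DD hp).add ((hR 1).mul_right isOpen_DD hq)
  have tQ : Test DD fun z => R 1 z * p z - R 0 z * q z :=
    ((hR 1).mul_right isOpen_DD hp).sub ((hR 0).mul_right isOpen_DD hq)
  have hαZ : ∀ z ∈ DD, d1 (Z 0) z + d2 (Z 1) z =
      (d1 (A 0) z + d2 (A 1) z) + (d1 (R 0) z + d2 (R 1) z) := fun z hz => by
    simp only [d1_eq, d2_eq, dZ _ _ z hz]; ring
  have hκZ : ∀ z ∈ DD, d1 (Z 1) z - d2 (Z 0) z =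
      (d1 (A 1) z - d2 (A 0) z) + (d1 (R 1) z - d2 (R 0) z) := fun z hz => by
    simp only [d1_eq, d2_eq, dZ _ _ z hz]; ring
  have hPZ : ∀ z ∈ DD, Z 0 z * p z + Z 1 z * q z =
      β z * d1 U z + (R 0 z * p z + R 1 z * q z) := fun z hz => by
    simp only [hZ, hA, (hd z hz).1]; ring
  have hQZ : ∀ z ∈ DD, Z 1 z * p z - Z 0 z * q z =
      β z * d2 U z + (R 1 z * p z - R 0 z * q z) := fun z hz => by
    simp only [hZ, hA, (hd z hz).2]; ring
  have lU1 := l2_d1 hUa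
  have lU2 := l2_d2 hUa
  have key := field_ineq hS hμ hρ lp lq hpq hNP hDP
    (P := fun z => Z 0 z * p z + Z 1 z * q z) (Q := fun z => Z 1 z * p z - Z 0 z * q z)
    (α := fun z => d1 (Z 0) z + d2 (Z 1) z) (κ := fun z => d1 (Z 1) z - d2 (Z 0) z)
    (((sZ 0).mul hp).add ((sZ 1).mul hq)) (((sZ 1).mul hp).sub ((sZ 0).mul hq))
    (l2_congr ((bβ.mul_l2 lU1).add (bd_of_test tP).l2) hPZ)
    (l2_congr ((bβ.mul_l2 lU2).add (bd_of_test tQ).l2) hQZ)
    (l2_congr (lαA.add (bd_of_test tα).l2) hαZ) (l2_congr (lκA.add (bd_of_test tκ).l2) hκZ)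
    (fun z hz => (hdc (sZ 0) (sZ 1) z hz).2) (fun a ha => by
      have ba := bd_of_adm ha
      have la1 := l2_d1 ha
      have la2 := l2_d2 ha
      have w1 := hWE _ (adm_mul aβ ha)
      have j1 := ibp isOpen_DD ha.1 tP 1
      have j2 := ibp isOpen_DD ha.1 tQ Complex.I
      have i1 := int_gdot hUa (adm_mul aβ ha)
      have i2 : IntegrableOn (fun z => ρ z * U z * (β z * a z)) DD :=
        int_mul_bd (int_mul_bd hρ.int bU) (bβ.mul ba)
      have i3 := (tP.dd 1).integrableOn_mul isOpen_DD ha.1.continuousOn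
      have i4 := (tQ.dd Complex.I).integrableOn_mul isOpen_DD ha.1.continuousOn
      have i5 := tP.integrableOn_mul isOpen_DD (cont_dd ha.1 1)
      have i6 := tQ.integrableOn_mul isOpen_DD (cont_dd ha.1 Complex.I)
      have i7 : IntegrableOn (fun z => gdot U β z * a z) DD := int_mul_bd (int_gdot hUa aβ) ba
      have e1 : ∫ z in DD, ((Z 0 z * p z + Z 1 z * q z) * d1 a z +
          (Z 1 z * p z - Z 0 z * q z) * d2 a z) =
          (∫ z in DD, gdot U (fun z => β z * a z) z) - (∫ z in DD, gdot U β z * a z) +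
            (∫ z in DD, dd 1 a z * (R 0 z * p z + R 1 z * q z)) +
            ∫ z in DD, dd Complex.I a z * (R 1 z * p z - R 0 z * q z) := by
        rw [← integral_sub i1 i7, ← integral_add (isub i1 i7) i5,
          ← integral_add (iadd (isub i1 i7) i5) i6]
        refine setIntegral_congr_fun measurableSet_DD fun z hz => ?_
        simp only [hPZ z hz, hQZ z hz, gdot, d1_eq, d2_eq,
          dd_mul (dβ z) (diffAt ha.1 one_ne_zero hz)]
        ring
      have e2 : ∫ z in DD, (p z * (d1 (Z 0) z + d2 (Z 1) z) + q z * (d1 (Z 1) z - d2 (Z 0) z)) *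
          a z = (∫ z in DD, gdot U β z * a z) - μ * (∫ z in DD, ρ z * U z * (β z * a z)) +
            (∫ z in DD, a z * dd 1 (fun z => R 0 z * p z + R 1 z * q z) z) +
            ∫ z in DD, a z * dd Complex.I (fun z => R 1 z * p z - R 0 z * q z) z := by
        rw [← integral_const_mul, ← integral_sub i7 (i2.const_mul μ),
          ← integral_add (isub i7 (i2.const_mul μ)) i3,
          ← integral_add (iadd (isub i7 (i2.const_mul μ)) i3) i4]
        refine setIntegral_congr_fun measurableSet_DD fun z hz => ?_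
        have h1 := (hdc (hR 0).contDiffOn (hR 1).contDiffOn z hz).1
        simp only [hαZ z hz, hκZ z hz, (hA' z hz).1, (hA' z hz).2,
          gdot, (hd z hz).1, (hd z hz).2, hpq z hz]
        simp only [d1_eq, d2_eq] at h1 ⊢
        linear_combination (-a z) * h1
      rw [e1, e2, w1, j1, j2]
      ring)
  obtain ⟨iAR, eAR⟩ := bil_test (μ := μ) hρ (sA 0) (sA 1) (hR 0) (hR 1)
  obtain ⟨iRR, eRR⟩ := bil_test (μ := μ) hρ (hR 0).contDiffOn (hR 1).contDiffOn (hR 0) (hR 1)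
  have aβU : Adm DD fun z => β z * (β z * U z) := adm_mul aβ (adm_mul aβ hUa)
  have w2 := hWE _ aβU
  have k1 := int_gdot hUa aβU
  have k2 : IntegrableOn (fun z => ρ z * U z * (β z * (β z * U z))) DD :=
    int_mul_bd (int_mul_bd hρ.int bU) (bβ.mul (bβ.mul bU))
  have bg : Bd (gdot β β) := (bβ1.mul bβ1).add (bβ2.mul bβ2)
  have k3 : ∀ i, IntegrableOn (fun z => gdot β β z * w i z ^ 2) DD := fun i => by
    simpa only [mul_comm] using int_mul_bd (hw2 i) bg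
  have fin : ∫ z in DD, ((d1 (Z 0) z + d2 (Z 1) z) ^ 2 + (d1 (Z 1) z - d2 (Z 0) z) ^ 2 -
      μ * ((Z 0 z * p z + Z 1 z * q z) ^ 2 + (Z 1 z * p z - Z 0 z * q z) ^ 2)) =
      (∫ z in DD, gdot β β z * w 0 z ^ 2) + (∫ z in DD, gdot β β z * w 1 z ^ 2) -
        μ * (∫ z in DD, gdot U (fun z => β z * (β z * U z)) z) +
        μ ^ 2 * (∫ z in DD, ρ z * U z * (β z * (β z * U z))) +
        2 * (∫ z in DD, bil ρ μ (A 0) (A 1) (R 0) (R 1) z) +
        ∫ z in DD, bil ρ μ (R 0) (R 1) (R 0) (R 1) z := by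
    have m1 := iadd (k3 0) (k3 1)
    have m2 := isub m1 (k1.const_mul μ)
    have m3 := iadd m2 (k2.const_mul (μ ^ 2))
    have m4 := iadd m3 (iAR.const_mul 2)
    rw [← integral_const_mul, ← integral_const_mul, ← integral_const_mul,
      ← integral_add (k3 0) (k3 1), ← integral_sub m1 (k1.const_mul μ),
      ← integral_add m2 (k2.const_mul _), ← integral_add m3 (iAR.const_mul 2),
      ← integral_add m4 iRR]
    refine setIntegral_congr_fun measurableSet_DD fun z hz => ?_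
    have dU := diffAt hU oo_ne_zero hz
    have g1 : gdot U (fun z => β z * (β z * U z)) z =
        2 * β z * U z * (d1 U z * d1 β z + d2 U z * d2 β z) +
          β z ^ 2 * (d1 U z ^ 2 + d2 U z ^ 2) := by
      simp only [gdot, d1_eq, d2_eq, dd_mul (dβ z) ((dβ z).fun_mul dU), dd_mul (dβ z) dU]
      ring
    simp only [hαZ z hz, hκZ z hz, bil, (hA' z hz).1, (hA' z hz).2,
      g1, (hd z hz).1, (hd z hz).2, hpq z hz]
    simp only [hZ, hA, gdot]
    ring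
  rw [fin, eAR, eRR, w2] at key
  rw [Fin.sum_univ_two]
  linarith

end Vale.Agent.P071
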