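import Vale.Agent.P071.Disc

/-! Tools for the Hodge inequality: square integrable and bounded functions on the disc,
primitives of closed fields, and cutting off functions vanishing at the boundary. -/

open MeasureTheory Set Metric Filter Topology
open scoped ENNReal

namespace Vale.Agent.P071.HodgeAux

/-- Square integrable on the disc. -/
abbrev L2 (f : ℂ → ℝ) : Prop := MemLp f 2 (volume.restrict DD)

/-- Bounded and continuous on the disc. -/
def Bd (f : ℂ → ℝ) : Prop := ContinuousOn f DD ∧ ∃ C, ∀ z ∈ DD, |f z| ≤ C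

variable {f g : ℂ → ℝ}

lemma aesm (h : ContinuousOn f DD) : AEStronglyMeasurable f (volume.restrict DD) :=
  h.aestronglyMeasurable measurableSet_DD

lemma Bd.l2 (h : Bd f) : L2 f := by
  obtain ⟨C, hC⟩ := h.2
  exact MemLp.of_bound (aesm h.1) C (ae_restrict_of_forall_mem measurableSet_DD hC)

lemma Bd.mul_l2 (h : Bd f) (hg : L2 g) : L2 fun z => f z * g z := by
  obtain ⟨C, hC⟩ := h.2
  refine hg.of_le_mul (c := C) ((aesm h.1).mul hg.1)
    (ae_restrict_of_forall_mem measurableSet_DD fun z hz => ?_)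
  rw [norm_mul]
  exact mul_le_mul_of_nonneg_right (hC z hz) (norm_nonneg _)

lemma l2_mul_bd (hf : L2 f) (h : Bd g) : L2 fun z => f z * g z := by
  simpa only [mul_comm] using h.mul_l2 hf

lemma Bd.mul (h : Bd f) (h' : Bd g) : Bd fun z => f z * g z := by
  obtain ⟨C, hC⟩ := h.2
  obtain ⟨C', hC'⟩ := h'.2
  refine ⟨h.1.mul h'.1, C * C', fun z hz => ?_⟩
  rw [abs_mul]
  exact mul_le_mul (hC z hz) (hC' z hz) (abs_nonneg _) ((abs_nonneg _).trans (hC z hz))

lemma Bd.add (h : Bd f) (h' : Bd g) : Bd fun z => f z + g z := by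
  obtain ⟨C, hC⟩ := h.2
  obtain ⟨C', hC'⟩ := h'.2
  exact ⟨h.1.add h'.1, C + C', fun z hz => (abs_add_le _ _).trans (add_le_add (hC z hz) (hC' z hz))⟩

lemma Bd.sub (h : Bd f) (h' : Bd g) : Bd fun z => f z - g z := by
  obtain ⟨C, hC⟩ := h.2
  obtain ⟨C', hC'⟩ := h'.2
  exact ⟨h.1.sub h'.1, C + C', fun z hz => (abs_sub _ _).trans (add_le_add (hC z hz) (hC' z hz))⟩

lemma bd_const (c : ℝ) : Bd fun _ => c := ⟨continuousOn_const, |c|, fun _ _ => le_rfl⟩

lemma bd_of_continuous (h : Continuous f) : Bd f := by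
  obtain ⟨C, hC⟩ := (isCompact_closedBall (0 : ℂ) 1).exists_bound_of_continuousOn h.continuousOn
  exact ⟨h.continuousOn, C, fun z hz => hC z (ball_subset_closedBall hz)⟩

lemma bd_of_test (h : Test DD f) : Bd f := bd_of_continuous h.continuous

lemma bd_of_adm (h : Adm DD f) : Bd f := ⟨h.1.continuousOn, h.2.1⟩

lemma int_mul (hf : L2 f) (hg : L2 g) : IntegrableOn (fun z => f z * g z) DD :=
  hf.integrable_mul hg

lemma int_sq (hf : L2 f) : IntegrableOn (fun z => f z ^ 2) DD := by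
  simpa only [sq] using int_mul hf hf

lemma l2_int (hf : L2 f) : IntegrableOn f DD := hf.integrable one_le_two

lemma int_mul_bd (hf : IntegrableOn f DD) (h : Bd g) : IntegrableOn (fun z => f z * g z) DD := by
  obtain ⟨C, hC⟩ := h.2
  exact Integrable.mul_bdd hf (aesm h.1) (ae_restrict_of_forall_mem measurableSet_DD hC)

lemma l2_of_sq_le (h : ContinuousOn f DD) (hg : IntegrableOn g DD) (hle : ∀ z ∈ DD, f z ^ 2 ≤ g z) :
    L2 f := by
  rw [L2, memLp_two_iff_integrable_sq (aesm h)]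
  refine Integrable.mono' hg (aesm (h.pow 2))
    (ae_restrict_of_forall_mem measurableSet_DD fun z hz => ?_)
  rw [Real.norm_of_nonneg (sq_nonneg _)]
  exact hle z hz

lemma cont_dd (h : ContDiffOn ℝ 1 f DD) (v : ℂ) : ContinuousOn (dd v f) DD :=
  (contDiffOn_dd (m := 0) isOpen_DD h (by simp)).continuousOn

lemma l2_d1 (h : Adm DD f) : L2 (d1 f) :=
  l2_of_sq_le (cont_dd h.1 1) h.2.2 fun z _ => by
    unfold gdot; nlinarith [mul_self_nonneg (d2 f z)]

lemma l2_d2 (h : Adm DD f) : L2 (d2 f) :=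
  l2_of_sq_le (cont_dd h.1 Complex.I) h.2.2 fun z _ => by
    unfold gdot; nlinarith [mul_self_nonneg (d1 f z)]

lemma adm_of (h : ContDiffOn ℝ 1 f DD) (hb : Bd f) (h1 : L2 (d1 f)) (h2 : L2 (d2 f)) : Adm DD f :=
  ⟨h, hb.2, (int_mul h1 h1).add (int_mul h2 h2)⟩

lemma int_gdot (h : Adm DD f) (h' : Adm DD g) : IntegrableOn (gdot f g) DD :=
  (int_mul (l2_d1 h) (l2_d1 h')).add (int_mul (l2_d2 h) (l2_d2 h'))

lemma diffAt {n : WithTop ℕ∞} (h : ContDiffOn ℝ n f DD) (hn : n ≠ 0) {z : ℂ} (hz : z ∈ DD) :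
    DifferentiableAt ℝ f z :=
  (h.contDiffAt (isOpen_DD.mem_nhds hz)).differentiableAt hn

lemma l2_congr (hf : L2 f) (h : ∀ z ∈ DD, g z = f z) : L2 g :=
  (memLp_congr_ae (ae_restrict_of_forall_mem measurableSet_DD h)).2 hf

lemma adm_mul (hf : Adm DD f) (hg : Adm DD g) : Adm DD fun z => f z * g z := by
  refine adm_of (hf.1.mul hg.1) ((bd_of_adm hf).mul (bd_of_adm hg)) ?_ ?_
  · refine l2_congr ((l2_mul_bd (l2_d1 hf) (bd_of_adm hg)).add
      ((bd_of_adm hf).mul_l2 (l2_d1 hg))) fun z hz => ?_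
    exact dd_mul (diffAt hf.1 one_ne_zero hz) (diffAt hg.1 one_ne_zero hz)
  · refine l2_congr ((l2_mul_bd (l2_d2 hf) (bd_of_adm hg)).add
      ((bd_of_adm hf).mul_l2 (l2_d2 hg))) fun z hz => ?_
    exact dd_mul (diffAt hf.1 one_ne_zero hz) (diffAt hg.1 one_ne_zero hz)

lemma bd_dd (h : ContDiff ℝ oo f) (v : ℂ) : Bd (dd v f) :=
  bd_of_continuous (contDiff_dd h oo_add_one).continuous

lemma adm_of_contDiff (h : ContDiff ℝ oo f) : Adm DD f :=
  adm_of (h.of_le one_le_oo).contDiffOn (bd_of_continuous h.continuous) (bd_dd h 1).l2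
    (bd_dd h Complex.I).l2

lemma dd_eq_comb (a : ℂ → ℝ) (v z : ℂ) : dd v a z = v.re * d1 a z + v.im * d2 a z := by
  have : v = v.re • (1 : ℂ) + v.im • Complex.I := by
    apply Complex.ext <;> simp
  unfold dd d1 d2
  conv_lhs => rw [this]
  rw [map_add, map_smul, map_smul, smul_eq_mul, smul_eq_mul]

/-- A bounded closed smooth field on the disc is the gradient of an admissible function. -/
lemma exists_primitive {P Q : ℂ → ℝ} (hP : ContDiffOn ℝ oo P DD) (hQ : ContDiffOn ℝ oo Q DD)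
    (hPb : Bd P) (hQb : Bd Q) (hcl : ∀ z ∈ DD, d2 P z = d1 Q z) :
    ∃ a : ℂ → ℝ, ContDiffOn ℝ oo a DD ∧ Adm DD a ∧ ∀ z ∈ DD, d1 a z = P z ∧ d2 a z = Q z := by
  set om : ℂ → ℂ →L[ℝ] ℝ := fun z => P z • Complex.reCLM + Q z • Complex.imCLM with hom
  have homs : ContDiffOn ℝ oo om DD := (hP.smul contDiffOn_const).add (hQ.smul contDiffOn_const)
  obtain ⟨a, ha⟩ := (convex_ball (0 : ℂ) 1).exists_forall_hasFDerivAt_of_fderiv_symmetric
    isOpen_DD (homs.differentiableOn oo_ne_zero) (fun z hz x y => by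
      have h1 := (diffAt hP oo_ne_zero hz).hasFDerivAt
      have h2 := (diffAt hQ oo_ne_zero hz).hasFDerivAt
      have h3 := ((h1.smul_const Complex.reCLM).add (h2.smul_const Complex.imCLM)).fderiv
      have h4 : fderiv ℝ om z = _ := h3
      have key : ∀ x y : ℂ, fderiv ℝ om z x y = dd x P z * y.re + dd x Q z * y.im := by
        intro x y
        rw [h4]; simp [dd]
      rw [key, key, dd_eq_comb P x, dd_eq_comb P y, dd_eq_comb Q x, dd_eq_comb Q y, hcl z hz]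
      ring)
  have hfd : ∀ z ∈ DD, fderiv ℝ a z = om z := fun z hz => (ha z hz).fderiv
  have hsm : ContDiffOn ℝ oo a DD :=
    (contDiffOn_infty_iff_fderiv_of_isOpen isOpen_DD).2
      ⟨fun z hz => (ha z hz).differentiableAt.differentiableWithinAt, homs.congr hfd⟩
  have hd : ∀ z ∈ DD, d1 a z = P z ∧ d2 a z = Q z := fun z hz => by
    simp [d1, d2, hfd z hz, hom]
  obtain ⟨C, hC⟩ := hPb.2
  obtain ⟨C', hC'⟩ := hQb.2
  have hnorm : ∀ z ∈ DD, ‖fderiv ℝ a z‖ ≤ C + C' := by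
    intro z hz
    rw [hfd z hz]
    refine (norm_add_le _ _).trans (add_le_add ?_ ?_)
    · rw [norm_smul, Complex.reCLM_norm, mul_one]; exact hC z hz
    · rw [norm_smul, Complex.imCLM_norm, mul_one]; exact hC' z hz
  have h0 : (0 : ℂ) ∈ DD := mem_ball_self one_pos
  have hC0 : 0 ≤ C + C' := (norm_nonneg _).trans (hnorm 0 h0)
  refine ⟨a, hsm, adm_of (hsm.of_le one_le_oo) ⟨hsm.continuousOn, |a 0| + (C + C'), fun z hz => ?_⟩
    (l2_congr hPb.l2 fun z hz => (hd z hz).1) (l2_congr hQb.l2 fun z hz => (hd z hz).2), hd⟩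
  have h1 := (convex_ball (0 : ℂ) 1).norm_image_sub_le_of_norm_fderiv_le
    (fun x hx => (ha x hx).differentiableAt) hnorm h0 hz
  rw [sub_zero, Real.norm_eq_abs] at h1
  have h2 := (mem_DD.1 hz).le
  have h3 := abs_sub_abs_le_abs_sub (a z) (a 0)
  nlinarith

/-- Functions vanishing at the boundary with bounded gradient. -/
def Van (ψ : ℂ → ℝ) : Prop :=
  ContDiffOn ℝ oo ψ DD ∧ ∃ C : ℝ, (∀ x ∈ DD, |ψ x| ≤ C * hh x) ∧ ∀ x ∈ DD, gdot ψ ψ x ≤ C

variable {ψ : ℂ → ℝ}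

lemma Van.bd (h : Van ψ) : Bd ψ := by
  obtain ⟨C, h1, h2⟩ := h.2
  refine ⟨h.1.continuousOn, C, fun z hz => (h1 z hz).trans ?_⟩
  have := gdot_self_nonneg.trans (h2 z hz)
  nlinarith [hh_le_one z]

lemma abs_d1_le (a : ℂ → ℝ) (z : ℂ) : |d1 a z| ≤ √(gdot a a z) :=
  Real.abs_le_sqrt (by unfold gdot; nlinarith [mul_self_nonneg (d2 a z)])

lemma abs_d2_le (a : ℂ → ℝ) (z : ℂ) : |d2 a z| ≤ √(gdot a a z) :=
  Real.abs_le_sqrt (by unfold gdot; nlinarith [mul_self_nonneg (d1 a z)])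

lemma Van.bd_d1 (h : Van ψ) : Bd (d1 ψ) := by
  obtain ⟨C, -, h2⟩ := h.2
  exact ⟨cont_dd (h.1.of_le one_le_oo) 1, √C, fun z hz =>
    (abs_d1_le ψ z).trans (Real.sqrt_le_sqrt (h2 z hz))⟩

lemma Van.bd_d2 (h : Van ψ) : Bd (d2 ψ) := by
  obtain ⟨C, -, h2⟩ := h.2
  exact ⟨cont_dd (h.1.of_le one_le_oo) Complex.I, √C, fun z hz =>
    (abs_d2_le ψ z).trans (Real.sqrt_le_sqrt (h2 z hz))⟩

lemma Van.cut_test (h : Van ψ) {ε : ℝ} (hε : 0 < ε) : Test DD fun z => chi ε z * ψ z :=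
  (chi_test hε).mul_right isOpen_DD h.1

lemma Van.cut_bound (h : Van ψ) : ∃ M : ℝ, ∀ ε, 0 < ε → ε ≤ 1 → ∀ z ∈ DD,
    |d1 (fun z => chi ε z * ψ z) z| ≤ M ∧ |d2 (fun z => chi ε z * ψ z) z| ≤ M := by
  obtain ⟨K, hK, hKb⟩ := chi_bounds
  obtain ⟨C, h1, h2⟩ := h.2
  have h0 : (0 : ℂ) ∈ DD := mem_ball_self one_pos
  have hC : 0 ≤ C := gdot_self_nonneg.trans (h2 0 h0)
  refine ⟨2 * K * C + √C, fun ε hε hε1 z hz => ?_⟩
  have key : ∀ v : ℂ, |dd v (chi ε) z| ≤ √(gdot (chi ε) (chi ε) z) →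
      |dd v ψ z| ≤ √(gdot ψ ψ z) → |dd v (fun z => chi ε z * ψ z) z| ≤ 2 * K * C + √C := by
    intro v a1 a2
    rw [dd_mul ((chi_test hε).diffAt z) (diffAt h.1 oo_ne_zero hz)]
    refine (abs_add_le _ _).trans (add_le_add ?_ ?_)
    · by_cases hs : z ∈ shell ε
      · have b1 : |dd v (chi ε) z| ≤ K / ε := by
          refine a1.trans (Real.sqrt_le_iff.2 ⟨by positivity, ?_⟩)
          rw [div_pow]; exact (hKb ε hε hε1 z).1
        have b2 : |ψ z| ≤ C * (2 * ε) := (h1 z hz).trans (mul_le_mul_of_nonneg_left hs.2 hC)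
        rw [abs_mul]
        refine (mul_le_mul b1 b2 (abs_nonneg _) (by positivity)).trans_eq ?_
        field_simp
      · rw [dd_chi_eq_zero hε hs, zero_mul, abs_zero]; positivity
    · rw [abs_mul]
      exact (mul_le_of_le_one_left (abs_nonneg _) (abs_chi_le ε z)).trans
        (a2.trans (Real.sqrt_le_sqrt (h2 z hz)))
  exact ⟨key 1 (abs_d1_le _ _) (abs_d1_le _ _), key Complex.I (abs_d2_le _ _) (abs_d2_le _ _)⟩

lemma cut_eventually (ψ : ℂ → ℝ) {z : ℂ} (hz : z ∈ DD) :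
    ∀ᶠ ε in 𝓝[>] (0 : ℝ), (fun z => chi ε z * ψ z) =ᶠ[𝓝 z] ψ := by
  have := hh_pos hz
  filter_upwards [Ioo_mem_nhdsGT (show (0 : ℝ) < hh z / 2 by positivity)] with ε hε
  have h2 : 2 * ε < hh z := by linarith [hε.2]
  filter_upwards [continuous_hh.continuousAt.eventually (lt_mem_nhds h2)] with x hx
  rw [chi_eq_one hε.1 hx.le, one_mul]

lemma tendsto_of_dom {F : ℝ → ℂ → ℝ} {G B : ℂ → ℝ} (hB : IntegrableOn B DD)
    (hm : ∀ ε, 0 < ε → AEStronglyMeasurable (F ε) (volume.restrict DD))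
    (hb : ∀ ε, 0 < ε → ε ≤ 1 → ∀ z ∈ DD, |F ε z| ≤ B z)
    (hl : ∀ z ∈ DD, ∀ᶠ ε in 𝓝[>] (0 : ℝ), F ε z = G z) :
    Tendsto (fun ε => ∫ z in DD, F ε z) (𝓝[>] 0) (𝓝 (∫ z in DD, G z)) := by
  refine tendsto_integral_filter_of_dominated_convergence B ?_ ?_ hB ?_
  · filter_upwards [self_mem_nhdsWithin] with ε hε using hm ε hε
  · filter_upwards [Ioc_mem_nhdsGT (show (0 : ℝ) < 1 from one_pos)] with ε hε
    exact ae_restrict_of_forall_mem measurableSet_DD (hb ε hε.1 hε.2)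
  · refine ae_restrict_of_forall_mem measurableSet_DD fun z hz => ?_
    refine tendsto_const_nhds.congr' ?_
    filter_upwards [hl z hz] with ε hε using hε.symm

/-- Integration by parts of a field against the rotated gradient. -/
lemma Van.rot (h : Van ψ) {P Q : ℂ → ℝ} (hP : ContDiffOn ℝ 1 P DD) (hQ : ContDiffOn ℝ 1 Q DD)
    (hPi : IntegrableOn P DD) (hQi : IntegrableOn Q DD)
    (hc : IntegrableOn (fun z => d1 Q z - d2 P z) DD) :
    ∫ z in DD, (P z * d2 ψ z - Q z * d1 ψ z) = ∫ z in DD, (d1 Q z - d2 P z) * ψ z := by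
  obtain ⟨M, hM⟩ := h.cut_bound
  have t1 : Tendsto (fun ε => ∫ z in DD, (P z * d2 (fun z => chi ε z * ψ z) z -
      Q z * d1 (fun z => chi ε z * ψ z) z)) (𝓝[>] 0)
      (𝓝 (∫ z in DD, (P z * d2 ψ z - Q z * d1 ψ z))) := by
    refine tendsto_of_dom (B := fun z => |P z| * M + |Q z| * M)
      ((hPi.abs.mul_const M).add (hQi.abs.mul_const M)) (fun ε hε => ?_) (fun ε hε hε1 z hz => ?_)
      fun z hz => ?_
    · exact (hPi.1.mul measurable_dd.aestronglyMeasurable).sub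
        (hQi.1.mul measurable_dd.aestronglyMeasurable)
    · refine (abs_sub _ _).trans (add_le_add ?_ ?_) <;> rw [abs_mul]
      · exact mul_le_mul_of_nonneg_left (hM ε hε hε1 z hz).2 (abs_nonneg _)
      · exact mul_le_mul_of_nonneg_left (hM ε hε hε1 z hz).1 (abs_nonneg _)
    · filter_upwards [cut_eventually ψ hz] with ε hε
      simp only [d1_eq, d2_eq, dd_congr hε]
  have t2 := tendsto_chi_mul (int_mul_bd hc h.bd) 1
  refine tendsto_nhds_unique t1 (t2.congr' ?_)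
  filter_upwards [self_mem_nhdsWithin] with ε hε
  have ht := h.cut_test hε
  have e1 := ibp isOpen_DD hP ht Complex.I
  have e2 := ibp isOpen_DD hQ ht 1
  simp only [d1_eq, d2_eq]
  rw [integral_sub ((ht.dd _).integrableOn_mul isOpen_DD hP.continuousOn)
    ((ht.dd _).integrableOn_mul isOpen_DD hQ.continuousOn), e1, e2, neg_sub_neg,
    ← integral_sub (ht.integrableOn_mul isOpen_DD (cont_dd hQ _))
      (ht.integrableOn_mul isOpen_DD (cont_dd hP _))]
  exact integral_congr_ae (Eventually.of_forall fun z => by ring)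

/-- The Dirichlet inequality extends to functions vanishing at the boundary. -/
lemma Van.dp (h : Van ψ) {ρ : ℂ → ℝ} {μ : ℝ} (hρ : Wt ρ)
    (hDP : ∀ ψ, Test DD ψ → 0 ≤ EE ρ μ ψ ψ) : 0 ≤ EE ρ μ ψ ψ := by
  obtain ⟨M, hM⟩ := h.cut_bound
  obtain ⟨C, hC⟩ := h.bd.2
  have t1 : Tendsto (fun ε => EE ρ μ (fun z => chi ε z * ψ z) fun z => chi ε z * ψ z) (𝓝[>] 0)
      (𝓝 (EE ρ μ ψ ψ)) := by
    refine tendsto_of_dom (B := fun z => M * M + M * M + |μ| * ρ z * C * C)
      ((integrable_const _).add (((hρ.int.const_mul _).mul_const _).mul_const _))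
      (fun ε hε => ?_) (fun ε hε hε1 z hz => ?_) fun z hz => ?_
    · have := aesm (h.cut_test hε).continuous.continuousOn
      exact measurable_gdot.aestronglyMeasurable.sub
        (((hρ.int.1.const_mul _).mul this).mul this)
    · obtain ⟨a1, a2⟩ := hM ε hε hε1 z hz
      have a3 : |chi ε z * ψ z| ≤ C := by
        rw [abs_mul]
        exact (mul_le_of_le_one_left (abs_nonneg _) (abs_chi_le ε z)).trans (hC z hz)
      have a4 := (hρ.pos z hz).le
      have hM0 : 0 ≤ M := (abs_nonneg _).trans a1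
      have hC0 : 0 ≤ C := (abs_nonneg _).trans a3
      refine (abs_sub _ _).trans (add_le_add ((abs_add_le _ _).trans (add_le_add ?_ ?_)) ?_)
      · rw [abs_mul]; gcongr
      · rw [abs_mul]; gcongr
      · rw [abs_mul (_ * _ * _), abs_mul (_ * _), abs_mul μ, abs_of_nonneg a4]; gcongr
    · filter_upwards [cut_eventually ψ hz] with ε hε
      rw [gdot_congr hε hε, hε.eq_of_nhds]
  refine ge_of_tendsto t1 ?_
  filter_upwards [self_mem_nhdsWithin] with ε hε using hDP _ (h.cut_test hε)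

/-- The Jacobian of a smooth function and a test function has integral zero. -/
lemma jac_zero {A R : ℂ → ℝ} (hA : ContDiffOn ℝ oo A DD) (hR : Test DD R) :
    ∫ z in DD, (d1 A z * d2 R z - d2 A z * d1 R z) = 0 := by
  have h1 : ∀ v, ContDiffOn ℝ 1 (dd v A) DD := fun v =>
    (contDiffOn_dd isOpen_DD hA oo_add_one).of_le one_le_oo
  simp only [d1_eq, d2_eq]
  rw [integral_sub ((hR.dd _).integrableOn_mul isOpen_DD (h1 _).continuousOn)
    ((hR.dd _).integrableOn_mul isOpen_DD (h1 _).continuousOn), ibp isOpen_DD (h1 _) hR,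
    ibp isOpen_DD (h1 _) hR, sub_eq_zero, neg_inj]
  refine setIntegral_congr_fun measurableSet_DD fun z hz => ?_
  rw [dd_comm ((hA.of_le two_le_oo).contDiffAt (isOpen_DD.mem_nhds hz))]

end Vale.Agent.P071.HodgeAux
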