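import Vale.Agent.P071.Patch

/-! Energy of a Neumann solution near a Lipschitz boundary. -/

open MeasureTheory Set Metric Filter Topology
open scoped ENNReal

namespace Vale.Agent.P071

namespace Neumann

open Patch

variable {χ : ℂ → ℝ} {n : ℂ} {L : ℝ}

theorem line_le (hc : Cut χ n L) {Ω : Set ℂ} (ho : IsOpen Ω) {u : ℂ → ℝ}
    (hu : ContDiffOn ℝ 1 u Ω) {h : ℝ} (hh : 0 ≤ h) {x : ℂ}
    (hup : ∀ τ ∈ Icc 0 h, TT χ n τ x ∈ Ω) :
    ‖u (TT χ n h x) - u x‖ₑ ≤ ∫⁻ τ in Icc 0 h, ‖fderiv ℝ u (TT χ n τ x) n‖ₑ := by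
  have hl : ContDiff ℝ 1 fun τ : ℝ => TT χ n τ x := by
    unfold TT
    fun_prop
  have h1 : ContDiffOn ℝ 1 (u ∘ fun τ : ℝ => TT χ n τ x) (Icc 0 h) :=
    hu.comp hl.contDiffOn hup
  have h2 := enorm_sub_le_lintegral_deriv_of_contDiffOn_Icc h1 hh
  have h0 : TT χ n 0 x = x := by simp [TT]
  simp only [Function.comp_apply, h0] at h2
  refine h2.trans (setLIntegral_mono' measurableSet_Icc fun τ hτ => ?_)
  have h3 : HasDerivAt (fun τ : ℝ => TT χ n τ x) (χ x • n) τ := by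
    have := (((hasDerivAt_id τ).mul_const (χ x)).smul_const n).const_add x
    simpa [TT] using this
  have h4 : DifferentiableAt ℝ u (TT χ n τ x) :=
    (hu.contDiffAt (ho.mem_nhds (hup τ hτ))).differentiableAt one_ne_zero
  rw [(h4.hasFDerivAt.comp_hasDerivAt τ h3).deriv, map_smul, enorm_smul]
  refine mul_le_of_le_one_left' ?_
  rw [Real.enorm_eq_ofReal (hc.nn x), ENNReal.ofReal_le_one]
  exact hc.le x

theorem l1_le (hc : Cut χ n L) {Ω : Set ℂ} (ho : IsOpen Ω) {u : ℂ → ℝ}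
    (hu : ContDiffOn ℝ 1 u Ω) {h : ℝ} (hh : 0 ≤ h) (hL : h * L ≤ 1 / 2)
    (hup : ∀ τ ∈ Icc 0 h, ∀ x ∈ Ω, TT χ n τ x ∈ Ω) :
    ∫⁻ x in Ω, ‖u (TT χ n h x) - u x‖ₑ ≤
      ENNReal.ofReal h * (2 * ∫⁻ x in Ω, ‖fderiv ℝ u x n‖ₑ) := by
  have hT : Continuous fun q : ℂ × ℝ => TT χ n q.2 q.1 := by
    have := hc.cd.continuous
    unfold TT
    fun_prop
  have hm : Measurable fun q : ℂ × ℝ => ‖fderiv ℝ u (TT χ n q.2 q.1) n‖ₑ :=
    ((measurable_fderiv_apply_const ℝ u n).comp hT.measurable).enorm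
  calc ∫⁻ x in Ω, ‖u (TT χ n h x) - u x‖ₑ
      ≤ ∫⁻ x in Ω, ∫⁻ τ in Icc 0 h, ‖fderiv ℝ u (TT χ n τ x) n‖ₑ :=
        setLIntegral_mono' ho.measurableSet fun x hx =>
          line_le hc ho hu hh fun τ hτ => hup τ hτ x hx
    _ = ∫⁻ τ in Icc 0 h, ∫⁻ x in Ω, ‖fderiv ℝ u (TT χ n τ x) n‖ₑ :=
        lintegral_lintegral_swap hm.aemeasurable
    _ ≤ ∫⁻ _ in Icc 0 h, 2 * ∫⁻ x in Ω, ‖fderiv ℝ u x n‖ₑ := by
        refine setLIntegral_mono' measurableSet_Icc fun τ hτ => ?_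
        refine hc.lintegral_comp ?_ ho.measurableSet (hup τ hτ) fun y => ‖fderiv ℝ u y n‖ₑ
        rw [abs_of_nonneg hτ.1]
        exact (mul_le_mul_of_nonneg_right hτ.2 hc.L_nonneg).trans hL
    _ = _ := by
        rw [setLIntegral_const, Real.volume_Icc, sub_zero, mul_comm]

theorem l1_real (hc : Cut χ n L) {Ω : Set ℂ} (ho : IsOpen Ω) (hb : Bornology.IsBounded Ω)
    {u : ℂ → ℝ} (hu : Adm Ω u) : ∃ J : ℝ, ∀ h, 0 ≤ h → h * L ≤ 1 / 2 →
      (∀ τ ∈ Icc 0 h, ∀ x ∈ Ω, TT χ n τ x ∈ Ω) → ∫ x in Ω, |u (TT χ n h x) - u x| ≤ J * h := by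
  have : IsFiniteMeasure (volume.restrict Ω) := isFiniteMeasure_restrict.mpr hb.measure_lt_top.ne
  have hi : IntegrableOn (fun x => fderiv ℝ u x n) Ω := by
    refine ((integrable_const (1 : ℝ)).add hu.2.2).mono'
      (measurable_fderiv_apply_const ℝ u n).aestronglyMeasurable (Eventually.of_forall fun x => ?_)
    have h1 := sq_apply_le u x hc.hn
    rw [Real.norm_eq_abs, Pi.add_apply]
    nlinarith [sq_abs (fderiv ℝ u x n), sq_nonneg (|fderiv ℝ u x n| - 1),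
      abs_nonneg (fderiv ℝ u x n)]
  have hfin : ∫⁻ x in Ω, ‖fderiv ℝ u x n‖ₑ ≠ ⊤ := hi.2.ne
  refine ⟨(2 * ∫⁻ x in Ω, ‖fderiv ℝ u x n‖ₑ).toReal, fun h hh hL hup => ?_⟩
  have h1 := l1_le hc ho hu.1 hh hL hup
  have hm : AEStronglyMeasurable (fun x => u (TT χ n h x) - u x) (volume.restrict Ω) := by
    refine ContinuousOn.aestronglyMeasurable ?_ ho.measurableSet
    exact (hu.1.continuousOn.comp (hc.contDiff h).continuous.continuousOn
      (hup h ⟨hh, le_rfl⟩)).sub hu.1.continuousOn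
  have h2 := integral_norm_eq_lintegral_enorm hm
  simp only [Real.norm_eq_abs] at h2
  rw [h2]
  refine (ENNReal.toReal_mono (ENNReal.mul_ne_top ENNReal.ofReal_ne_top
    (ENNReal.mul_ne_top ENNReal.ofNat_ne_top hfin)) h1).trans_eq ?_
  rw [ENNReal.toReal_mul, ENNReal.toReal_ofReal hh, mul_comm]

theorem adm_int {Ω : Set ℂ} (ho : IsOpen Ω) (hb : Bornology.IsBounded Ω) {a b : ℂ → ℝ}
    (ha : Adm Ω a) (hb' : Adm Ω b) : IntegrableOn (fun x => a x * b x) Ω := by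
  have : IsFiniteMeasure (volume.restrict Ω) := isFiniteMeasure_restrict.mpr hb.measure_lt_top.ne
  obtain ⟨A, hA⟩ := ha.2.1
  obtain ⟨B, hB⟩ := hb'.2.1
  refine (integrable_const (A * B)).mono'
    ((ha.1.continuousOn.mul hb'.1.continuousOn).aestronglyMeasurable ho.measurableSet) ?_
  filter_upwards [self_mem_ae_restrict ho.measurableSet] with x hx
  rw [Real.norm_eq_abs, abs_mul]
  exact mul_le_mul (hA x hx) (hB x hx) (abs_nonneg _) ((abs_nonneg _).trans (hA x hx))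

theorem adm_one (Ω : Set ℂ) : Adm Ω fun _ => 1 := by
  refine ⟨contDiffOn_const, ⟨1, by simp⟩, ?_⟩
  have : gdot (fun _ => 1) (fun _ => 1) = fun _ => 0 := by
    funext z
    simp [gdot, d1, d2]
  rw [this]
  exact integrableOn_zero

theorem pair_le {Ω : Set ℂ} {a b : ℂ → ℝ} (ha : IntegrableOn (gdot a a) Ω)
    (hb : IntegrableOn (gdot b b) Ω) :
    2 * ∫ x in Ω, gdot a b x ≤ (∫ x in Ω, gdot a a x) + ∫ x in Ω, gdot b b x := by
  have h1 : IntegrableOn (gdot a b) Ω := by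
    refine (ha.add hb).mono' (measurable_gdot a b).aestronglyMeasurable
      (Eventually.of_forall fun x => ?_)
    have := gdot_le a b x
    rw [Real.norm_eq_abs, Pi.add_apply]
    linarith [abs_nonneg (gdot a b x)]
  rw [← integral_const_mul, ← integral_add ha hb]
  refine integral_mono (h1.const_mul 2) (ha.add hb) fun x => ?_
  have := gdot_le a b x
  have h2 := le_abs_self (gdot a b x)
  simp only
  linarith

theorem diff_le {Ω : Set ℂ} (ho : IsOpen Ω) (hb : Bornology.IsBounded Ω) {u v : ℂ → ℝ}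
    (hu : Adm Ω u) (hv : Adm Ω v) {M : ℝ} (hM : ∀ z ∈ Ω, |u z| ≤ M) :
    |(∫ x in Ω, u x * u x) - ∫ x in Ω, u x * v x| ≤ M * ∫ x in Ω, |v x - u x| := by
  rw [← integral_sub (adm_int ho hb hu hu) (adm_int ho hb hu hv), ← integral_const_mul]
  refine abs_integral_le_integral_abs.trans ?_
  have h1 := adm_int ho hb hu (adm_one Ω)
  have h2 := adm_int ho hb hv (adm_one Ω)
  simp only [mul_one] at h1 h2
  refine setIntegral_mono_on ((adm_int ho hb hu hu).sub (adm_int ho hb hu hv)).abs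
    ((h2.sub h1).abs.const_mul M) ho.measurableSet fun x hx => ?_
  rw [← mul_sub, abs_mul, abs_sub_comm]
  exact mul_le_mul_of_nonneg_right (hM x hx) (abs_nonneg _)

theorem final_aux {E EA V P t μ a b D : ℝ} (hEA : 0 ≤ EA) (ht : 0 ≤ t)
    (h1 : V ≤ (1 + t) * (E - EA)) (h2 : 2 * P ≤ E + V) (h3 : E = μ * a) (h4 : P = μ * b)
    (h5 : |a - b| ≤ D) : EA ≤ t * E + 2 * (|μ| * D) := by
  have h6 : μ * (a - b) ≤ |μ| * D := by
    refine (le_abs_self _).trans ?_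
    rw [abs_mul]
    exact mul_le_mul_of_nonneg_left h5 (abs_nonneg _)
  nlinarith [mul_nonneg ht hEA]

end Neumann

open Patch Neumann in
theorem neumann_shell {Ω : Set ℂ} (ho : IsOpen Ω) (hb : Bornology.IsBounded Ω)
    (hL : IsLipschitzDomain Ω) {u : ℂ → ℝ} (hu : Adm Ω u) {μ : ℝ}
    (hWE : ∀ a, Adm Ω a → ∫ x in Ω, gdot u a x = μ * ∫ x in Ω, u x * a x) :
    ∃ C : ℝ, ∀ η > 0, ∫ x in Ω ∩ {x | dist' Ω x < η}, gdot u u x ≤ C * η := by
  refine cover hb (gdot_nonneg u) hu.2.2 fun p hp => ?_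
  obtain ⟨χ, n, L, ρ, c, h₀, hc, hρ, -, hc0, hh₀, hL', -, hup, -, hlay⟩ := patch ho hL hp one_pos
  obtain ⟨J, hJ⟩ := l1_real hc ho hb hu
  obtain ⟨M, hM⟩ := hu.2.1
  have hL0 := hc.L_nonneg
  refine ⟨ρ, hρ, h₀ / c, by positivity,
    12 * c * L * (∫ x in Ω, gdot u u x) + 2 * (|μ| * (|M| * (J * c))), fun η hη hηc => ?_⟩
  rw [le_div_iff₀ hc0, mul_comm] at hηc
  have hh : 0 ≤ c * η := by positivity
  have hhL : c * η * L ≤ 1 / 2 := (mul_le_mul_of_nonneg_right hηc hL0).trans hL'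
  have hhL' : |c * η| * L ≤ 1 / 2 := by rwa [abs_of_nonneg hh]
  set A := Ω ∩ {x | dist' Ω x < η} ∩ ball p ρ with hA
  have hAm : MeasurableSet A := ((ho.inter (isOpen_layer Ω η)).inter isOpen_ball).measurableSet
  have hAΩ : A ⊆ Ω := inter_subset_left.trans inter_subset_left
  have hmaps : MapsTo (TT χ n (c * η)) Ω Ω := hup _ ⟨hh, hηc⟩
  have hmaps' : MapsTo (TT χ n (c * η)) Ω (Ω \ A) := by
    refine fun x hx => ⟨hmaps hx, fun hxA => ?_⟩
    obtain ⟨-, y, hy, hyx⟩ := hlay η hη hηc _ hxA.2 hxA.1.2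
    exact hy (hc.injective hhL' hyx ▸ hx)
  obtain ⟨e1, e2⟩ := hc.energy hhL' ho.measurableSet hmaps'
    (fun x hx => (hu.1.contDiffAt (ho.mem_nhds (hmaps hx))).differentiableAt one_ne_zero)
    (hu.2.2.mono_set sdiff_subset)
  rw [setIntegral_sdiff hAm hu.2.2 hAΩ, abs_of_nonneg hh] at e2
  have hv : Adm Ω (u ∘ TT χ n (c * η)) :=
    ⟨hu.1.comp (hc.contDiff _).contDiffOn hmaps, ⟨M, fun z hz => hM _ (hmaps hz)⟩, e1⟩
  have e3 := pair_le hu.2.2 e1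
  have e4 := diff_le ho hb hu hv (fun z hz => (hM z hz).trans (le_abs_self M))
  have e5 := hJ (c * η) hh hhL fun τ hτ => hup τ ⟨hτ.1, hτ.2.trans hηc⟩
  have e6 := e4.trans (mul_le_mul_of_nonneg_left e5 (abs_nonneg M))
  refine (final_aux (integral_nonneg (gdot_nonneg u)) (by positivity) e2 e3 (hWE u hu)
    (hWE _ hv) e6).trans_eq ?_
  ring

end Vale.Agent.P071
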