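import Vale.Agent.P071.Disc

/-! The Poincaré inequality on bounded connected Lipschitz domains: `μ₁ > 0`. -/

open MeasureTheory Set Metric Filter Topology
open scoped ENNReal

namespace Vale.Agent.P071

namespace Poincare

/-- Lebesgue measure on the unit interval. -/
noncomputable abbrev mI : Measure ℝ := volume.restrict (Ioc (0 : ℝ) 1)

lemma shear {k : ℂ → ℝ} (hk : Integrable k) (e : ℂ) :
    Integrable (fun p : ℝ × ℂ => k (p.2 + p.1 • e)) (mI.prod volume) := by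
  have hm : MeasurePreserving (fun p : ℝ × ℂ => (id p.1, p.2 + p.1 • e)) (mI.prod volume)
      (mI.prod volume) :=
    (MeasurePreserving.id mI).skew_product (g := fun s y => y + s • e) (by fun_prop)
      (Eventually.of_forall fun s => map_add_right_eq_self volume (s • e))
  exact hm.integrable_comp_of_integrable (hk.comp_snd mI)

lemma jensen {k : ℝ → ℝ} (h1 : Integrable k mI) (h2 : Integrable (fun s => k s ^ 2) mI) :
    (∫ s, k s ∂mI) ^ 2 ≤ ∫ s, k s ^ 2 ∂mI := by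
  set D := ∫ s, k s ∂mI with hD
  have h3 : ∫ s, (2 * D * k s - D ^ 2) ∂mI ≤ ∫ s, k s ^ 2 ∂mI :=
    integral_mono ((h1.const_mul _).sub (integrable_const _)) h2 fun s => by
      nlinarith [sq_nonneg (k s - D)]
  rw [integral_sub (h1.const_mul _) (integrable_const _), integral_const_mul, integral_const,
    ← hD] at h3
  simp at h3
  nlinarith

lemma fderiv_dir (ψ : ℂ → ℝ) (z e : ℂ) :
    fderiv ℝ ψ z e = e.re * fderiv ℝ ψ z 1 + e.im * fderiv ℝ ψ z Complex.I := by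
  have : e = e.re • (1 : ℂ) + e.im • Complex.I := by
    apply Complex.ext <;> simp
  conv_lhs => rw [this]
  rw [map_add, map_smul, map_smul, smul_eq_mul, smul_eq_mul]

lemma ftc {ψ : ℂ → ℝ} (hψ : ContDiff ℝ oo ψ) (x e : ℂ) :
    ψ (x - e) - ψ x = -∫ s, fderiv ℝ ψ (x - s • e) e ∂mI := by
  have hd : ∀ s : ℝ, HasDerivAt (fun s : ℝ => ψ (x - s • e)) (-fderiv ℝ ψ (x - s • e) e) s := by
    intro s
    have h1 : HasDerivAt (fun s : ℝ => x - s • e) (-e) s := by
      simpa using ((hasDerivAt_id s).smul_const e).const_sub x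
    have h2 := (hψ.differentiable oo_ne_zero (x - s • e)).hasFDerivAt.comp_hasDerivAt s h1
    rw [map_neg] at h2
    exact h2
  have hc : Continuous fun s : ℝ => -fderiv ℝ ψ (x - s • e) e :=
    (((hψ.continuous_fderiv oo_ne_zero).comp (by fun_prop)).clm_apply continuous_const).neg
  have h := intervalIntegral.integral_eq_sub_of_hasDerivAt (a := 0) (b := 1) (fun s _ => hd s)
    (hc.intervalIntegrable 0 1)
  rw [intervalIntegral.integral_of_le zero_le_one, integral_neg] at h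
  simpa using h.symm

variable {Ω : Set ℂ} {v g₁ g₂ : ℂ → ℝ}

/-- The weak derivative identity in direction `e`. -/
lemma weak_dir (ho : IsOpen Ω) (hb : volume Ω ≠ ⊤) (h : IsH1 Ω v g₁ g₂) (e : ℂ) {ψ : ℂ → ℝ}
    (hψ : Test Ω ψ) : ∫ z, Ω.indicator v z * fderiv ℝ ψ z e =
      -∫ z, Ω.indicator (fun z => e.re * g₁ z + e.im * g₂ z) z * ψ z := by
  have : IsFiniteMeasure (volume.restrict Ω) := isFiniteMeasure_restrict.2 hb
  have hi : ∀ {a φ : ℂ → ℝ}, MemLp a 2 (volume.restrict Ω) → Test Ω φ →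
      Integrable (fun z => a z * φ z) (volume.restrict Ω) := fun ha hφ =>
    let ⟨C, hC⟩ := hφ.bdd
    (ha.integrable one_le_two).mul_bdd (c := C) hφ.continuous.aestronglyMeasurable
      (Eventually.of_forall hC)
  obtain ⟨h1, h2⟩ := h.2.2.2 ψ hψ.1 hψ.2.1 hψ.2.2
  have e1 : ∀ a φ : ℂ → ℝ, ∫ z, Ω.indicator a z * φ z = ∫ z in Ω, a z * φ z := by
    intro a φ
    rw [← integral_indicator ho.measurableSet]
    refine integral_congr_ae (Eventually.of_forall fun z => ?_)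
    by_cases hz : z ∈ Ω <;> simp [hz]
  rw [e1, e1]
  have e2 : ∀ z, v z * fderiv ℝ ψ z e =
      e.re * (v z * fderiv ℝ ψ z 1) + e.im * (v z * fderiv ℝ ψ z Complex.I) := fun z => by
    rw [fderiv_dir]; ring
  have e3 : ∀ z, (e.re * g₁ z + e.im * g₂ z) * ψ z =
      e.re * (g₁ z * ψ z) + e.im * (g₂ z * ψ z) := fun z => by ring
  simp only [e2, e3]
  have i1 : Integrable (fun z => v z * fderiv ℝ ψ z 1) (volume.restrict Ω) := hi h.1 (hψ.dd 1)
  have i2 : Integrable (fun z => v z * fderiv ℝ ψ z Complex.I) (volume.restrict Ω) :=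
    hi h.1 (hψ.dd Complex.I)
  rw [integral_add (i1.const_mul _) (i2.const_mul _),
    integral_add ((hi h.2.1 hψ).const_mul _) ((hi h.2.2.1 hψ).const_mul _)]
  simp only [integral_const_mul]
  rw [h1, h2]
  ring

/-- Weak fundamental theorem of calculus along segments. -/
lemma weak_ftc {V : Set ℂ} {v0 k : ℂ → ℝ} (hv0 : Integrable v0) (hk : Integrable k) (hV : IsOpen V)
    {e : ℂ} (hs : ∀ y ∈ V, ∀ s ∈ Icc (0 : ℝ) 1, y + s • e ∈ Ω)
    (hw : ∀ ψ, Test Ω ψ → ∫ z, v0 z * fderiv ℝ ψ z e = -∫ z, k z * ψ z) :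
    ∀ᵐ y, y ∈ V → v0 (y + e) - v0 y - ∫ s, k (y + s • e) ∂mI = 0 := by
  have hsh := shear hk e
  have hG : Integrable (fun y => ∫ s, k (y + s • e) ∂mI) := hsh.integral_prod_right
  have hve : Integrable fun y => v0 (y + e) := hv0.comp_add_right e
  refine hV.ae_eq_zero_of_integral_contDiff_smul_eq_zero
    (((hve.sub hv0).sub hG).locallyIntegrable.locallyIntegrableOn V) fun ψ h1 h2 h3 => ?_
  have hψ : Test V ψ := ⟨h1, h2, h3⟩
  obtain ⟨C, hC⟩ := hψ.bdd
  obtain ⟨C', hC'⟩ := (hψ.dd e).bdd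
  have hm := hψ.continuous.aestronglyMeasurable (μ := volume)
  have hi : ∀ {a : ℂ → ℝ}, Integrable a → Integrable fun z => ψ z * a z := fun ha =>
    ha.bdd_mul hm (Eventually.of_forall hC)
  have hψe : Continuous fun x => ψ (x - e) := hψ.continuous.comp (by fun_prop)
  -- shifted test functions
  have ht : ∀ s ∈ Ioc (0 : ℝ) 1, Test Ω fun x => ψ (x - s • e) := by
    intro s hs'
    refine ⟨h1.comp (contDiff_id.sub contDiff_const),
      h2.comp_homeomorph (Homeomorph.subRight (s • e)), fun x hx => ?_⟩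
    have hx' : x - s • e ∈ tsupport ψ :=
      (tsupport_comp_subset_preimage ψ (f := fun x : ℂ => x - s • e) (by fun_prop)) hx
    simpa using hs _ (h3 hx') s ⟨hs'.1.le, hs'.2⟩
  have e1 : ∫ y, ψ y * v0 (y + e) = ∫ x, v0 x * ψ (x - e) := by
    rw [← integral_add_right_eq_self (fun x => v0 x * ψ (x - e)) e]
    simp [mul_comm]
  have hI : Integrable (fun p : ℝ × ℂ => v0 p.2 * fderiv ℝ ψ (p.2 - p.1 • e) e)
      (mI.prod volume) :=
    (hv0.comp_snd mI).mul_bdd (c := C')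
      ((hψ.dd e).continuous.comp (by fun_prop : Continuous fun p : ℝ × ℂ =>
        p.2 - p.1 • e)).aestronglyMeasurable (Eventually.of_forall fun p => hC' _)
  have hJ : Integrable (fun p : ℝ × ℂ => ψ p.2 * k (p.2 + p.1 • e)) (mI.prod volume) :=
    hsh.bdd_mul (c := C) (hψ.continuous.comp continuous_snd).aestronglyMeasurable
      (Eventually.of_forall fun p => hC _)
  have e2 : ∫ x, (v0 x * ψ (x - e) - ψ x * v0 x) =
      -∫ s, (∫ x, v0 x * fderiv ℝ ψ (x - s • e) e) ∂mI := by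
    rw [integral_integral_swap hI, ← integral_neg]
    refine integral_congr_ae (Eventually.of_forall fun x => ?_)
    simp only
    rw [integral_const_mul, ← mul_neg, ← ftc h1]
    ring
  have e3 : -∫ s, (∫ x, v0 x * fderiv ℝ ψ (x - s • e) e) ∂mI =
      ∫ s, (∫ y, ψ y * k (y + s • e)) ∂mI := by
    rw [← integral_neg]
    refine setIntegral_congr_fun measurableSet_Ioc fun s hs' => ?_
    have := hw _ (ht s hs')
    simp only [fderiv_comp_sub] at this
    rw [this, neg_neg, ← integral_add_right_eq_self (fun x => k x * ψ (x - s • e)) (s • e)]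
    simp [mul_comm]
  have e4 : ∫ s, (∫ y, ψ y * k (y + s • e)) ∂mI = ∫ y, ψ y * ∫ s, k (y + s • e) ∂mI := by
    rw [integral_integral_swap hJ]
    simp only [integral_const_mul]
  have hi' : Integrable fun x => v0 x * ψ (x - e) :=
    hv0.mul_bdd (c := C) hψe.aestronglyMeasurable (Eventually.of_forall fun p => hC _)
  rw [integral_sub hi' (hi hv0)] at e2
  simp only [smul_eq_mul, mul_sub]
  have i1 : Integrable fun x => ψ x * v0 (x + e) - ψ x * v0 x := (hi hve).sub (hi hv0)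
  rw [integral_sub i1 (hi hG), integral_sub (hi hve) (hi hv0), e1, e2, e3, e4, sub_self]

/-- The Dirichlet energy. -/
noncomputable def En (Ω : Set ℂ) (g₁ g₂ : ℂ → ℝ) : ℝ := ∫ z in Ω, (g₁ z ^ 2 + g₂ z ^ 2)

/-- The translation estimate. -/
lemma translate (ho : IsOpen Ω) (hb : volume Ω ≠ ⊤) (h : IsH1 Ω v g₁ g₂) {V : Set ℂ}
    (hV : IsOpen V) {e : ℂ} (hs : ∀ y ∈ V, ∀ s ∈ Icc (0 : ℝ) 1, y + s • e ∈ Ω) :
    ∫⁻ y in V, ENNReal.ofReal ((v (y + e) - v y) ^ 2) ≤
      ENNReal.ofReal (‖e‖ ^ 2 * En Ω g₁ g₂) := by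
  have : IsFiniteMeasure (volume.restrict Ω) := isFiniteMeasure_restrict.2 hb
  have hm := ho.measurableSet
  have hk0 : MemLp (fun z => e.re * g₁ z + e.im * g₂ z) 2 (volume.restrict Ω) :=
    (h.2.1.const_mul _).add (h.2.2.1.const_mul _)
  set k := Ω.indicator fun z => e.re * g₁ z + e.im * g₂ z with hkdef
  have hk : Integrable k := (integrable_indicator_iff hm).2 (hk0.integrable one_le_two)
  have hkk : (fun z => k z ^ 2) = Ω.indicator fun z => (e.re * g₁ z + e.im * g₂ z) ^ 2 := by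
    funext z
    by_cases hz : z ∈ Ω <;> simp [hkdef, hz]
  have hk2 : Integrable fun z => k z ^ 2 := by
    rw [hkk]
    exact (integrable_indicator_iff hm).2 hk0.integrable_sq
  have hv0 : Integrable (Ω.indicator v) :=
    (integrable_indicator_iff hm).2 (h.1.integrable one_le_two)
  have hae := weak_ftc hv0 hk hV hs fun ψ hψ => weak_dir ho hb h e hψ
  have hs1 := shear hk e
  have hs2 := shear hk2 e
  have hH : Integrable (fun y => ∫ s, k (y + s • e) ^ 2 ∂mI) := hs2.integral_prod_right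
  have hle : ∀ᵐ y ∂volume.restrict V, ENNReal.ofReal ((v (y + e) - v y) ^ 2) ≤
      ENNReal.ofReal (∫ s, k (y + s • e) ^ 2 ∂mI) := by
    rw [ae_restrict_iff' hV.measurableSet]
    filter_upwards [hae, hs1.prod_left_ae, hs2.prod_left_ae] with y h1 h2 h3 hy
    have h4 := h1 hy
    have m0 : y ∈ Ω := by simpa using hs y hy 0 ⟨le_rfl, zero_le_one⟩
    have m1 : y + e ∈ Ω := by simpa using hs y hy 1 ⟨zero_le_one, le_rfl⟩
    rw [indicator_of_mem m0, indicator_of_mem m1, sub_eq_zero] at h4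
    rw [h4]
    exact ENNReal.ofReal_le_ofReal (jensen h2 h3)
  have e1 : ∫ y, ∫ s, k (y + s • e) ^ 2 ∂mI = ∫ z, k z ^ 2 := by
    rw [← integral_integral_swap hs2]
    have : ∀ s : ℝ, ∫ y, k (y + s • e) ^ 2 = ∫ z, k z ^ 2 := fun s =>
      integral_add_right_eq_self (fun z => k z ^ 2) (s • e)
    simp only [this]
    simp
  have e2 : ∫ z, k z ^ 2 ≤ ‖e‖ ^ 2 * En Ω g₁ g₂ := by
    rw [hkk, integral_indicator hm, En, ← integral_const_mul]
    refine integral_mono hk0.integrable_sq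
      ((h.2.1.integrable_sq.add h.2.2.1.integrable_sq).const_mul _) fun z => ?_
    simp only
    rw [Complex.sq_norm, Complex.normSq_apply]
    nlinarith [sq_nonneg (e.re * g₂ z - e.im * g₁ z)]
  calc ∫⁻ y in V, ENNReal.ofReal ((v (y + e) - v y) ^ 2)
      ≤ ∫⁻ y in V, ENNReal.ofReal (∫ s, k (y + s • e) ^ 2 ∂mI) := lintegral_mono_ae hle
    _ ≤ ∫⁻ y, ENNReal.ofReal (∫ s, k (y + s • e) ^ 2 ∂mI) := setLIntegral_le_lintegral _ _
    _ = ENNReal.ofReal (∫ y, ∫ s, k (y + s • e) ^ 2 ∂mI) :=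
      (ofReal_integral_eq_lintegral_ofReal hH
        (Eventually.of_forall fun y => integral_nonneg fun s => sq_nonneg _)).symm
    _ ≤ _ := by rw [e1]; exact ENNReal.ofReal_le_ofReal e2

lemma En_nonneg : 0 ≤ En Ω g₁ g₂ := integral_nonneg fun _ => add_nonneg (sq_nonneg _) (sq_nonneg _)

/-- Open subsets on which a Poincaré inequality holds. -/
def Good (Ω V : Set ℂ) : Prop :=
  IsOpen V ∧ V ⊆ Ω ∧ ∃ C : ℝ≥0∞, C ≠ ⊤ ∧ ∀ v g₁ g₂ : ℂ → ℝ, Measurable v → IsH1 Ω v g₁ g₂ →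
    ∃ c : ℝ, ∫⁻ z in V, ENNReal.ofReal ((v z - c) ^ 2) ≤ C * ENNReal.ofReal (En Ω g₁ g₂)

lemma ofReal_sq_le (a b c : ℝ) : ENNReal.ofReal ((a - c) ^ 2) ≤
    2 * ENNReal.ofReal ((a - b) ^ 2) + 2 * ENNReal.ofReal ((b - c) ^ 2) := by
  have h2 : (2 : ℝ≥0∞) = ENNReal.ofReal 2 := by simp
  rw [h2, ← ENNReal.ofReal_mul zero_le_two, ← ENNReal.ofReal_mul zero_le_two,
    ← ENNReal.ofReal_add (by positivity) (by positivity)]
  exact ENNReal.ofReal_le_ofReal (by nlinarith [sq_nonneg (a - 2 * b + c)])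

lemma Good.union (hb : volume Ω ≠ ⊤) {V W : Set ℂ} (hV : Good Ω V) (hW : Good Ω W)
    (hne : (V ∩ W).Nonempty) : Good Ω (V ∪ W) := by
  obtain ⟨hVo, hVs, C, hC, hV⟩ := hV
  obtain ⟨hWo, hWs, D, hD, hW⟩ := hW
  have hm : volume (V ∩ W) ≠ 0 := ((hVo.inter hWo).measure_pos volume hne).ne'
  have hm' : volume (V ∩ W) ≠ ⊤ := ne_top_of_le_ne_top hb (measure_mono fun x hx => hVs hx.1)
  have hWf : volume W ≠ ⊤ := ne_top_of_le_ne_top hb (measure_mono hWs)
  refine ⟨hVo.union hWo, union_subset hVs hWs,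
    C + (2 * D + 2 * ((2 * D + 2 * C) / volume (V ∩ W)) * volume W), by finiteness,
    fun v g₁ g₂ hv h => ?_⟩
  obtain ⟨c, hc⟩ := hV v g₁ g₂ hv h
  obtain ⟨d, hd⟩ := hW v g₁ g₂ hv h
  set E := ENNReal.ofReal (En Ω g₁ g₂)
  have hmeas : ∀ a : ℝ, Measurable fun z => 2 * ENNReal.ofReal ((v z - a) ^ 2) := fun a =>
    (((hv.sub_const a).pow_const 2).ennreal_ofReal).const_mul 2
  have h1 : ENNReal.ofReal ((d - c) ^ 2) * volume (V ∩ W) ≤ (2 * D + 2 * C) * E := by
    calc ENNReal.ofReal ((d - c) ^ 2) * volume (V ∩ W)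
        = ∫⁻ _ in V ∩ W, ENNReal.ofReal ((d - c) ^ 2) := (setLIntegral_const _ _).symm
      _ ≤ ∫⁻ z in V ∩ W, (2 * ENNReal.ofReal ((v z - d) ^ 2) +
            2 * ENNReal.ofReal ((v z - c) ^ 2)) := lintegral_mono fun z => by
          have := ofReal_sq_le d (v z) c
          rwa [← neg_sub (v z) d, neg_sq] at this
      _ = 2 * (∫⁻ z in V ∩ W, ENNReal.ofReal ((v z - d) ^ 2)) +
            2 * ∫⁻ z in V ∩ W, ENNReal.ofReal ((v z - c) ^ 2) := by
          rw [lintegral_add_left (hmeas d), lintegral_const_mul' _ _ (by simp),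
            lintegral_const_mul' _ _ (by simp)]
      _ ≤ 2 * (D * E) + 2 * (C * E) := by
          gcongr
          · exact (lintegral_mono_set inter_subset_right).trans hd
          · exact (lintegral_mono_set inter_subset_left).trans hc
      _ = _ := by ring
  have h2 : ENNReal.ofReal ((d - c) ^ 2) ≤ (2 * D + 2 * C) / volume (V ∩ W) * E := by
    rw [← ENNReal.mul_div_right_comm]
    exact (ENNReal.le_div_iff_mul_le (Or.inl hm) (Or.inl hm')).2 h1
  refine ⟨c, ?_⟩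
  calc ∫⁻ z in V ∪ W, ENNReal.ofReal ((v z - c) ^ 2)
      ≤ (∫⁻ z in V, ENNReal.ofReal ((v z - c) ^ 2)) + ∫⁻ z in W, ENNReal.ofReal ((v z - c) ^ 2) :=
        lintegral_union_le _ _ _
    _ ≤ C * E + ∫⁻ z in W, (2 * ENNReal.ofReal ((v z - d) ^ 2) +
          2 * ENNReal.ofReal ((d - c) ^ 2)) :=
        add_le_add hc (lintegral_mono fun z => ofReal_sq_le _ _ _)
    _ = C * E + (2 * (∫⁻ z in W, ENNReal.ofReal ((v z - d) ^ 2)) +
          2 * ENNReal.ofReal ((d - c) ^ 2) * volume W) := by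
        rw [lintegral_add_left (hmeas d), lintegral_const_mul' _ _ (by simp), setLIntegral_const]
    _ ≤ C * E + (2 * (D * E) + 2 * ((2 * D + 2 * C) / volume (V ∩ W) * E) * volume W) := by
        gcongr
    _ = _ := by ring

/-- A set all of whose points see a fixed ball inside `Ω` is good. -/
lemma star (ho : IsOpen Ω) (hb : Bornology.IsBounded Ω) {V : Set ℂ} (hV : IsOpen V) (hVs : V ⊆ Ω)
    {q : ℂ} {ρ : ℝ} (hρ : 0 < ρ)
    (hs : ∀ x ∈ V, ∀ y ∈ ball q ρ, ∀ s ∈ Icc (0 : ℝ) 1, x + s • (y - x) ∈ Ω) : Good Ω V := by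
  have hf : volume Ω ≠ ⊤ := hb.measure_lt_top.ne
  obtain ⟨R, hR⟩ := hb.subset_ball q
  set D := R + ρ
  have hB : volume (ball q ρ) ≠ 0 := (measure_ball_pos volume q hρ).ne'
  have hB' : volume (ball q ρ) ≠ ⊤ := measure_ball_lt_top.ne
  have hD' : volume (ball (0 : ℂ) D) ≠ ⊤ := measure_ball_lt_top.ne
  refine ⟨hV, hVs, ENNReal.ofReal (D ^ 2) * volume (ball (0 : ℂ) D) / volume (ball q ρ),
    by finiteness, fun v g₁ g₂ hv h => ?_⟩
  set E := ENNReal.ofReal (En Ω g₁ g₂)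
  set F : ℂ → ℂ → ℝ≥0∞ := fun y x => ENNReal.ofReal ((v x - v y) ^ 2) with hF
  have hFm : Measurable (Function.uncurry F) :=
    (((hv.comp measurable_snd).sub (hv.comp measurable_fst)).pow_const 2).ennreal_ofReal
  set G : ℂ → ℂ → ℝ≥0∞ := fun x e => (ball q ρ).indicator (fun y => F y x) (x + e) with hG
  have hGm : Measurable (Function.uncurry G) := by
    have : Function.uncurry G = ((fun p : ℂ × ℂ => p.1 + p.2) ⁻¹' ball q ρ).indicator
        fun p => F (p.1 + p.2) p.1 := by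
      funext p
      by_cases hp : p.1 + p.2 ∈ ball q ρ
      · rw [indicator_of_mem (s := (fun p : ℂ × ℂ => p.1 + p.2) ⁻¹' ball q ρ) hp]
        exact indicator_of_mem hp fun y => F y p.1
      · rw [indicator_of_notMem (s := (fun p : ℂ × ℂ => p.1 + p.2) ⁻¹' ball q ρ) hp]
        exact indicator_of_notMem hp fun y => F y p.1
    rw [this]
    exact (hFm.comp ((measurable_fst.add measurable_snd).prodMk measurable_fst)).indicator
      (measurableSet_ball.preimage (measurable_fst.add measurable_snd))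
  have key : ∀ e, ∫⁻ x in V, G x e ≤
      (ball (0 : ℂ) D).indicator (fun _ => ENNReal.ofReal (D ^ 2) * E) e := by
    intro e
    have hU : IsOpen ((fun x => x + e) ⁻¹' ball q ρ) :=
      isOpen_ball.preimage (continuous_add_const e)
    have e1 : ∫⁻ x in V, G x e =
        ∫⁻ x in (fun x => x + e) ⁻¹' ball q ρ ∩ V, ENNReal.ofReal ((v (x + e) - v x) ^ 2) := by
      rw [← Measure.restrict_restrict hU.measurableSet, ← lintegral_indicator hU.measurableSet]
      refine lintegral_congr fun x => ?_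
      by_cases hp : x + e ∈ ball q ρ
      · rw [indicator_of_mem (s := (fun x => x + e) ⁻¹' ball q ρ) hp, ← neg_sub, neg_sq]
        exact indicator_of_mem hp _
      · rw [indicator_of_notMem (s := (fun x => x + e) ⁻¹' ball q ρ) hp]
        exact indicator_of_notMem hp _
    rw [e1]
    rcases ((fun x => x + e) ⁻¹' ball q ρ ∩ V).eq_empty_or_nonempty with h0 | ⟨x, hx1, hx2⟩
    · rw [h0]
      simp
    have he : ‖e‖ < D := by
      have h1 : ‖x + e - q‖ < ρ := mem_ball_iff_norm.1 hx1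
      have h2 : ‖x - q‖ < R := mem_ball_iff_norm.1 (hR (hVs hx2))
      have h3 : e = (x + e - q) - (x - q) := by ring
      have := norm_sub_le (x + e - q) (x - q)
      rw [← h3] at this
      simp only [D]
      linarith
    rw [indicator_of_mem (mem_ball_zero_iff.2 he)]
    refine (translate ho hf h (hU.inter hV) fun y hy s hs' => ?_).trans ?_
    · simpa using hs y hy.2 (y + e) hy.1 s hs'
    · rw [ENNReal.ofReal_mul (sq_nonneg _)]
      gcongr
  have tot : ∫⁻ y in ball q ρ, ∫⁻ x in V, F y x ≤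
      ENNReal.ofReal (D ^ 2) * E * volume (ball (0 : ℂ) D) := by
    calc ∫⁻ y in ball q ρ, ∫⁻ x in V, F y x = ∫⁻ x in V, ∫⁻ y in ball q ρ, F y x :=
          lintegral_lintegral_swap hFm.aemeasurable
      _ = ∫⁻ x in V, ∫⁻ e, G x e := lintegral_congr fun x => by
          rw [← lintegral_indicator measurableSet_ball]
          exact (lintegral_add_left_eq_self _ x).symm
      _ = ∫⁻ e, ∫⁻ x in V, G x e := lintegral_lintegral_swap hGm.aemeasurable
      _ ≤ ∫⁻ e, (ball (0 : ℂ) D).indicator (fun _ => ENNReal.ofReal (D ^ 2) * E) e :=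
          lintegral_mono key
      _ = _ := by rw [lintegral_indicator measurableSet_ball, setLIntegral_const]
  obtain ⟨y, -, hy⟩ := exists_le_setLAverage (f := fun y => ∫⁻ x in V, F y x) hB hB'
    hFm.lintegral_prod_right.aemeasurable
  refine ⟨v y, hy.trans ?_⟩
  rw [setLAverage_eq, ← ENNReal.mul_div_right_comm]
  exact ENNReal.div_le_div_right (tot.trans_eq (by ring)) _

lemma seg_mem_ball {p x y : ℂ} {r s : ℝ} (hx : x ∈ ball p r) (hy : y ∈ ball p r)
    (hs : s ∈ Icc (0 : ℝ) 1) : x + s • (y - x) ∈ ball p r :=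
  (convex_ball p r).add_smul_sub_mem hx hy hs

/-- Every point of the closure has a good neighbourhood. -/
lemma local_good (ho : IsOpen Ω) (hb : Bornology.IsBounded Ω) (hL : IsLipschitzDomain Ω) {p : ℂ}
    (hp : p ∈ closure Ω) : ∃ ρ > 0, Good Ω (Ω ∩ ball p ρ) := by
  by_cases hp' : p ∈ Ω
  · obtain ⟨ρ, hρ, hs⟩ := Metric.isOpen_iff.1 ho p hp'
    exact ⟨ρ, hρ, star ho hb (ho.inter isOpen_ball) inter_subset_left (q := p) hρ
      fun x hx y hy s hs' => hs (seg_mem_ball hx.2 hy hs')⟩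
  obtain ⟨r, hr, e, he, K, γ, hγ, hΩ⟩ := hL p ⟨hp, by rwa [ho.interior_eq]⟩
  have hK : (0 : ℝ) ≤ K := K.2
  set ρ := r / (3 + 2 * K) with hρdef
  have hρ : 0 < ρ := by positivity
  have hρr : ρ * (3 + 2 * K) = r := div_mul_cancel₀ _ (by positivity)
  set h := 2 * (1 + K) * ρ with hh
  have h0 : 0 < h := by positivity
  have hee : e * (starRingEnd ℂ) e = 1 := by
    rw [Complex.mul_conj, Complex.normSq_eq_norm_sq, he]; simp
  set w : ℂ := (h : ℂ) * (starRingEnd ℂ) e * Complex.I with hw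
  have hwn : ‖w‖ = h := by simp [hw, he, abs_of_pos h0]
  have hew : e * w = h * Complex.I := by
    rw [hw]
    linear_combination (h * Complex.I) * hee
  refine ⟨ρ, hρ, star ho hb (ho.inter isOpen_ball) inter_subset_left (q := p + w) hρ
    fun x hx y hy s hs => ?_⟩
  have hx1 : ‖x - p‖ < ρ := mem_ball_iff_norm.1 hx.2
  have hy1 : ‖y - (p + w)‖ < ρ := mem_ball_iff_norm.1 hy
  have hxr : x ∈ ball p r := mem_ball_iff_norm.2 (by nlinarith)
  have hyr : y ∈ ball p r := by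
    rw [mem_ball_iff_norm]
    have := norm_add_le (y - (p + w)) w
    rw [show y - (p + w) + w = y - p by ring, hwn] at this
    nlinarith
  rw [hΩ _ (seg_mem_ball hxr hyr hs)]
  have hxΩ := (hΩ x hxr).1 hx.1
  set d := e * ((y - (p + w)) - (x - p)) with hd
  have hdn : ‖d‖ ≤ 2 * ρ := by
    rw [hd, norm_mul, he, one_mul]
    linarith [norm_sub_le (y - (p + w)) (x - p)]
  have hz : e * (x + s • (y - x)) = e * x + s * (d + h * Complex.I) := by
    rw [hd, ← hew, Complex.real_smul]; ring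
  have hre : (e * (x + s • (y - x))).re = (e * x).re + s * d.re := by rw [hz]; simp
  have him : (e * (x + s • (y - x))).im = (e * x).im + s * (d.im + h) := by rw [hz]; simp
  rw [hre, him]
  have h1 := hγ.dist_le_mul ((e * x).re + s * d.re) (e * x).re
  rw [Real.dist_eq, Real.dist_eq, add_sub_cancel_left, abs_mul, abs_of_nonneg hs.1] at h1
  have h2 : |d.re| ≤ 2 * ρ := (Complex.abs_re_le_norm d).trans hdn
  have h3 : -(2 * ρ) ≤ d.im := (abs_le.1 ((Complex.abs_im_le_norm d).trans hdn)).1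
  have h4 : (K : ℝ) * (s * |d.re|) ≤ s * (d.im + h) := by
    have : (K : ℝ) * |d.re| ≤ d.im + h := by nlinarith [mul_le_mul_of_nonneg_left h2 hK]
    nlinarith [mul_le_mul_of_nonneg_left this hs.1]
  linarith [(abs_le.1 h1).2]

lemma good_self (ho : IsOpen Ω) (hb : Bornology.IsBounded Ω) (hc : IsConnected Ω)
    (hL : IsLipschitzDomain Ω) : Good Ω Ω := by
  have hf : volume Ω ≠ ⊤ := hb.measure_lt_top.ne
  obtain ⟨x₀, hx₀⟩ := hc.1
  obtain ⟨ρ₀, hρ₀, hg₀⟩ := local_good ho hb hL (subset_closure hx₀)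
  have hm₀ : x₀ ∈ Ω ∩ ball x₀ ρ₀ := ⟨hx₀, mem_ball_self hρ₀⟩
  set S := ⋃₀ {V | Good Ω V ∧ x₀ ∈ V} with hS
  have hSo : IsOpen S := isOpen_sUnion fun V hV => hV.1.1
  have step : ∀ p ∈ closure S, p ∈ closure Ω →
      ∃ ρ > 0, ∃ V, Good Ω V ∧ x₀ ∈ V ∧ Ω ∩ ball p ρ ⊆ V := by
    intro p hp hp'
    obtain ⟨ρ, hρ, hg⟩ := local_good ho hb hL hp'
    obtain ⟨y, hy, V, hV, hyV⟩ := mem_closure_iff.1 hp _ isOpen_ball (mem_ball_self hρ)
    exact ⟨ρ, hρ, _, hV.1.union hf hg ⟨y, hyV, hV.1.2.1 hyV, hy⟩, Or.inl hV.2, subset_union_right⟩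
  have hΩS : Ω ⊆ S := by
    refine hc.2.subset_of_closure_inter_subset hSo ⟨x₀, hx₀, _, ⟨hg₀, hm₀⟩, hm₀⟩ ?_
    rintro p ⟨hp, hp'⟩
    obtain ⟨ρ, hρ, V, hV, hxV, hs⟩ := step p hp (subset_closure hp')
    exact ⟨V, ⟨hV, hxV⟩, hs ⟨hp', mem_ball_self hρ⟩⟩
  obtain ⟨V, hV, -, hs⟩ : ∃ V, Good Ω V ∧ x₀ ∈ V ∧ Ω ∩ closure Ω ⊆ V := by
    refine hb.isCompact_closure.induction_on (p := fun s => ∃ V, Good Ω V ∧ x₀ ∈ V ∧ Ω ∩ s ⊆ V)
      ⟨_, hg₀, hm₀, by simp⟩ ?_ ?_ ?_
    · rintro s t hst ⟨V, hV, hx, h⟩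
      exact ⟨V, hV, hx, (inter_subset_inter_right _ hst).trans h⟩
    · rintro s t ⟨V, hV, hx, h⟩ ⟨W, hW, hx', h'⟩
      refine ⟨V ∪ W, hV.union hf hW ⟨x₀, hx, hx'⟩, Or.inl hx, ?_⟩
      rw [inter_union_distrib_left]
      exact union_subset_union h h'
    · intro p hp
      obtain ⟨ρ, hρ, h⟩ := step p (closure_mono hΩS hp) hp
      exact ⟨ball p ρ, mem_nhdsWithin_of_mem_nhds (ball_mem_nhds p hρ), h⟩
  have : V = Ω := hV.2.1.antisymm fun x hx => hs ⟨hx, subset_closure hx⟩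
  exact this ▸ hV

lemma IsH1_congr {v' : ℂ → ℝ} (h : IsH1 Ω v g₁ g₂) (hv : v =ᵐ[volume.restrict Ω] v') :
    IsH1 Ω v' g₁ g₂ := by
  refine ⟨h.1.ae_eq hv, h.2.1, h.2.2.1, fun ψ h1 h2 h3 => ?_⟩
  have e : ∀ φ : ℂ → ℝ, ∫ z in Ω, v' z * φ z = ∫ z in Ω, v z * φ z := fun φ =>
    integral_congr_ae (by filter_upwards [hv] with z hz using by rw [hz])
  rw [e, e]
  exact h.2.2.2 ψ h1 h2 h3

/-- The Poincaré inequality for functions of mean zero. -/
lemma poincare (ho : IsOpen Ω) (hb : Bornology.IsBounded Ω) (hc : IsConnected Ω)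
    (hL : IsLipschitzDomain Ω) : ∃ C : ℝ, 0 < C ∧ ∀ v g₁ g₂ : ℂ → ℝ, IsH1 Ω v g₁ g₂ →
      ∫ z in Ω, v z = 0 → ∫ z in Ω, v z ^ 2 ≤ C * En Ω g₁ g₂ := by
  have : IsFiniteMeasure (volume.restrict Ω) := isFiniteMeasure_restrict.2 hb.measure_lt_top.ne
  obtain ⟨-, -, C, hC, hg⟩ := good_self ho hb hc hL
  refine ⟨C.toReal + 1, by positivity, fun v g₁ g₂ h h0 => ?_⟩
  have hv := h.1.1.aemeasurable
  obtain ⟨c, hc⟩ := hg _ g₁ g₂ hv.measurable_mk (IsH1_congr h hv.ae_eq_mk)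
  rw [lintegral_congr_ae (g := fun z => ENNReal.ofReal ((v z - c) ^ 2))
    (by filter_upwards [hv.ae_eq_mk] with z hz using by rw [hz])] at hc
  have i1 : Integrable v (volume.restrict Ω) := h.1.integrable one_le_two
  have i2 : Integrable (fun z => v z ^ 2) (volume.restrict Ω) := h.1.integrable_sq
  have i3 : Integrable (fun z => (v z - c) ^ 2) (volume.restrict Ω) :=
    (h.1.sub (memLp_const c)).integrable_sq
  rw [← ofReal_integral_eq_lintegral_ofReal i3 (Eventually.of_forall fun z => sq_nonneg _),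
    ← ENNReal.ofReal_toReal hC, ← ENNReal.ofReal_mul ENNReal.toReal_nonneg,
    ENNReal.ofReal_le_ofReal_iff (mul_nonneg ENNReal.toReal_nonneg En_nonneg)] at hc
  have h1 : ∫ z in Ω, (v z ^ 2 - 2 * c * v z) ≤ ∫ z in Ω, (v z - c) ^ 2 :=
    integral_mono (i2.sub (i1.const_mul _)) i3 fun z => by nlinarith [sq_nonneg c]
  rw [integral_sub i2 (i1.const_mul _), integral_const_mul, h0] at h1
  nlinarith [En_nonneg (Ω := Ω) (g₁ := g₁) (g₂ := g₂)]

/-- A nonzero function of mean zero. -/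
lemma exists_test (ho : IsOpen Ω) (hb : Bornology.IsBounded Ω) (hne : Ω.Nonempty) :
    ∃ v g₁ g₂ : ℂ → ℝ, IsH1 Ω v g₁ g₂ ∧ ¬ v =ᵐ[volume.restrict Ω] 0 ∧ ∫ z in Ω, v z = 0 := by
  have hf : volume Ω ≠ ⊤ := hb.measure_lt_top.ne
  have : IsFiniteMeasure (volume.restrict Ω) := isFiniteMeasure_restrict.2 hf
  have hpos : 0 < volume.real Ω := ENNReal.toReal_pos (ho.measure_pos volume hne).ne' hf
  obtain ⟨R, hR⟩ := hb.exists_norm_le
  have hre : MemLp (fun z : ℂ => z.re) 2 (volume.restrict Ω) :=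
    MemLp.of_bound Complex.continuous_re.aestronglyMeasurable R
      ((ae_restrict_iff' ho.measurableSet).2 (Eventually.of_forall fun z hz =>
        (Complex.abs_re_le_norm z).trans (hR z hz)))
  set m := (∫ z in Ω, z.re) / volume.real Ω with hm
  have hcd : ContDiff ℝ 1 fun z : ℂ => z.re - m := Complex.reCLM.contDiff.sub contDiff_const
  have hdd : ∀ u z : ℂ, dd u (fun z : ℂ => z.re - m) z = u.re := fun u z => by
    rw [dd_sub (a := fun z : ℂ => z.re) Complex.reCLM.differentiableAt (differentiableAt_const _),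
      dd_const, sub_zero, dd_re]
  refine ⟨fun z => z.re - m, fun _ => 1, fun _ => 0,
    ⟨hre.sub (memLp_const m), memLp_const 1, memLp_const 0, fun ψ h1 h2 h3 => ?_⟩, fun h => ?_, ?_⟩
  · have a1 := ibp ho hcd.contDiffOn ⟨h1, h2, h3⟩ 1
    have a2 := ibp ho hcd.contDiffOn ⟨h1, h2, h3⟩ Complex.I
    simp only [hdd] at a1 a2
    exact ⟨a1, a2⟩
  · have h' := Measure.eqOn_open_of_ae_eq h ho hcd.continuous.continuousOn continuousOn_const
    obtain ⟨x, hx⟩ := hne
    obtain ⟨ρ, hρ, hs⟩ := Metric.isOpen_iff.1 ho x hx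
    have a1 := h' hx
    have a2 := h' (hs (a := x + (ρ / 2 : ℝ)) (by
      rw [mem_ball_iff_norm, add_sub_cancel_left, Complex.norm_real, Real.norm_of_nonneg]
      <;> linarith))
    simp only [Complex.add_re, Complex.ofReal_re, Pi.zero_apply] at a1 a2
    linarith
  · rw [integral_sub (hre.integrable one_le_two) (integrable_const _), setIntegral_const, hm,
      smul_eq_mul, mul_div_cancel₀ _ hpos.ne', sub_self]

end Poincare

theorem mu1_pos {Ω : Set ℂ} (ho : IsOpen Ω) (hb : Bornology.IsBounded Ω) (hc : IsConnected Ω)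
    (hL : IsLipschitzDomain Ω) : 0 < mu1 Ω := by
  obtain ⟨C, hC, hP⟩ := Poincare.poincare ho hb hc hL
  obtain ⟨v, g₁, g₂, h1, h2, h3⟩ := Poincare.exists_test ho hb hc.1
  refine lt_of_lt_of_le (one_div_pos.2 hC) (le_csInf ⟨_, v, g₁, g₂, h1, h2, h3, rfl⟩ ?_)
  rintro _ ⟨v, g₁, g₂, h1, h2, h3, rfl⟩
  have hpos : 0 < ∫ z in Ω, v z ^ 2 := by
    refine lt_of_le_of_ne (integral_nonneg fun z => sq_nonneg _) fun h => h2 ?_
    have := (integral_eq_zero_iff_of_nonneg (fun z => sq_nonneg (v z)) h1.1.integrable_sq).1 h.symm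
    filter_upwards [this] with z hz
    simpa using hz
  rw [div_le_div_iff₀ hC hpos, one_mul, mul_comm]
  exact hP v g₁ g₂ h1 h3

end Vale.Agent.P071
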