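import Vale.Agent.P071.Basic

/-! The Riemann mapping theorem for bounded simply connected open sets. -/

open MeasureTheory Set Metric Filter Topology
open scoped ENNReal ComplexConjugate

namespace Vale.Agent.P071

namespace Riemann

/-- Local form of Hurwitz's theorem. -/
theorem hurwitz {ι : Type*} {l : Filter ι} [l.NeBot] {U : Set ℂ} (hU : IsOpen U)
    {F : ι → ℂ → ℂ} {f : ℂ → ℂ} (hF : TendstoLocallyUniformlyOn F f l U)
    (hd : ∀ i, DifferentiableOn ℂ (F i) U) (hne : ∀ i, ∀ z ∈ U, F i z ≠ 0)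
    {b : ℂ} (hb : b ∈ U) (hfb : f b = 0) : f =ᶠ[𝓝 b] 0 := by
  have hfd : DifferentiableOn ℂ f U := hF.differentiableOn (Eventually.of_forall hd) hU
  have hfa : AnalyticAt ℂ f b := hfd.analyticAt (hU.mem_nhds hb)
  rcases hfa.eventually_eq_zero_or_eventually_ne_zero with h | h
  · exact h
  exfalso
  rw [eventually_nhdsWithin_iff] at h
  obtain ⟨r, hr, hsub⟩ := Metric.nhds_basis_closedBall.mem_iff.mp (h.and (hU.mem_nhds hb))
  have hsubU : closedBall b r ⊆ U := fun z hz => (hsub hz).2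
  have hsph : ∀ z ∈ sphere b r, f z ≠ 0 := by
    intro z hz
    refine (hsub (sphere_subset_closedBall hz)).1 ?_
    intro hzb
    rw [mem_singleton_iff] at hzb
    rw [hzb, mem_sphere, dist_self] at hz
    exact hr.ne hz
  have hcs : ContinuousOn (fun z => ‖f z‖) (sphere b r) :=
    (hfd.continuousOn.mono (sphere_subset_closedBall.trans hsubU)).norm
  obtain ⟨z₀, hz₀, hmin⟩ := (isCompact_sphere b r).exists_isMinOn
    (NormedSpace.sphere_nonempty.mpr hr.le) hcs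
  set m := ‖f z₀‖ with hm
  have hm0 : 0 < m := norm_pos_iff.mpr (hsph z₀ hz₀)
  have hu : TendstoUniformlyOn F f l (closedBall b r) :=
    (tendstoLocallyUniformlyOn_iff_forall_isCompact hU).mp hF _ hsubU (isCompact_closedBall b r)
  obtain ⟨i, hi⟩ := (Metric.tendstoUniformlyOn_iff.mp hu (m / 2) (by positivity)).exists
  have hdi : DiffContOnCl ℂ (fun z => (F i z)⁻¹) (ball b r) := by
    apply DifferentiableOn.diffContOnCl
    rw [closure_ball b hr.ne']
    exact ((hd i).mono hsubU).inv fun z hz => hne i z (hsubU hz)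
  have hbd : ∀ z ∈ frontier (ball b r), ‖(F i z)⁻¹‖ ≤ (m / 2)⁻¹ := by
    intro z hz
    rw [frontier_ball b hr.ne'] at hz
    have h1 := hi z (sphere_subset_closedBall hz)
    have h2 : m ≤ ‖f z‖ := hmin hz
    rw [dist_eq_norm] at h1
    have h3 : ‖f z‖ ≤ ‖f z - F i z‖ + ‖F i z‖ := by
      simpa using norm_add_le (f z - F i z) (F i z)
    rw [norm_inv]
    exact inv_anti₀ (by positivity) (by linarith)
  have h4 := Complex.norm_le_of_forall_mem_frontier_norm_le isBounded_ball hdi hbd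
    (subset_closure (mem_ball_self hr))
  have h5 := hi b (mem_closedBall_self hr.le)
  rw [hfb, dist_zero_left] at h5
  have h6 : 0 < ‖F i b‖ := norm_pos_iff.mpr (hne i b hb)
  rw [norm_inv] at h4
  have := (inv_le_inv₀ h6 (by positivity)).mp h4
  linarith

theorem schwarz {Ω : Set ℂ} {g : ℂ → ℂ} (hd : DifferentiableOn ℂ g Ω) (hm : MapsTo g Ω DD)
    {x : ℂ} {R : ℝ} (hx : x ∈ Ω) (hR : ball x R ⊆ Ω) {y : ℂ} (hy : y ∈ ball x R) :
    dist (g y) (g x) ≤ 2 / R * dist y x := by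
  refine Complex.dist_le_div_mul_dist_of_mapsTo_ball (hd.mono hR) ?_ hy
  intro z hz
  have h1 := mem_ball_zero_iff.mp (hm (hR hz))
  have h2 := mem_ball_zero_iff.mp (hm hx)
  rw [mem_closedBall, dist_eq_norm]
  have := norm_sub_le (g z) (g x)
  linarith

/-- Montel's theorem along an ultrafilter. -/
theorem montel {ι : Type*} (l : Ultrafilter ι) {Ω : Set ℂ} (ho : IsOpen Ω) {F : ι → ℂ → ℂ}
    (hd : ∀ i, DifferentiableOn ℂ (F i) Ω) (hm : ∀ i, MapsTo (F i) Ω DD) :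
    ∃ f : ℂ → ℂ, TendstoLocallyUniformlyOn F f l Ω := by
  have hex : ∀ z, ∃ a, z ∈ Ω → Tendsto (fun i => F i z) l (𝓝 a) := by
    intro z
    by_cases hz : z ∈ Ω
    · have hle : (l.map (fun i => F i z) : Filter ℂ) ≤ 𝓟 (closedBall (0 : ℂ) 1) := by
        rw [le_principal_iff, Ultrafilter.coe_map, mem_map]
        exact Eventually.of_forall fun i => ball_subset_closedBall (hm i hz)
      obtain ⟨a, -, ha⟩ := (isCompact_closedBall (0 : ℂ) 1).ultrafilter_le_nhds _ hle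
      exact ⟨a, fun _ => ha⟩
    · exact ⟨0, fun h => absurd h hz⟩
  choose f hf using hex
  refine ⟨f, Metric.tendstoLocallyUniformlyOn_iff.mpr fun ε hε x hx => ?_⟩
  obtain ⟨R, hR, hRΩ⟩ := Metric.isOpen_iff.mp ho x hx
  set δ := min R (ε * R / 8) with hδ
  have hδ0 : 0 < δ := lt_min hR (by positivity)
  refine ⟨ball x δ, mem_nhdsWithin_of_mem_nhds (ball_mem_nhds x hδ0), ?_⟩
  have hev := Metric.tendsto_nhds.mp (hf x hx) (ε / 4) (by positivity)
  filter_upwards [hev] with i hi y hy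
  have hyR : y ∈ ball x R := ball_subset_ball (min_le_left _ _) hy
  have hy2 : dist y x ≤ ε * R / 8 := (mem_ball.mp hy).le.trans (min_le_right _ _)
  have hb : 2 / R * dist y x ≤ ε / 4 := by
    calc 2 / R * dist y x ≤ 2 / R * (ε * R / 8) := by gcongr
      _ = ε / 4 := by field_simp; ring
  have h1 : dist (F i y) (F i x) ≤ ε / 4 := (schwarz (hd i) (hm i) hx hRΩ hyR).trans hb
  have h2 : dist (f y) (f x) ≤ ε / 4 := by
    refine le_of_tendsto ((hf y (hRΩ hyR)).dist (hf x hx)) (Eventually.of_forall fun j => ?_)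
    exact (schwarz (hd j) (hm j) hx hRΩ hyR).trans hb
  have h3 := dist_triangle4 (f y) (f x) (F i x) (F i y)
  rw [dist_comm (f x) (F i x), dist_comm (F i x) (F i y)] at h3
  linarith

/-- The family of normalised injective maps into the disc. -/
structure Fam (Ω : Set ℂ) (x₀ : ℂ) (g : ℂ → ℂ) : Prop where
  hd : DifferentiableOn ℂ g Ω
  hm : MapsTo g Ω DD
  inj : InjOn g Ω
  zero : g x₀ = 0
  dne : ∀ z ∈ Ω, deriv g z ≠ 0

theorem fam_nonempty {Ω : Set ℂ} (hb : Bornology.IsBounded Ω) (x₀ : ℂ) :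
    ∃ g, Fam Ω x₀ g := by
  obtain ⟨R, hR, hsub⟩ := hb.subset_ball_lt 0 x₀
  have hRc : (R : ℂ) ≠ 0 := by exact_mod_cast hR.ne'
  refine ⟨fun z => (z - x₀) / R, by fun_prop, ?_, ?_, by simp, ?_⟩
  · intro z hz
    have := mem_ball.mp (hsub hz)
    rw [dist_eq_norm] at this
    rw [mem_ball_zero_iff, norm_div, Complex.norm_real, Real.norm_of_nonneg hR.le, div_lt_one hR]
    exact this
  · intro z _ w _ h
    have h' : (z - x₀) / (R : ℂ) = (w - x₀) / R := h
    rw [div_left_inj' hRc] at h'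
    exact sub_left_injective h'
  · intro z _
    have : HasDerivAt (fun z : ℂ => (z - x₀) / (R : ℂ)) (1 / R) z :=
      ((hasDerivAt_id z).sub_const x₀).div_const _
    rw [this.deriv]
    exact one_div_ne_zero hRc

theorem fam_limit {ι : Type*} {l : Filter ι} [l.NeBot] {Ω : Set ℂ} (ho : IsOpen Ω)
    (hc : IsPreconnected Ω) {x₀ : ℂ} (hx : x₀ ∈ Ω) {F : ι → ℂ → ℂ} (hF : ∀ i, Fam Ω x₀ (F i))
    {f : ℂ → ℂ} (hl : TendstoLocallyUniformlyOn F f l Ω) (h0 : deriv f x₀ ≠ 0) :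
    Fam Ω x₀ f := by
  have hfd : DifferentiableOn ℂ f Ω :=
    hl.differentiableOn (Eventually.of_forall fun i => (hF i).hd) ho
  have hz : f x₀ = 0 := by
    have := hl.tendsto_at hx
    simp only [(hF _).zero] at this
    exact tendsto_nhds_unique this tendsto_const_nhds
  have hdne : ∀ z ∈ Ω, deriv f z ≠ 0 := by
    intro z hzΩ hdz
    have h1 := hurwitz ho (hl.deriv (Eventually.of_forall fun i => (hF i).hd) ho)
      (fun i => (hF i).hd.deriv ho) (fun i w hw => (hF i).dne w hw) hzΩ hdz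
    have h2 : AnalyticOnNhd ℂ (deriv f) Ω := (hfd.deriv ho).analyticOnNhd ho
    exact h0 (h2.eqOn_zero_of_preconnected_of_eventuallyEq_zero hc hzΩ h1 hx)
  refine ⟨hfd, ?_, ?_, hz, hdne⟩
  · have hle : ∀ z ∈ Ω, ‖f z‖ ≤ 1 := fun z hzΩ =>
      le_of_tendsto (hl.tendsto_at hzΩ).norm
        (Eventually.of_forall fun i => (mem_ball_zero_iff.mp ((hF i).hm hzΩ)).le)
    intro z hzΩ
    rw [mem_ball_zero_iff]
    refine lt_of_le_of_ne (hle z hzΩ) fun h1 => ?_
    have hmax : IsMaxOn (norm ∘ f) Ω z := fun w hw => by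
      simp only [Function.comp_apply, mem_ofPred_eq, h1]
      exact hle w hw
    have := Complex.norm_eqOn_of_isPreconnected_of_isMaxOn hc ho hfd hzΩ hmax hx
    simp [hz, h1] at this
  · intro a ha b hb hab
    by_contra hne
    have hU : IsOpen (Ω \ {a}) := ho.sdiff isClosed_singleton
    have hl' : TendstoLocallyUniformlyOn (fun i z => F i z - F i a) (fun z => f z - f a) l
        (Ω \ {a}) := by
      have h1 : TendstoLocallyUniformlyOn (fun i (_ : ℂ) => F i a) (fun _ => f a) l (Ω \ {a}) :=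
        ((hl.tendsto_at ha).tendstoUniformlyOn_const _).tendstoLocallyUniformlyOn
      exact (hl.mono sdiff_subset).sub h1
    have h1 := hurwitz hU hl' (fun i => ((hF i).hd.mono sdiff_subset).sub_const _)
      (fun i w hw h => hw.2 ((hF i).inj hw.1 ha (sub_eq_zero.mp h)))
      (b := b) ⟨hb, fun h => hne (mem_singleton_iff.mp h).symm⟩ (by simp [hab])
    have h2 := h1.deriv_eq
    simp only [deriv_sub_const] at h2
    refine hdne b hb (h2.trans ?_)
    exact deriv_const _ _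

theorem exists_max {Ω : Set ℂ} (ho : IsOpen Ω) (hc : IsPreconnected Ω)
    (hb : Bornology.IsBounded Ω) {x₀ : ℂ} (hx : x₀ ∈ Ω) :
    ∃ f, Fam Ω x₀ f ∧ ∀ g, Fam Ω x₀ g → ‖deriv g x₀‖ ≤ ‖deriv f x₀‖ := by
  set S : Set ℝ := {t | ∃ g, Fam Ω x₀ g ∧ t = ‖deriv g x₀‖} with hS
  obtain ⟨g₀, hg₀⟩ := fam_nonempty hb x₀
  have hne : S.Nonempty := ⟨_, g₀, hg₀, rfl⟩
  obtain ⟨R, hR, hRΩ⟩ := Metric.isOpen_iff.mp ho x₀ hx
  have hbdd : BddAbove S := by
    refine ⟨1 / R, ?_⟩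
    rintro t ⟨g, hg, rfl⟩
    refine Complex.norm_deriv_le_div_of_mapsTo_ball (hg.hd.mono hRΩ) ?_ hR
    intro z hz
    rw [hg.zero]
    exact ball_subset_closedBall (hg.hm (hRΩ hz))
  obtain ⟨u, -, hu, huS⟩ := exists_seq_tendsto_sSup hne hbdd
  choose F hF hFu using huS
  obtain ⟨f, hf⟩ := montel (hyperfilter ℕ) ho (fun i => (hF i).hd) (fun i => (hF i).hm)
  have h1 : Tendsto (fun i => ‖deriv (F i) x₀‖) (hyperfilter ℕ) (𝓝 ‖deriv f x₀‖) :=
    ((hf.deriv (Eventually.of_forall fun i => (hF i).hd) ho).tendsto_at hx).norm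
  have h2 : Tendsto (fun i => ‖deriv (F i) x₀‖) (hyperfilter ℕ) (𝓝 (sSup S)) := by
    have : (fun i => ‖deriv (F i) x₀‖) = u := funext fun i => (hFu i).symm
    rw [this]
    exact hu.mono_left Nat.hyperfilter_le_atTop
  have h3 : ‖deriv f x₀‖ = sSup S := tendsto_nhds_unique h1 h2
  have hle : ∀ g, Fam Ω x₀ g → ‖deriv g x₀‖ ≤ ‖deriv f x₀‖ := fun g hg =>
    h3 ▸ le_csSup hbdd ⟨g, hg, rfl⟩
  refine ⟨f, fam_limit ho hc hx hF hf ?_, hle⟩
  have h4 := norm_pos_iff.mpr (hg₀.dne x₀ hx)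
  exact norm_pos_iff.mp (h4.trans_le (hle g₀ hg₀))

/-- Automorphism of the disc. -/
noncomputable def mob (w z : ℂ) : ℂ := (z - w) / (1 - conj w * z)

theorem den_ne {w z : ℂ} (hw : ‖w‖ < 1) (hz : ‖z‖ < 1) : 1 - conj w * z ≠ 0 := by
  intro h
  have h1 : conj w * z = 1 := (sub_eq_zero.mp h).symm
  have h2 : ‖conj w * z‖ < 1 := by
    rw [norm_mul, Complex.norm_conj]
    nlinarith [norm_nonneg w, norm_nonneg z]
  rw [h1, norm_one] at h2
  exact lt_irrefl _ h2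

theorem mob_norm {w z : ℂ} (hw : ‖w‖ < 1) (hz : ‖z‖ < 1) : ‖mob w z‖ < 1 := by
  have hd := norm_pos_iff.mpr (den_ne hw hz)
  rw [mob, norm_div, div_lt_one hd]
  have h1 : ‖1 - conj w * z‖ ^ 2 - ‖z - w‖ ^ 2 = (1 - ‖w‖ ^ 2) * (1 - ‖z‖ ^ 2) := by
    simp only [Complex.sq_norm, Complex.normSq_apply, Complex.sub_re, Complex.sub_im,
      Complex.mul_re, Complex.mul_im, Complex.conj_re, Complex.conj_im, Complex.one_re,
      Complex.one_im]
    ring
  have h2 : 0 < 1 - ‖w‖ ^ 2 := by nlinarith [norm_nonneg w]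
  have h3 : 0 < 1 - ‖z‖ ^ 2 := by nlinarith [norm_nonneg z]
  have h4 := mul_pos h2 h3
  exact lt_of_pow_lt_pow_left₀ 2 hd.le (by linarith)

theorem mob_inj {w a b : ℂ} (hw : ‖w‖ < 1) (ha : ‖a‖ < 1) (hb : ‖b‖ < 1)
    (h : mob w a = mob w b) : a = b := by
  rw [mob, mob, div_eq_div_iff (den_ne hw ha) (den_ne hw hb)] at h
  have h1 : (a - b) * (1 - conj w * w) = 0 := by linear_combination h
  exact sub_eq_zero.mp ((mul_eq_zero.mp h1).resolve_right (den_ne hw hw))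

theorem mob_deriv {w z : ℂ} (hw : ‖w‖ < 1) (hz : ‖z‖ < 1) :
    HasDerivAt (mob w) ((1 - conj w * w) / (1 - conj w * z) ^ 2) z := by
  have h1 : HasDerivAt (fun z : ℂ => z - w) 1 z := (hasDerivAt_id z).sub_const w
  have h2 : HasDerivAt (fun z : ℂ => 1 - conj w * z) (-(conj w * 1)) z :=
    ((hasDerivAt_id z).const_mul (conj w)).const_sub 1
  have h3 := h1.div h2 (den_ne hw hz)
  have h4 : (1 - conj w * w) / (1 - conj w * z) ^ 2
      = (1 * (1 - conj w * z) - (z - w) * -(conj w * 1)) / (1 - conj w * z) ^ 2 := by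
    congr 1
    ring
  rw [h4]
  exact h3

theorem sqrt_deriv {g h : ℂ → ℂ} {z g' : ℂ} (hg : HasDerivAt g g' z) (hc : ContinuousAt h z)
    (hsq : ∀ x, h x ^ 2 = g x) (h0 : h z ≠ 0) : HasDerivAt h (g' / (2 * h z)) z := by
  rw [hasDerivAt_iff_tendsto_slope] at hg ⊢
  have h2 : Tendsto (fun y => h y + h z) (𝓝[≠] z) (𝓝 (2 * h z)) := by
    rw [two_mul]
    exact (hc.tendsto.mono_left nhdsWithin_le_nhds).add_const _
  have h2z : 2 * h z ≠ 0 := mul_ne_zero two_ne_zero h0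
  refine (hg.div h2 h2z).congr' ?_
  filter_upwards [h2.eventually_ne h2z] with y hy
  simp only [Pi.div_apply, slope_def_field, ← hsq]
  rw [div_eq_iff hy]
  ring

theorem improve_aux {c M : ℝ} (hc0 : 0 < c) (hc : c < 1) (hM : 0 < M) :
    M < (1 - c ^ 2) / (1 - c ^ 2) ^ 2 * ((1 - (c ^ 2) ^ 2) * M / (2 * c)) := by
  have h1 : 0 < 1 - c ^ 2 := by nlinarith
  have h2 : (1 - c ^ 2) / (1 - c ^ 2) ^ 2 * ((1 - (c ^ 2) ^ 2) * M / (2 * c))
      = (1 + c ^ 2) / (2 * c) * M := by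
    field_simp
    ring
  rw [h2]
  refine lt_mul_of_one_lt_left hM ?_
  rw [one_lt_div (by positivity)]
  nlinarith [mul_pos (sub_pos.mpr hc) (sub_pos.mpr hc)]

theorem norm_den (w : ℂ) (hw : ‖w‖ < 1) : ‖1 - conj w * w‖ = 1 - ‖w‖ ^ 2 := by
  rw [Complex.conj_mul', show (1 : ℂ) - (‖w‖ : ℂ) ^ 2 = ((1 - ‖w‖ ^ 2 : ℝ) : ℂ) by push_cast; ring,
    Complex.norm_real, Real.norm_of_nonneg (by nlinarith [norm_nonneg w])]

theorem improve {Ω : Set ℂ} (ho : IsOpen Ω) (hsc : IsSimplyConnected Ω) {x₀ : ℂ} (hx : x₀ ∈ Ω)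
    {φ : ℂ → ℂ} (hφ : Fam Ω x₀ φ) {w : ℂ} (hw : ‖w‖ < 1) (hwn : w ∉ φ '' Ω) :
    ∃ ψ, Fam Ω x₀ ψ ∧ ‖deriv φ x₀‖ < ‖deriv ψ x₀‖ := by
  have hφ1 : ∀ z ∈ Ω, ‖φ z‖ < 1 := fun z hz => mem_ball_zero_iff.mp (hφ.hm hz)
  have hφd : ∀ z ∈ Ω, HasDerivAt φ (deriv φ z) z := fun z hz =>
    (hφ.hd.differentiableAt (ho.mem_nhds hz)).hasDerivAt
  have hgd : ∀ z ∈ Ω, HasDerivAt (fun z => mob w (φ z))
      ((1 - conj w * w) / (1 - conj w * φ z) ^ 2 * deriv φ z) z := fun z hz =>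
    (mob_deriv hw (hφ1 z hz)).comp z (hφd z hz)
  have hg0 : ∀ z ∈ Ω, mob w (φ z) ≠ 0 := by
    intro z hz h
    rw [mob, div_eq_zero_iff] at h
    rcases h with h | h
    · exact hwn ⟨z, hz, sub_eq_zero.mp h⟩
    · exact den_ne hw (hφ1 z hz) h
  obtain ⟨h, hhc, hsq⟩ := Complex.exists_continuousOn_pow_eq hsc ho
    (g := fun z => mob w (φ z)) (fun z hz => (hgd z hz).continuousAt.continuousWithinAt)
    (by rintro ⟨z, hz, h0⟩; exact hg0 z hz h0) two_ne_zero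
  have hh0 : ∀ z ∈ Ω, h z ≠ 0 := by
    intro z hz h0
    have := hsq z
    rw [h0] at this
    exact hg0 z hz (by rw [← this]; simp)
  have hh1 : ∀ z ∈ Ω, ‖h z‖ < 1 := by
    intro z hz
    have h1 := mob_norm hw (hφ1 z hz)
    rw [← hsq z, norm_pow] at h1
    exact (pow_lt_one_iff_of_nonneg (norm_nonneg _) two_ne_zero).mp h1
  have hhd := fun z (hz : z ∈ Ω) =>
    sqrt_deriv (hgd z hz) (hhc.continuousAt (ho.mem_nhds hz)) hsq (hh0 z hz)
  set c := h x₀ with hc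
  have hc1 : ‖c‖ < 1 := hh1 x₀ hx
  have hψd := fun z (hz : z ∈ Ω) => (mob_deriv hc1 (hh1 z hz)).comp z (hhd z hz)
  refine ⟨mob c ∘ h, ⟨fun z hz => (hψd z hz).differentiableAt.differentiableWithinAt,
    fun z hz => mem_ball_zero_iff.mpr (mob_norm hc1 (hh1 z hz)), ?_, by simp [mob, hc], ?_⟩, ?_⟩
  · intro a ha b hb hab
    have h1 : h a = h b := mob_inj hc1 (hh1 a ha) (hh1 b hb) hab
    have h2 : mob w (φ a) = mob w (φ b) := by rw [← hsq a, ← hsq b, h1]
    exact hφ.inj ha hb (mob_inj hw (hφ1 a ha) (hφ1 b hb) h2)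
  · intro z hz
    rw [(hψd z hz).deriv]
    have e1 := den_ne hc1 hc1
    have e2 := den_ne hc1 (hh1 z hz)
    have e3 := den_ne hw hw
    have e4 := den_ne hw (hφ1 z hz)
    have e5 := hφ.dne z hz
    have e6 := hh0 z hz
    exact mul_ne_zero (div_ne_zero e1 (pow_ne_zero _ e2)) (div_ne_zero
      (mul_ne_zero (div_ne_zero e3 (pow_ne_zero _ e4)) e5) (mul_ne_zero two_ne_zero e6))
  · rw [(hψd x₀ hx).deriv]
    have hcw : ‖w‖ = ‖c‖ ^ 2 := by
      have := hsq x₀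
      rw [hφ.zero, mob] at this
      rw [← norm_pow, hc, this]
      simp
    simp only [norm_mul, norm_div, norm_pow, ← hc, norm_den c hc1, norm_den w hw, hφ.zero,
      mul_zero, sub_zero, one_pow, div_one, hcw, Complex.norm_ofNat]
    exact improve_aux (norm_pos_iff.mpr (hh0 x₀ hx)) hc1 (norm_pos_iff.mpr (hφ.dne x₀ hx))

end Riemann

open Riemann in
theorem riemann_mapping {Ω : Set ℂ} (ho : IsOpen Ω) (hsc : IsSimplyConnected Ω)
    (hb : Bornology.IsBounded Ω) {x₀ : ℂ} (hx : x₀ ∈ Ω) :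
    ∃ f φ : ℂ → ℂ, Conf Ω f φ ∧ f 0 = x₀ := by
  obtain ⟨φ, hφ, hmax⟩ := exists_max ho hsc.isPathConnected.isConnected.isPreconnected hb hx
  have hsurj : SurjOn φ Ω DD := by
    intro w hw
    by_contra hwn
    obtain ⟨ψ, hψ, hlt⟩ := improve ho hsc hx hφ (mem_ball_zero_iff.mp hw) hwn
    exact absurd (hmax ψ hψ) (not_le.mpr hlt)
  have hleft : LeftInvOn (Function.invFunOn φ Ω) φ Ω := hφ.inj.leftInvOn_invFunOn
  refine ⟨Function.invFunOn φ Ω, φ, ⟨?_, hφ.hd, hsurj.mapsTo_invFunOn, hφ.hm,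
    fun z hz => hsurj.rightInvOn_invFunOn hz, fun x hx => hleft hx⟩, ?_⟩
  · intro w hw
    obtain ⟨x, hxΩ, rfl⟩ := hsurj hw
    have h1 := (hφ.hd.analyticAt (ho.mem_nhds hxΩ)).hasStrictDerivAt
    have h2 := h1.to_local_left_inverse (hφ.dne x hxΩ) (g := Function.invFunOn φ Ω)
      (by filter_upwards [ho.mem_nhds hxΩ] with y hy using hleft hy)
    exact h2.hasDerivAt.differentiableAt.differentiableWithinAt
  · rw [← hφ.zero]
    exact hleft hx

end Vale.Agent.P071
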