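import Vale.Agent.P071.Transport
import Vale.Agent.P071.Riemann
import Vale.Agent.P071.GreenPt

/-! Uniform square integrability of the Green kernel against the conformal density. -/

open MeasureTheory Set Metric Filter Topology
open scoped ENNReal ComplexConjugate

namespace Vale.Agent.P071

namespace PotSq

open Riemann Green

variable {Ω : Set ℂ} {f φ : ℂ → ℂ}

lemma mob_mob {x w : ℂ} (hx : ‖x‖ < 1) (hw : ‖w‖ < 1) : mob (-x) (mob x w) = w := by
  have h1 := den_ne hx hw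
  have h3 := den_ne (w := -x) (by simpa using hx) (mob_norm hx hw)
  rw [mob, div_eq_iff h3, mob, map_neg, div_eq_mul_inv]
  have h4 := mul_inv_cancel₀ h1
  linear_combination (w - x) * h4

lemma schwarz_pick (hc : Conf Ω f φ) {R : ℝ} (hR : ∀ a ∈ Ω, ∀ b ∈ Ω, dist a b ≤ R) {x w : ℂ}
    (hx : x ∈ DD) (hw : w ∈ DD) : ‖f w - f x‖ ≤ R * (‖x - w‖ / ‖1 - x * conj w‖) := by
  have hx1 := norm_lt hx
  have hw1 := norm_lt hw
  have hx2 : ‖-x‖ < 1 := by simpa using hx1
  have hmaps : MapsTo (mob (-x)) DD DD := fun z hz => by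
    simpa [DD] using mob_norm hx2 (norm_lt hz)
  have hd : DifferentiableOn ℂ (f ∘ mob (-x)) DD :=
    hc.hf.comp (fun z hz => (mob_deriv hx2 (norm_lt hz)).differentiableAt.differentiableWithinAt)
      hmaps
  have h0 : mob (-x) 0 = x := by simp [mob]
  have hm : MapsTo (f ∘ mob (-x)) (ball 0 1) (closedBall ((f ∘ mob (-x)) 0) R) := fun z hz => by
    rw [mem_closedBall, Function.comp_apply, Function.comp_apply, h0]
    exact hR _ (hc.mapsf (hmaps hz)) _ (hc.mapsf hx)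
  have h := Complex.dist_le_div_mul_dist_of_mapsTo_ball hd hm
    (z := mob x w) (by simpa using mob_norm hx1 hw1)
  rw [Function.comp_apply, Function.comp_apply, h0, mob_mob hx1 hw1, dist_eq_norm, div_one,
    dist_zero_right, mob, norm_div, norm_sub_rev w x, mul_comm (conj x) w,
    ← norm_one_sub_comm x w] at h
  exact h

lemma sq_bound (hc : Conf Ω f φ) {R : ℝ} (hR : ∀ a ∈ Ω, ∀ b ∈ Ω, dist a b ≤ R) {x w : ℂ}
    (hx : x ∈ DD) (hw : w ∈ DD) (hxw : x ≠ w) :
    (1 + g0 x w) ^ 2 ≤ 4 * R * ‖f w - f x‖⁻¹ := by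
  have h := schwarz_pick hc hR hx hw
  have hd : 0 < ‖x - w‖ := norm_pos_iff.2 (sub_ne_zero.2 hxw)
  have he := one_sub_pos hx hw
  have hy : 0 < ‖f w - f x‖ := norm_pos_iff.2 (sub_ne_zero.2 fun h' =>
    hxw (Transport.injOn hc hw hx h').symm)
  set u := ‖1 - x * conj w‖ / ‖x - w‖ with hu
  have hu1 : 1 ≤ u := (one_le_div hd).2 (sub_le_one_sub hx hw)
  have hu2 : u ≤ R * ‖f w - f x‖⁻¹ := by
    rw [← div_eq_mul_inv, le_div_iff₀ hy]
    calc u * ‖f w - f x‖ ≤ u * (R * (‖x - w‖ / ‖1 - x * conj w‖)) :=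
          mul_le_mul_of_nonneg_left h (by linarith)
      _ = R := by rw [hu]; field_simp
  have hl : 0 ≤ Real.log u := Real.log_nonneg hu1
  have hpi := Real.pi_gt_three
  have h4 : (2 * Real.pi)⁻¹ ≤ 1 := inv_le_one_of_one_le₀ (by linarith)
  have h5 : g0 x w ≤ Real.log u := mul_le_of_le_one_left hl h4
  have hs : 0 < √u := Real.sqrt_pos.2 (by linarith)
  have h6 := Real.log_le_sub_one_of_pos hs
  rw [Real.log_sqrt (by linarith)] at h6
  have h7 : 1 + g0 x w ≤ 2 * √u := by linarith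
  have h8 := g0_nonneg hx hw
  calc (1 + g0 x w) ^ 2 ≤ (2 * √u) ^ 2 := pow_le_pow_left₀ (by linarith) h7 2
    _ = 4 * u := by rw [mul_pow, Real.sq_sqrt (by linarith)]; norm_num
    _ ≤ _ := by linarith

/-- The dominating function. -/
noncomputable def Ph (R : ℝ) (y : ℂ) : ℝ≥0∞ :=
  (ball (0 : ℂ) (R + 1)).indicator (fun y => ENNReal.ofReal (4 * R * ‖y‖⁻¹)) y

lemma Ph_fin (R : ℝ) : ∫⁻ y, Ph R y ≠ ⊤ := by
  unfold Ph
  rw [lintegral_indicator measurableSet_ball]
  have h : IntegrableOn (fun y : ℂ => 4 * R * ‖y‖⁻¹) (ball 0 (R + 1)) volume := by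
    refine integrableOn_ball_of_norm_le_rpow (C := |4 * R|) (α := 1) (by simp) (by norm_num)
      (Filter.Eventually.of_forall fun x => ?_) (Measurable.aestronglyMeasurable (by fun_prop))
    rw [Real.rpow_neg_one, norm_mul, Real.norm_eq_abs, Real.norm_of_nonneg (by positivity)]
  exact h.lintegral_lt_top.ne

lemma transfer (hc : Conf Ω f φ) {R : ℝ} (hR : ∀ a ∈ Ω, ∀ b ∈ Ω, dist a b ≤ R) {x : ℂ}
    (hx : x ∈ DD) {E : Set ℂ} (hE : MeasurableSet E) :
    ∫⁻ w in E, (1 + g0e x w) ^ 2 ∂(mm fun z => ‖deriv f z‖ ^ 2) ≤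
      ∫⁻ y in (fun y => y + f x) ⁻¹' (f '' (E ∩ DD)), Ph R y := by
  have hm1 : Measurable fun z => ENNReal.ofReal (‖deriv f z‖ ^ 2) :=
    ((measurable_deriv f).norm.pow_const 2).ennreal_ofReal
  have hm2 : Measurable fun w => (1 + g0e x w) ^ 2 :=
    ((measurable_g0e.comp (measurable_const.prodMk measurable_id)).const_add _).pow_const _
  have hED : MeasurableSet (E ∩ DD) := hE.inter measurableSet_ball
  have e1 := (measurePreserving_add_right volume (f x)).setLIntegral_comp_preimage_emb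
    (measurableEmbedding_addRight (f x)) (fun y => Ph R (y - f x)) (f '' (E ∩ DD))
  simp only [add_sub_cancel_right] at e1
  rw [e1, lintegral_image_eq_lintegral_abs_det_fderiv_mul volume hED
    (fun z hz => (Transport.hasF (Transport.diffAt hc hz.2)).hasFDerivWithinAt)
    ((Transport.injOn hc).mono inter_subset_right), mm,
    setLIntegral_withDensity_eq_setLIntegral_mul _ hm1 hm2 hE, Measure.restrict_restrict hE]
  refine lintegral_mono_ae ?_
  have hne : ∀ᵐ w ∂(volume : Measure ℂ), w ≠ x := by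
    rw [ae_iff]
    simp
  filter_upwards [ae_restrict_mem hED, ae_restrict_of_ae hne] with w hw hwx
  rw [Transport.det_hol, Pi.mul_apply]
  refine mul_le_mul_right ?_ _
  have h1 : f w - f x ∈ ball (0 : ℂ) (R + 1) := by
    have := hR _ (hc.mapsf hw.2) _ (hc.mapsf hx)
    rw [dist_eq_norm] at this
    rw [mem_ball_zero_iff]
    linarith
  have h2 := g0_nonneg hx hw.2
  rw [Ph, indicator_of_mem h1, g0e, if_neg hwx.symm, ← ENNReal.ofReal_one,
    ← ENNReal.ofReal_add zero_le_one h2, ← ENNReal.ofReal_pow (by linarith)]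
  exact ENNReal.ofReal_le_ofReal (sq_bound hc hR hx hw.2 hwx.symm)

lemma vol_small (hc : Conf Ω f φ) (hb : Bornology.IsBounded Ω) {δ : ℝ≥0∞} (hδ : 0 < δ) :
    ∃ r < 1, volume (f '' ((closedBall (0 : ℂ) r)ᶜ ∩ DD)) < δ := by
  set S : ℕ → Set ℂ := fun n => f '' ((closedBall (0 : ℂ) (1 - 1 / ((n : ℝ) + 1)))ᶜ ∩ DD) with hS
  have hmeas : ∀ n, MeasurableSet (S n) := fun n =>
    measurable_image_of_fderivWithin (measurableSet_closedBall.compl.inter measurableSet_ball)
      (fun z hz => (Transport.hasF (Transport.diffAt hc hz.2)).hasFDerivWithinAt)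
      ((Transport.injOn hc).mono inter_subset_right)
  have hanti : Antitone S := fun a b hab => by
    refine image_mono (inter_subset_inter_left _ (compl_subset_compl.2
      (closedBall_subset_closedBall ?_)))
    have : 1 / ((b : ℝ) + 1) ≤ 1 / ((a : ℝ) + 1) :=
      one_div_le_one_div_of_le (by positivity) (by exact_mod_cast Nat.succ_le_succ hab)
    linarith
  have hfin : volume (S 0) ≠ ⊤ :=
    ((measure_mono ((image_mono inter_subset_right).trans hc.mapsf.image_subset)).trans_lt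
      hb.measure_lt_top).ne
  have ht := tendsto_measure_iInter_atTop (fun n => (hmeas n).nullMeasurableSet) hanti ⟨0, hfin⟩
  have hemp : ⋂ n, S n = ∅ := by
    rw [eq_empty_iff_forall_notMem]
    intro y hy
    rw [mem_iInter] at hy
    obtain ⟨w, hw, hwy⟩ := hy 0
    obtain ⟨n, hn⟩ := exists_nat_one_div_lt (show 0 < 1 - ‖w‖ by linarith [norm_lt hw.2])
    obtain ⟨v, hv, hvy⟩ := hy n
    have hvw : v = w := Transport.injOn hc hv.2 hw.2 (hvy.trans hwy.symm)
    apply hv.1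
    rw [hvw, mem_closedBall_zero_iff]
    linarith
  rw [hemp, measure_empty] at ht
  obtain ⟨n, hn⟩ := (ht.eventually (gt_mem_nhds hδ)).exists
  refine ⟨1 - 1 / ((n : ℝ) + 1), ?_, hn⟩
  have : 0 < 1 / ((n : ℝ) + 1) := by positivity
  linarith

end PotSq

open PotSq in
theorem Conf.sq_small {Ω : Set ℂ} {f φ : ℂ → ℂ} (hc : Conf Ω f φ) (ho : IsOpen Ω)
    (hb : Bornology.IsBounded Ω) :
    (∃ A : ℝ≥0∞, A ≠ ⊤ ∧ ∀ x ∈ DD,
      ∫⁻ w, (1 + g0e x w) ^ 2 ∂(mm fun z => ‖deriv f z‖ ^ 2) ≤ A) ∧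
    ∀ ε : ℝ≥0∞, ε ≠ 0 → ∃ r < 1, ∀ x ∈ DD,
      ∫⁻ w in (Metric.closedBall 0 r)ᶜ, (1 + g0e x w) ^ 2 ∂(mm fun z => ‖deriv f z‖ ^ 2) ≤ ε := by
  have _ := ho
  obtain ⟨R, hR⟩ := Metric.isBounded_iff.1 hb
  have hR' : ∀ a ∈ Ω, ∀ b ∈ Ω, dist a b ≤ R := fun a ha b hb => hR ha hb
  constructor
  · refine ⟨_, Ph_fin R, fun x hx => ?_⟩
    have h := transfer hc hR' hx MeasurableSet.univ
    rw [Measure.restrict_univ] at h
    exact h.trans (lintegral_mono' Measure.restrict_le_self le_rfl)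
  · intro ε hε
    obtain ⟨δ, hδ, hsm⟩ := exists_pos_setLIntegral_lt_of_measure_lt (Ph_fin R) hε
    obtain ⟨r, hr, hv⟩ := vol_small hc hb hδ
    refine ⟨r, hr, fun x hx => (transfer hc hR' hx measurableSet_closedBall.compl).trans
      (hsm _ ?_).le⟩
    rwa [measure_preimage_add_right]

end Vale.Agent.P071
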