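import Vale.Agent.P071.ShellsAux

/-! Caccioppoli inequality and the shell estimates on the disc. -/

open MeasureTheory Set Metric Filter Topology
open scoped ENNReal

namespace Vale.Agent.P071

namespace Shells

variable {Ω : Set ℂ} {f φ : ℂ → ℂ}

/-- A dyadic layer. -/
def lay (Ω : Set ℂ) (η : ℝ) : Set ℂ := {x | η ≤ dist' Ω x ∧ dist' Ω x ≤ 2 * η}

theorem lay_subset {η : ℝ} (hη : 0 < η) : lay Ω η ⊆ Ω := fun _ hx => mem_of_pos (hη.trans_le hx.1)

theorem measurableSet_lay (η : ℝ) : MeasurableSet (lay Ω η) :=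
  (isClosed_Icc.preimage continuous_dist').measurableSet

theorem layer_le {F : ℂ → ℝ} (hF0 : ∀ x, 0 ≤ F x) (hF : IntegrableOn F Ω) {η : ℝ} (hη : 0 < η) :
    ∫ x in lay Ω η, F x ≤ ∫ x in Ω ∩ {x | dist' Ω x < 3 * η}, F x :=
  setIntegral_mono_set (hF.mono_set inter_subset_left) (Eventually.of_forall hF0)
    (show lay Ω η ⊆ Ω ∩ {x | dist' Ω x < 3 * η} from fun x hx =>
      ⟨lay_subset hη hx, show dist' Ω x < 3 * η by linarith [hx.2]⟩).eventuallyLE

theorem exists_layer {d D : ℝ} (hd : d ≤ D) (N : ℕ) (h : D * (1 / 2) ^ (N + 1) ≤ d) :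
    ∃ k ≤ N, D * (1 / 2) ^ (k + 1) ≤ d ∧ d ≤ 2 * (D * (1 / 2) ^ (k + 1)) := by
  induction N with
  | zero => exact ⟨0, le_rfl, h, by linarith⟩
  | succ N ih =>
    rcases le_or_gt (D * (1 / 2) ^ (N + 1)) d with h1 | h1
    · obtain ⟨k, hk, h2⟩ := ih h1
      exact ⟨k, hk.trans (Nat.le_succ N), h2⟩
    · refine ⟨N + 1, le_rfl, h, ?_⟩
      rw [pow_succ _ (N + 1)]
      linarith

theorem key (ho : IsOpen Ω) (hb : Bornology.IsBounded Ω) {W : Fin 2 → ℂ → ℝ}
    (hW : ∀ i, ContDiffOn ℝ (⊤ : ℕ∞) (W i) Ω)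
    {μ : ℝ} (hlap : ∀ i, ∀ x ∈ Ω, lap (W i) x = -μ * W i x)
    (hint : ∀ i, IntegrableOn (fun x => W i x ^ 2) Ω)
    (hN : ∃ C : ℝ, ∀ i, ∀ η > 0, ∫ x in Ω ∩ {x | dist' Ω x < η}, W i x ^ 2 ≤ C * η)
    (hD : IntegrableOn (fun x => ‖deriv φ x‖ ^ 2) Ω ∧
      ∃ C : ℝ, ∀ η > 0, ∫ x in Ω ∩ {x | dist' Ω x < η}, ‖deriv φ x‖ ^ 2 ≤ C * η) :
    ∃ A : ℝ, 0 ≤ A ∧ ∀ (i : Fin 2) (η a b c : ℝ) (T : ℂ → ℝ), 0 < η → 0 ≤ a → 0 ≤ b → 0 ≤ c →
      (∀ x ∈ lay Ω η, T x ≤ a * W i x ^ 2 + b * gdot (W i) (W i) x + c * ‖deriv φ x‖ ^ 2) →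
      ∫⁻ x in lay Ω η, ENNReal.ofReal (T x) ≤ ENNReal.ofReal (A * (a * η + b / η + c * η)) := by
  obtain ⟨CN, hCN⟩ := hN
  obtain ⟨hDi, CD, hCD⟩ := hD
  choose Cc hCc0 hCc using fun i => cacc ho hb (hW i) (hlap i) (hint i)
  have hCN0 : 0 ≤ CN := by
    simpa using (integral_nonneg fun x => sq_nonneg _).trans (hCN 0 1 one_pos)
  have hCD0 : 0 ≤ CD := by
    simpa using (integral_nonneg fun x => sq_nonneg _).trans (hCD 1 one_pos)
  have hS0 : 0 ≤ ∑ i, Cc i := Finset.sum_nonneg fun i _ => hCc0 i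
  refine ⟨3 * CN + 3 * CN * ∑ i, Cc i + 3 * CD, by positivity,
    fun i η a b c T hη ha hb' hc hT => ?_⟩
  have h1 : IntegrableOn (fun x => a * W i x ^ 2) (lay Ω η) :=
    ((hint i).mono_set (lay_subset hη)).const_mul a
  have h2 : IntegrableOn (fun x => b * gdot (W i) (W i) x) (lay Ω η) :=
    (((continuousOn_gdot ho ((hW i).of_le one_le_oo) ((hW i).of_le one_le_oo)).mono
      (lay_subset hη)).integrableOn_compact (isCompact_layer hb hη)).const_mul b
  have h3 : IntegrableOn (fun x => c * ‖deriv φ x‖ ^ 2) (lay Ω η) :=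
    (hDi.mono_set (lay_subset hη)).const_mul c
  have h12 : IntegrableOn (fun x => a * W i x ^ 2 + b * gdot (W i) (W i) x) (lay Ω η) := h1.add h2
  have h123 : IntegrableOn (fun x => a * W i x ^ 2 + b * gdot (W i) (W i) x +
    c * ‖deriv φ x‖ ^ 2) (lay Ω η) := h12.add h3
  refine (setLIntegral_mono' (measurableSet_lay η) fun x hx =>
    ENNReal.ofReal_le_ofReal (hT x hx)).trans ?_
  rw [← ofReal_integral_eq_lintegral_ofReal h123 (Eventually.of_forall fun x => by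
    have := gdot_self_nonneg (a := W i) (z := x)
    simp only [Pi.zero_apply]
    positivity), integral_add h12 h3, integral_add h1 h2, integral_const_mul, integral_const_mul,
    integral_const_mul]
  refine ENNReal.ofReal_le_ofReal ?_
  have e1 := (layer_le (fun x => sq_nonneg _) (hint i) hη).trans (hCN i (3 * η) (by positivity))
  have e3 := (layer_le (fun x => sq_nonneg _) hDi hη).trans (hCD (3 * η) (by positivity))
  have e2 : ∫ x in lay Ω η, gdot (W i) (W i) x ≤ 3 * CN * (∑ i, Cc i) / η := by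
    refine (hCc i η hη).trans ((mul_le_mul (div_le_div_of_nonneg_right
      (Finset.single_le_sum (fun j _ => hCc0 j) (Finset.mem_univ i)) (by positivity))
      (hCN i (3 * η) (by positivity)) (integral_nonneg fun x => sq_nonneg _)
      (by positivity)).trans (le_of_eq ?_))
    field_simp
  have f1 := mul_le_mul_of_nonneg_left e1 ha
  have f2 := mul_le_mul_of_nonneg_left e2 hb'
  have f3 := mul_le_mul_of_nonneg_left e3 hc
  have g1 : 0 ≤ (3 * CN * ∑ i, Cc i + 3 * CD) * (a * η) := by positivity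
  have g2 : 0 ≤ (3 * CN + 3 * CD) * (b / η) := by positivity
  have g3 : 0 ≤ (3 * CN + 3 * CN * ∑ i, Cc i) * (c * η) := by positivity
  have g4 : b * (3 * CN * (∑ i, Cc i) / η) = 3 * CN * (∑ i, Cc i) * (b / η) := by ring
  linarith

theorem hh_pos {z : ℂ} (hz : z ∈ DD) : 0 < hh z := by
  have := mem_ball_zero_iff.1 hz
  rw [hh]
  nlinarith [norm_nonneg z]

theorem mem_DD {z : ℂ} (hz : 0 < hh z) : z ∈ DD := by
  rw [hh] at hz
  exact mem_ball_zero_iff.2 (by nlinarith [norm_nonneg z])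

theorem continuous_hh : Continuous hh := by
  unfold hh
  fun_prop

theorem claim1 (ho : IsOpen Ω) (hb : Bornology.IsBounded Ω) (hc : Conf Ω f φ) {W : ℂ → ℝ}
    (hW : ContDiffOn ℝ (⊤ : ℕ∞) W Ω) {A : ℝ}
    (hA : ∀ (η a b c : ℝ) (T : ℂ → ℝ), 0 < η → 0 ≤ a → 0 ≤ b → 0 ≤ c →
      (∀ x ∈ lay Ω η, T x ≤ a * W x ^ 2 + b * gdot W W x + c * ‖deriv φ x‖ ^ 2) →
      ∫⁻ x in lay Ω η, ENNReal.ofReal (T x) ≤ ENNReal.ofReal (A * (a * η + b / η + c * η)))
    {C γ : ℝ} (hC : 0 ≤ C) (hγ : 1 / 2 < γ) (hB : ∀ x ∈ Ω, hh (φ x) ≤ C * dist' Ω x ^ γ) :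
    IntegrableOn (fun z => (W ∘ f) z ^ 2 + hh z ^ 2 * gdot (W ∘ f) (W ∘ f) z) DD := by
  obtain ⟨D, hD, hDx⟩ := exists_bound hb
  refine ⟨AEStronglyMeasurable.add ?_ ?_, ?_⟩
  · exact ((hW.continuousOn.comp hc.hf.continuousOn hc.mapsf).pow 2).aestronglyMeasurable
      isOpen_ball.measurableSet
  · exact ((continuous_hh.measurable.pow_const 2).mul measurable_gdot).aestronglyMeasurable
  rw [hasFiniteIntegral_iff_ofReal (Eventually.of_forall fun z =>
    add_nonneg (sq_nonneg _) (mul_nonneg (sq_nonneg _) gdot_self_nonneg)), transfer ho hc]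
  have hcov : Ω ⊆ ⋃ k : ℕ, lay Ω (D * (1 / 2) ^ (k + 1)) := fun x hx => by
    obtain ⟨N, hN⟩ := exists_pow_lt_of_lt_one (div_pos (pos_of_mem ho hb hx) hD)
      (by norm_num : (1 / 2 : ℝ) < 1)
    rw [lt_div_iff₀ hD] at hN
    obtain ⟨k, -, hk⟩ := exists_layer (hDx x) N (by
      have : 0 < (1 / 2 : ℝ) ^ N * D := by positivity
      rw [pow_succ]
      linarith)
    exact mem_iUnion.2 ⟨k, hk⟩
  have hr : (1 / 2 : ℝ) ^ (2 * γ - 1) < 1 := Real.rpow_lt_one (by norm_num) (by norm_num) (by linarith)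
  have hsum : Summable fun k : ℕ => 4 * A * C ^ 2 * D ^ (2 * γ - 1) * ((1 / 2 : ℝ) ^ (2 * γ - 1)) ^ k :=
    (summable_geometric_of_lt_one (by positivity) hr).mul_left _
  refine lt_of_le_of_lt ((lintegral_mono_set hcov).trans ((lintegral_iUnion_le _ _).trans
    (ENNReal.tsum_le_tsum fun k => ?_))) hsum.tsum_ofReal_lt_top
  set η : ℝ := D * (1 / 2) ^ (k + 1) with hη
  have hη0 : 0 < η := by positivity
  simp only [← ENNReal.ofReal_mul (sq_nonneg _)]
  refine (hA η ((C * (2 * η) ^ γ / η) ^ 2) ((C * (2 * η) ^ γ) ^ 2) 0 _ hη0 (sq_nonneg _)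
    (sq_nonneg _) le_rfl fun x hx => ?_).trans (le_of_eq ?_)
  · have hxΩ := lay_subset hη0 hx
    have h1 : hh (φ x) ≤ C * (2 * η) ^ γ := (hB x hxΩ).trans (mul_le_mul_of_nonneg_left
      (Real.rpow_le_rpow (dist'_nonneg x) hx.2 (by linarith)) hC)
    have h2 : ‖deriv φ x‖ ≤ C * (2 * η) ^ γ / η := by
      rw [le_div_iff₀ hη0]
      exact (mul_le_mul_of_nonneg_left hx.1 (norm_nonneg _)).trans
        ((schwarz_pick ho hb hc hxΩ).trans h1)
    have h3 := mul_le_mul_of_nonneg_right (pow_le_pow_left₀ (norm_nonneg _) h2 2) (sq_nonneg (W x))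
    have h4 := mul_le_mul_of_nonneg_right (pow_le_pow_left₀ (hh_pos (hc.mapsφ hxΩ)).le h1 2)
      (gdot_self_nonneg (a := W) (z := x))
    rw [gdot_transfer ho hc hW hxΩ] at h4 ⊢
    rw [Function.comp_apply, hc.right x hxΩ]
    linarith
  · congr 1
    have h1 : ((2 * η) ^ γ) ^ 2 = (2 * η) ^ (2 * γ - 1) * (2 * η) := by
      rw [← Real.rpow_natCast, ← Real.rpow_mul (by positivity), ← Real.rpow_add_one (by positivity)]
      congr 1
      push_cast
      ring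
    have h2 : (2 * η) ^ (2 * γ - 1) = D ^ (2 * γ - 1) * ((1 / 2 : ℝ) ^ (2 * γ - 1)) ^ k := by
      rw [show 2 * η = D * (1 / 2) ^ k by rw [hη]; ring, Real.mul_rpow hD.le (by positivity),
        ← Real.rpow_pow_comm (by norm_num)]
    rw [div_pow, mul_pow, h1, h2]
    field_simp
    ring

theorem isClosed_shell (δ : ℝ) : IsClosed (shell δ) := isClosed_Icc.preimage continuous_hh

theorem claim2 (ho : IsOpen Ω) (hb : Bornology.IsBounded Ω) (hc : Conf Ω f φ) {W : ℂ → ℝ}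
    (hW : ContDiffOn ℝ (⊤ : ℕ∞) W Ω) {A : ℝ} (hA0 : 0 ≤ A)
    (hA : ∀ (η a b c : ℝ) (T : ℂ → ℝ), 0 < η → 0 ≤ a → 0 ≤ b → 0 ≤ c →
      (∀ x ∈ lay Ω η, T x ≤ a * W x ^ 2 + b * gdot W W x + c * ‖deriv φ x‖ ^ 2) →
      ∫⁻ x in lay Ω η, ENNReal.ofReal (T x) ≤ ENNReal.ofReal (A * (a * η + b / η + c * η)))
    {C γ : ℝ} (hC : 0 ≤ C) (hγ : 1 / 2 < γ) (hB : ∀ x ∈ Ω, hh (φ x) ≤ C * dist' Ω x ^ γ) :
    ∃ K : ℝ, ∀ J : ℕ, 1 ≤ J → ∑ k ∈ Finset.Ico J (2 * J), ∫ z in shell ((1 / 4) ^ k),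
      (|(W ∘ f) z| / (1 / 4) ^ k + |d1 (W ∘ f) z| + |d2 (W ∘ f) z|) ≤ J * K := by
  obtain ⟨D, hD, hDx⟩ := exists_bound hb
  obtain ⟨m, hm⟩ := pow_unbounded_of_one_lt ((C * D ^ γ) ^ 2) (one_lt_two (α := ℝ))
  refine ⟨(9 + m) * (5 * A), fun J hJ => ?_⟩
  set g : ℂ → ℝ := fun z => 2 * |(W ∘ f) z| / hh z + |d1 (W ∘ f) z| + |d2 (W ∘ f) z| with hg
  set E : Set ℂ := {z | (1 / 4) ^ (2 * J) ≤ hh z} with hE
  have hEm : MeasurableSet E := (isClosed_le continuous_const continuous_hh).measurableSet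
  set U : Set ℂ := ⋃ k : Fin (8 * J + m + 1), lay Ω (D * (1 / 2) ^ ((k : ℕ) + 1)) with hU
  have hUm : MeasurableSet U := MeasurableSet.iUnion fun k => measurableSet_lay _
  have hlay : ∀ η : ℝ, 0 < η → ∫⁻ x in lay Ω η, ENNReal.ofReal (‖deriv φ x‖ ^ 2 * g (φ x)) ≤
      ENNReal.ofReal (5 * A) := by
    intro η hη
    refine (hA η (1 / η) η (3 / η) _ hη (by positivity) hη.le (by positivity)
      fun x hx => ?_).trans (le_of_eq ?_)
    · have hxΩ := lay_subset hη hx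
      have h0 := hh_pos (hc.mapsφ hxΩ)
      have h1 : ‖deriv φ x‖ / hh (φ x) ≤ 1 / η := by
        rw [div_le_div_iff₀ h0 hη, one_mul]
        exact (mul_le_mul_of_nonneg_left hx.1 (norm_nonneg _)).trans (schwarz_pick ho hb hc hxΩ)
      rw [gdot_transfer ho hc hW hxΩ]
      simp only [hg, gdot]
      rw [Function.comp_apply, hc.right x hxΩ, ← abs_mul_abs_self (d1 _ _),
        ← abs_mul_abs_self (d2 _ _), ← sq_abs (W x)]
      set u := ‖deriv φ x‖
      have hu : 0 ≤ u := norm_nonneg _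
      have h2 := mul_le_mul_of_nonneg_right h1 (mul_nonneg hu (abs_nonneg (W x)))
      have h3 : ∀ s : ℝ, u * s ≤ 1 / η * u ^ 2 + η * s ^ 2 := fun s => by
        have h4 : 1 / η * u ^ 2 + η * s ^ 2 - 2 * (u * s) = (u - η * s) ^ 2 / η := by
          field_simp
          ring
        have h5 : 0 ≤ (u - η * s) ^ 2 / η := by positivity
        have h6 : 0 ≤ 1 / η * u ^ 2 + η * s ^ 2 := by positivity
        linarith
      have h4 := mul_nonneg (by positivity : 0 ≤ 1 / η) (sq_nonneg (u - |W x|))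
      have h5 := h3 (u * |d1 (W ∘ f) (φ x)|)
      have h6 := h3 (u * |d2 (W ∘ f) (φ x)|)
      have h7 : u ^ 2 * (2 * |W x| / hh (φ x)) = 2 * (u / hh (φ x) * (u * |W x|)) := by ring
      have h8 : 3 / η = 3 * (1 / η) := by ring
      rw [mul_add, mul_add, h7, h8]
      linarith
    · congr 1
      field_simp
      ring
  have hmain : ∫⁻ z in E, ENNReal.ofReal (g z) ≤ ENNReal.ofReal (J * ((9 + m) * (5 * A))) := by
    have hED : E ⊆ DD := fun z hz => mem_DD (lt_of_lt_of_le (by positivity) hz)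
    calc ∫⁻ z in E, ENNReal.ofReal (g z)
        = ∫⁻ z in DD, E.indicator (fun z => ENNReal.ofReal (g z)) z := by
          rw [setLIntegral_indicator hEm, inter_eq_left.2 hED]
      _ ≤ ∫⁻ x in Ω, U.indicator (fun x => ENNReal.ofReal (‖deriv φ x‖ ^ 2 * g (φ x))) x := by
          rw [transfer ho hc]
          refine setLIntegral_mono' ho.measurableSet fun x hx => ?_
          by_cases hxE : φ x ∈ E
          · have hxU : x ∈ U := by
              have hd := pos_of_mem ho hb hx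
              have h1 : dist' Ω x ^ γ ≤ D ^ γ * √(dist' Ω x / D) := by
                rw [Real.sqrt_eq_rpow]
                calc dist' Ω x ^ γ = D ^ γ * (dist' Ω x / D) ^ γ := by
                      rw [← Real.mul_rpow hD.le (by positivity), mul_div_cancel₀ _ hD.ne']
                  _ ≤ _ := mul_le_mul_of_nonneg_left (Real.rpow_le_rpow_of_exponent_ge
                      (by positivity) ((div_le_one hD).2 (hDx x)) hγ.le) (by positivity)
              have h2 : (1 / 4 : ℝ) ^ (2 * J) ≤ C * D ^ γ * √(dist' Ω x / D) := by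
                rw [mul_assoc]
                exact (le_trans hxE (hB x hx)).trans (mul_le_mul_of_nonneg_left h1 hC)
              have h3 := pow_le_pow_left₀ (by positivity) h2 2
              rw [mul_pow _ (√_), Real.sq_sqrt (by positivity)] at h3
              have h4 := h3.trans (mul_le_mul_of_nonneg_right hm.le (by positivity))
              obtain ⟨k, hk, hk'⟩ := exists_layer (hDx x) (8 * J + m) (by
                have h5 : ((1 / 4 : ℝ) ^ (2 * J)) ^ 2 = (1 / 2) ^ (8 * J) := by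
                  rw [show (1 / 4 : ℝ) = (1 / 2) ^ 2 by norm_num, ← pow_mul, ← pow_mul]
                  congr 1
                  ring
                have h6 : (1 / 2 : ℝ) ^ m * 2 ^ m = 1 := by
                  rw [← mul_pow]
                  norm_num
                rw [h5, ← mul_div_assoc, le_div_iff₀ hD] at h4
                have h7 := mul_le_mul_of_nonneg_left h4 (by positivity : (0 : ℝ) ≤ (1 / 2) ^ m)
                rw [← mul_assoc _ (2 ^ m), h6, one_mul] at h7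
                have h8 : 0 ≤ (1 / 2 : ℝ) ^ m * ((1 / 2) ^ (8 * J) * D) := by positivity
                rw [pow_succ, pow_add]
                linarith)
              exact mem_iUnion.2 ⟨⟨k, Nat.lt_succ_of_le hk⟩, hk'⟩
            rw [indicator_of_mem hxE, indicator_of_mem hxU, ENNReal.ofReal_mul (sq_nonneg _)]
          · rw [indicator_of_notMem hxE, mul_zero]
            exact zero_le
      _ ≤ ∫⁻ x in U, ENNReal.ofReal (‖deriv φ x‖ ^ 2 * g (φ x)) := by
          rw [← lintegral_indicator hUm]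
          exact setLIntegral_le_lintegral _ _
      _ ≤ ∑' _k : Fin (8 * J + m + 1), ENNReal.ofReal (5 * A) :=
          (lintegral_iUnion_le _ _).trans (ENNReal.tsum_le_tsum fun k => hlay _ (by positivity))
      _ ≤ _ := by
          rw [tsum_fintype, ← ENNReal.ofReal_sum_of_nonneg fun _ _ => by positivity]
          refine ENNReal.ofReal_le_ofReal ?_
          rw [Finset.sum_const, Finset.card_univ, Fintype.card_fin, nsmul_eq_mul,
            ← mul_assoc (J : ℝ)]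
          refine mul_le_mul_of_nonneg_right ?_ (by positivity)
          have : 8 * J + m + 1 ≤ J * (9 + m) := by nlinarith
          exact_mod_cast this
  refine (ENNReal.ofReal_le_ofReal_iff (by positivity)).1 ?_
  rw [ENNReal.ofReal_sum_of_nonneg
    fun k _ => integral_nonneg fun z => by simp only [Pi.zero_apply]; positivity]
  refine le_trans ?_ hmain
  have hdisj : ∀ k k' : ℕ, k < k' → Disjoint (shell ((1 / 4) ^ k)) (shell ((1 / 4) ^ k')) := by
    intro k k' hk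
    refine Set.disjoint_left.2 fun z h1 h2 => ?_
    have h3 : (1 / 4 : ℝ) ^ k' ≤ (1 / 4) ^ (k + 1) :=
      pow_le_pow_of_le_one (by norm_num) (by norm_num) hk
    have h4 : 0 < (1 / 4 : ℝ) ^ k := by positivity
    rw [pow_succ] at h3
    linarith [h1.1, h2.2]
  calc _ ≤ ∑ k ∈ Finset.Ico J (2 * J), ∫⁻ z in shell ((1 / 4) ^ k), ENNReal.ofReal (g z) := by
        refine Finset.sum_le_sum fun k _ => (Real.ofReal_le_enorm _).trans
          ((enorm_integral_le_lintegral_enorm _).trans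
            (setLIntegral_mono' (isClosed_shell _).measurableSet fun z hz => ?_))
        have h1 : 0 < (1 / 4 : ℝ) ^ k := by positivity
        rw [Real.enorm_eq_ofReal (by positivity)]
        refine ENNReal.ofReal_le_ofReal (add_le_add (add_le_add ?_ le_rfl) le_rfl)
        rw [div_le_div_iff₀ h1 (h1.trans_le hz.1)]
        nlinarith [hz.2, abs_nonneg ((W ∘ f) z)]
    _ = ∫⁻ z in ⋃ k ∈ Finset.Ico J (2 * J), shell ((1 / 4) ^ k), ENNReal.ofReal (g z) := by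
        rw [lintegral_biUnion_finset (fun k _ k' _ hkk => ?_)
          fun k _ => (isClosed_shell _).measurableSet]
        rcases lt_or_gt_of_ne hkk with h | h
        · exact hdisj k k' h
        · exact (hdisj k' k h).symm
    _ ≤ _ := by
        refine lintegral_mono_set (iUnion₂_subset fun k hk z hz => le_trans ?_ hz.1)
        exact pow_le_pow_of_le_one (by norm_num) (by norm_num) (Finset.mem_Ico.1 hk).2.le

end Shells

theorem caccioppoli {Ω : Set ℂ} (ho : IsOpen Ω) (hb : Bornology.IsBounded Ω) {W : ℂ → ℝ}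
    (hW : ContDiffOn ℝ (⊤ : ℕ∞) W Ω) {μ : ℝ} (hlap : ∀ x ∈ Ω, lap W x = -μ * W x)
    (hint : IntegrableOn (fun x => W x ^ 2) Ω) :
    ∃ C : ℝ, ∀ η > 0, ∫ x in {x | η ≤ dist' Ω x ∧ dist' Ω x ≤ 2 * η}, gdot W W x ≤
      C / η ^ 2 * ∫ x in Ω ∩ {x | dist' Ω x < 3 * η}, W x ^ 2 :=
  let ⟨C, _, h⟩ := Shells.cacc ho hb hW hlap hint
  ⟨C, h⟩

theorem shell_estimates {Ω : Set ℂ} (ho : IsOpen Ω) (hb : Bornology.IsBounded Ω)
    {f φ : ℂ → ℂ} (hc : Conf Ω f φ) {W : Fin 2 → ℂ → ℝ} (hW : ∀ i, ContDiffOn ℝ (⊤ : ℕ∞) (W i) Ω)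
    {μ : ℝ} (hlap : ∀ i, ∀ x ∈ Ω, lap (W i) x = -μ * W i x)
    (hint : ∀ i, IntegrableOn (fun x => W i x ^ 2) Ω)
    (hN : ∃ C : ℝ, ∀ i, ∀ η > 0, ∫ x in Ω ∩ {x | dist' Ω x < η}, W i x ^ 2 ≤ C * η)
    (hD : IntegrableOn (fun x => ‖deriv φ x‖ ^ 2) Ω ∧
      ∃ C : ℝ, ∀ η > 0, ∫ x in Ω ∩ {x | dist' Ω x < η}, ‖deriv φ x‖ ^ 2 ≤ C * η)
    (hB : ∃ C γ : ℝ, 0 ≤ C ∧ 1 / 2 < γ ∧ γ ≤ 1 ∧ ∀ x ∈ Ω, hh (φ x) ≤ C * dist' Ω x ^ γ) :
    (∀ i, IntegrableOn (fun z => (W i ∘ f) z ^ 2 + hh z ^ 2 * gdot (W i ∘ f) (W i ∘ f) z) DD) ∧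
    ∃ C : ℝ, ∀ δ₀ > 0, ∃ δ, 0 < δ ∧ δ < δ₀ ∧ ∀ i,
      ∫ z in shell δ, (|(W i ∘ f) z| / δ + |d1 (W i ∘ f) z| + |d2 (W i ∘ f) z|) ≤ C := by
  obtain ⟨A, hA0, hA⟩ := Shells.key ho hb hW hlap hint hN hD
  obtain ⟨C, γ, hC, hγ, -, hB⟩ := hB
  refine ⟨fun i => Shells.claim1 ho hb hc (hW i) (hA i) hC hγ hB, ?_⟩
  choose K hK using fun i => Shells.claim2 ho hb hc (hW i) hA0 (hA i) hC hγ hB
  refine ⟨∑ i, K i, fun δ₀ hδ₀ => ?_⟩
  obtain ⟨J, hJ⟩ := exists_pow_lt_of_lt_one hδ₀ (by norm_num : (1 / 4 : ℝ) < 1)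
  obtain ⟨k, hk, hk'⟩ := Finset.exists_le_of_sum_le (s := Finset.Ico (J + 1) (2 * (J + 1)))
    (f := fun k => ∑ i, ∫ z in shell ((1 / 4) ^ k),
      (|(W i ∘ f) z| / (1 / 4) ^ k + |d1 (W i ∘ f) z| + |d2 (W i ∘ f) z|))
    (g := fun _ => ∑ i, K i) (Finset.nonempty_Ico.2 (by omega)) (by
      rw [Finset.sum_comm, Finset.sum_const, Nat.card_Ico, nsmul_eq_mul, Finset.mul_sum,
        show 2 * (J + 1) - (J + 1) = J + 1 by omega]
      exact Finset.sum_le_sum fun i _ => hK i (J + 1) (by omega))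
  refine ⟨(1 / 4) ^ k, by positivity, lt_of_le_of_lt (pow_le_pow_of_le_one (by norm_num)
    (by norm_num) (by have := (Finset.mem_Ico.1 hk).1; omega)) hJ, fun i => le_trans ?_ hk'⟩
  exact Finset.single_le_sum (f := fun i => ∫ z in shell ((1 / 4) ^ k),
    (|(W i ∘ f) z| / (1 / 4) ^ k + |d1 (W i ∘ f) z| + |d2 (W i ∘ f) z|))
    (fun i _ => integral_nonneg fun z => by simp only [Pi.zero_apply]; positivity)
    (Finset.mem_univ i)

end Vale.Agent.P071
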