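import Vale.Agent.P071.Step3
import Vale.Agent.P071.Hodge
import Vale.Agent.P071.DPplus
import Vale.Agent.P071.PotSq
import Vale.Agent.P071.Eigen
import Vale.Agent.P071.Poincare
import Vale.Agent.P071.Shells
import Vale.Agent.P071.Neumann
import Vale.Agent.P071.Dirichlet
import Vale.Agent.P071.Barrier

/-! No interior critical points, and the hot spots inequality. -/

open MeasureTheory Set Metric Filter Topology
open scoped ENNReal

namespace Vale.Agent.P071

lemma lap_dd {U : Set ℂ} (hU : IsOpen U) {a : ℂ → ℝ} (ha : ContDiffOn ℝ oo a U) (v : ℂ) {z : ℂ}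
    (hz : z ∈ U) : lap (dd v a) z = dd v (lap a) z := by
  have key : ∀ e : ℂ, dd e (dd e (dd v a)) z = dd v (dd e (dd e a)) z := fun e => by
    have h1 : dd e (dd v a) =ᶠ[𝓝 z] dd v (dd e a) := by
      filter_upwards [hU.mem_nhds hz] with x hx
      exact dd_comm ((ha.of_le two_le_oo).contDiffAt (hU.mem_nhds hx))
    rw [dd_congr h1]
    exact dd_comm (((contDiffOn_dd hU ha oo_add_one).of_le two_le_oo).contDiffAt (hU.mem_nhds hz))
  have hd := fun e => diffAt_of hU (contDiffOn_dd (v := e) hU (contDiffOn_dd (v := e) hU ha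
    oo_add_one) oo_add_one) hz
  change dd 1 (dd 1 (dd v a)) z + dd Complex.I (dd Complex.I (dd v a)) z =
    dd v (fun x => dd 1 (dd 1 a) x + dd Complex.I (dd Complex.I a) x) z
  rw [key, key, dd_add (hd _) (hd _)]

theorem no_critical {Ω : Set ℂ} (ho : IsOpen Ω) (hb : Bornology.IsBounded Ω)
    (hsc : IsSimplyConnected Ω) (hL : IsLipschitzDomain Ω) {u : ℂ → ℝ} (he : IsEigenfunction Ω u)
    (hs : ContDiffOn ℝ oo u Ω) (hc : ContinuousOn u (closure Ω)) (hne : ∃ x ∈ Ω, u x ≠ 0)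
    {x₀ : ℂ} (hx₀ : x₀ ∈ Ω) : fderiv ℝ u x₀ ≠ 0 := by
  intro h0
  have hμ := mu1_pos ho hb hsc.isPathConnected.isConnected hL
  obtain ⟨hA, hWE, hlap⟩ := eigen_facts ho hb hs hc he
  set μ := mu1 Ω
  obtain ⟨f, φ, hf, hf0⟩ := riemann_mapping ho hsc hb hx₀
  have hρ := hf.wt ho hb
  have hNP := hf.np ho fun a ha => neumann_poincare ho hb ha
  obtain ⟨c, hc0, hDP⟩ := hf.dp_plus ho hb hμ hNP
  have hP := hρ.pot hμ hc0 (hf.sq_small ho hb).1 (hf.sq_small ho hb).2 hDP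
  set W : Fin 2 → ℂ → ℝ := fun i => dd (![1, Complex.I] i) u with hW
  have hWs : ∀ i, ContDiffOn ℝ oo (W i) Ω := fun i => contDiffOn_dd ho hs oo_add_one
  have hWl : ∀ i, ∀ x ∈ Ω, lap (W i) x = -μ * W i x := fun i x hx => by
    rw [hW, lap_dd ho hs _ hx, dd_congr (b := fun x => -μ * u x)
      (by filter_upwards [ho.mem_nhds hx] with y hy using hlap y hy), dd_const_mul]
  have hWg : ∀ i x, W i x ^ 2 ≤ gdot u u x := fun i x => by
    have h1 := mul_self_nonneg (d1 u x)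
    have h2 := mul_self_nonneg (d2 u x)
    fin_cases i
    · change d1 u x ^ 2 ≤ _
      unfold gdot; linarith
    · change d2 u x ^ 2 ≤ _
      unfold gdot; linarith
  have hWi : ∀ i, IntegrableOn (fun x => W i x ^ 2) Ω := fun i =>
    hA.2.2.mono' (measurable_dd.pow_const 2).aestronglyMeasurable (Eventually.of_forall fun x => by
      rw [Real.norm_eq_abs, abs_of_nonneg (sq_nonneg _)]; exact hWg i x)
  obtain ⟨C, hC⟩ := neumann_shell ho hb hL hA hWE
  obtain ⟨hL2, hL1⟩ := shell_estimates ho hb hf hWs hWl hWi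
    ⟨C, fun i η hη => (integral_mono ((hWi i).mono_set inter_subset_left)
      (hA.2.2.mono_set inter_subset_left) (hWg i)).trans (hC η hη)⟩
    (dirichlet_shell ho hb hL hf) (barrier ho hb hL hf)
  have hw : WData (fun z => ‖deriv f z‖ ^ 2) μ fun i => W i ∘ f :=
    ⟨fun i => (hf.lap_comp ho (hWs i)).1, fun i z hz => by
      rw [((hf.lap_comp ho (hWs i)).2 z hz).1, hWl i _ (hf.mapsf hz), Function.comp_apply]; ring,
      fun i => by simp [hW, hf0, dd, h0], fun i => (hf.integrableOn_iff ho _).1 (hWi i), hL2, hL1⟩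
  obtain ⟨hp, hq, hcr⟩ := hf.cr
  obtain ⟨hU, hUc⟩ := hf.lap_comp ho hs
  obtain ⟨hUa, hUw⟩ := hf.we ho hA hWE
  have hH := hodge dirSolv hμ hρ hp hq (fun z _ => by
      rw [Complex.sq_norm, Complex.normSq_apply]; ring) hcr hU hUa hw.smooth
    (fun i => integrableOn_sq (hw.smooth i) (hw.L2 i)) (fun z hz => (hUc z hz).2)
    (fun z hz => by rw [(hUc z hz).1, hlap _ (hf.mapsf hz), Function.comp_apply]; ring) hUw hNP
    fun ψ hψ => le_trans (by positivity) (hDP ψ hψ)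
  have hz : ∀ i, ∀ x ∈ Ω, W i x = 0 := fun i x hx => by
    have := hρ.disc_main hP hw hH i _ (hf.mapsφ hx)
    rwa [Function.comp_apply, hf.right x hx] at this
  obtain ⟨x, hx, hux⟩ := hne
  have h1 : ∀ i v, dd v (W i) x = 0 := fun i v => by
    rw [dd_congr (b := fun _ => 0) (by filter_upwards [ho.mem_nhds hx] with y hy using hz i y hy),
      dd_const]
  have h2 : lap u x = 0 := by
    change dd 1 (W 0) x + dd Complex.I (W 1) x = 0
    rw [h1, h1, add_zero]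
  rw [hlap x hx] at h2
  exact hux ((mul_eq_zero.1 h2).resolve_left (neg_ne_zero.2 hμ.ne'))

lemma exists_greatest {Ω : Set ℂ} (ho : IsOpen Ω) (hb : Bornology.IsBounded Ω) (hn : Ω.Nonempty)
    {u : ℂ → ℝ} (hc : ContinuousOn u (closure Ω)) (h : ∀ x ∈ Ω, fderiv ℝ u x ≠ 0) :
    ∃ M, IsGreatest (u '' frontier Ω) M ∧ ∀ x ∈ Ω, u x < M := by
  obtain ⟨p, hp, hmax⟩ := hb.isCompact_closure.exists_isMaxOn hn.closure hc
  have key : ∀ x ∈ Ω, u x < u p := fun x hx => by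
    refine lt_of_le_of_ne (hmax (subset_closure hx)) fun e => h x hx (IsLocalMax.fderiv_eq_zero ?_)
    filter_upwards [ho.mem_nhds hx] with y hy
    exact e ▸ hmax (subset_closure hy)
  refine ⟨u p, ⟨⟨p, ?_, rfl⟩, ?_⟩, key⟩
  · rw [ho.frontier_eq]
    exact ⟨hp, fun hp' => lt_irrefl _ (key p hp')⟩
  · rintro _ ⟨q, hq, rfl⟩
    exact hmax (frontier_subset_closure hq)

theorem hot_spots {Ω : Set ℂ} (ho : IsOpen Ω) (hb : Bornology.IsBounded Ω)
    (hsc : IsSimplyConnected Ω) (hL : IsLipschitzDomain Ω) {u : ℂ → ℝ} (he : IsEigenfunction Ω u)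
    (hs : ContDiffOn ℝ oo u Ω) (hc : ContinuousOn u (closure Ω)) (hne : ∃ x ∈ Ω, u x ≠ 0) :
    ∃ m M, IsLeast (u '' frontier Ω) m ∧ IsGreatest (u '' frontier Ω) M ∧
      ∀ x ∈ Ω, m < u x ∧ u x < M := by
  have h := fun x hx => no_critical ho hb hsc hL he hs hc hne (x₀ := x) hx
  have hn : Ω.Nonempty := let ⟨x, hx, _⟩ := hne; ⟨x, hx⟩
  obtain ⟨M, hM, hM'⟩ := exists_greatest ho hb hn hc h
  obtain ⟨m, hm, hm'⟩ := exists_greatest ho hb hn (u := fun x => -u x) hc.neg fun x hx => by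
    rw [fderiv_fun_neg, neg_ne_zero]; exact h x hx
  refine ⟨-m, M, ⟨?_, ?_⟩, hM, fun x hx => ⟨by linarith [hm' x hx], hM' x hx⟩⟩
  · obtain ⟨p, hp, rfl⟩ := hm.1
    exact ⟨p, hp, by simp⟩
  · rintro _ ⟨q, hq, rfl⟩
    linarith [hm.2 ⟨q, hq, rfl⟩]

end Vale.Agent.P071
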