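import Vale.Agent.P071.Basic

/-! Boundary patches of a Lipschitz domain and the translation maps used for energy estimates. -/

open MeasureTheory Set Metric Filter Topology
open scoped ENNReal ComplexConjugate

namespace Vale.Agent.P071

namespace Patch

theorem ne_univ {Ω : Set ℂ} (hb : Bornology.IsBounded Ω) : Ω ≠ univ := by
  rintro rfl
  exact NormedSpace.unbounded_univ ℝ ℂ hb

theorem det_eq (L : ℂ →L[ℝ] ℂ) :
    L.det = (L 1).re * (L Complex.I).im - (L Complex.I).re * (L 1).im := by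
  rw [ContinuousLinearMap.det, ← LinearMap.det_toMatrix Complex.basisOneI, Matrix.det_fin_two]
  simp [LinearMap.toMatrix_apply]

theorem apply_eq (L : ℂ →L[ℝ] ℝ) (n : ℂ) : L n = n.re * L 1 + n.im * L Complex.I := by
  conv_lhs => rw [← Complex.re_add_im n]
  have h1 : (n.re : ℂ) = n.re • (1 : ℂ) := by simp
  have h2 : (n.im : ℂ) * Complex.I = n.im • Complex.I := by simp
  rw [map_add, h1, h2, map_smul, map_smul, smul_eq_mul, smul_eq_mul]

theorem gdot_nonneg (a : ℂ → ℝ) (z : ℂ) : 0 ≤ gdot a a z :=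
  add_nonneg (mul_self_nonneg _) (mul_self_nonneg _)

theorem measurable_gdot (a b : ℂ → ℝ) : Measurable (gdot a b) :=
  ((measurable_fderiv_apply_const ℝ a 1).mul (measurable_fderiv_apply_const ℝ b 1)).add
    ((measurable_fderiv_apply_const ℝ a _).mul (measurable_fderiv_apply_const ℝ b _))

theorem gdot_le (a b : ℂ → ℝ) (z : ℂ) : 2 * |gdot a b z| ≤ gdot a a z + gdot b b z := by
  simp only [gdot]
  rcases abs_cases (d1 a z * d1 b z + d2 a z * d2 b z) with h | h <;> rw [h.1] <;>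
    nlinarith [sq_nonneg (d1 a z - d1 b z), sq_nonneg (d2 a z - d2 b z),
      sq_nonneg (d1 a z + d1 b z), sq_nonneg (d2 a z + d2 b z)]

theorem sq_apply_le (a : ℂ → ℝ) (z : ℂ) {n : ℂ} (hn : ‖n‖ = 1) :
    (fderiv ℝ a z n) ^ 2 ≤ gdot a a z := by
  have h1 : n.re ^ 2 + n.im ^ 2 = 1 := by
    have := Complex.sq_norm n
    rw [hn, Complex.normSq_apply] at this
    linarith
  rw [apply_eq]
  simp only [gdot, d1, d2]
  set p := fderiv ℝ a z 1
  set q := fderiv ℝ a z Complex.I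
  have : p * p + q * q = (n.re ^ 2 + n.im ^ 2) * (p * p + q * q) := by rw [h1, one_mul]
  rw [this]
  nlinarith [sq_nonneg (n.re * q - n.im * p)]

/-- A cut-off function with a direction. -/
structure Cut (χ : ℂ → ℝ) (n : ℂ) (L : ℝ) : Prop where
  hn : ‖n‖ = 1
  cd : ContDiff ℝ 1 χ
  nn : ∀ x, 0 ≤ χ x
  le : ∀ x, χ x ≤ 1
  bd : ∀ x, ‖fderiv ℝ χ x‖ ≤ L

/-- The translation map. -/
noncomputable def TT (χ : ℂ → ℝ) (n : ℂ) (τ : ℝ) (x : ℂ) : ℂ := x + (τ * χ x) • n

/-- Its derivative. -/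
noncomputable def DT (χ : ℂ → ℝ) (n : ℂ) (τ : ℝ) (x : ℂ) : ℂ →L[ℝ] ℂ :=
  ContinuousLinearMap.id ℝ ℂ + (τ • fderiv ℝ χ x).smulRight n

variable {χ : ℂ → ℝ} {n : ℂ} {L τ : ℝ}

theorem Cut.L_nonneg (h : Cut χ n L) : 0 ≤ L := (norm_nonneg _).trans (h.bd 0)

theorem Cut.contDiff (h : Cut χ n L) (τ : ℝ) : ContDiff ℝ 1 (TT χ n τ) :=
  contDiff_id.add ((contDiff_const.mul h.cd).smul contDiff_const)

theorem Cut.hasFDerivAt (h : Cut χ n L) (τ : ℝ) (x : ℂ) :
    HasFDerivAt (TT χ n τ) (DT χ n τ x) x :=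
  (hasFDerivAt_id x).add
    (((h.cd.differentiable one_ne_zero x).hasFDerivAt.const_mul τ).smul_const n)

theorem DT_apply (x w : ℂ) : DT χ n τ x w = w + (τ * fderiv ℝ χ x w) • n := by
  simp [DT]

theorem DT_det (x : ℂ) : (DT χ n τ x).det = 1 + τ * fderiv ℝ χ x n := by
  rw [det_eq, DT_apply, DT_apply, apply_eq (fderiv ℝ χ x) n]
  simp
  ring

theorem Cut.abs_bd (h : Cut χ n L) (τ : ℝ) (x : ℂ) {w : ℂ} (hw : ‖w‖ = 1) :
    |τ * fderiv ℝ χ x w| ≤ |τ| * L := by
  rw [abs_mul]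
  refine mul_le_mul_of_nonneg_left ?_ (abs_nonneg _)
  have := (fderiv ℝ χ x).le_opNorm w
  rw [hw, mul_one] at this
  exact this.trans (h.bd x)

theorem Cut.det_ge (h : Cut χ n L) (τ : ℝ) (x : ℂ) : 1 - |τ| * L ≤ |(DT χ n τ x).det| := by
  refine le_trans ?_ (le_abs_self _)
  rw [DT_det]
  have := (abs_le.mp (h.abs_bd τ x h.hn)).1
  linarith

theorem Cut.injective (h : Cut χ n L) (hτ : |τ| * L ≤ 1 / 2) : Function.Injective (TT χ n τ) := by
  intro x y hxy
  have h1 : x - y = (τ * (χ y - χ x)) • n := by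
    simp only [TT] at hxy
    rw [mul_sub, sub_smul]
    linear_combination hxy
  have h2 : ‖χ y - χ x‖ ≤ L * ‖y - x‖ :=
    convex_univ.norm_image_sub_le_of_norm_fderiv_le
      (fun z _ => h.cd.differentiable one_ne_zero z) (fun z _ => h.bd z) (mem_univ x) (mem_univ y)
  have h3 : ‖x - y‖ ≤ |τ| * (L * ‖y - x‖) := by
    rw [h1, norm_smul, h.hn, mul_one, norm_mul]
    exact mul_le_mul_of_nonneg_left h2 (abs_nonneg _)
  rw [norm_sub_rev y x, ← mul_assoc] at h3
  have h4 : ‖x - y‖ ≤ 0 := by nlinarith [norm_nonneg (x - y)]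
  exact sub_eq_zero.mp (norm_le_zero_iff.mp h4)

theorem energy_aux {p q s a b t D : ℝ} (hs : s ^ 2 ≤ p * p + q * q) (ha : |a| ≤ t)
    (hb : |b| ≤ t) (ht : t ≤ 1 / 2) (hD : 1 - t ≤ D) :
    (p + a * s) * (p + a * s) + (q + b * s) * (q + b * s) ≤ (1 + 12 * t) * (D * (p * p + q * q)) := by
  have ht0 : 0 ≤ t := (abs_nonneg a).trans ha
  set g := p * p + q * q with hg
  have hg0 : 0 ≤ g := add_nonneg (mul_self_nonneg _) (mul_self_nonneg _)
  have k : ∀ c r : ℝ, |c| ≤ t → r * r ≤ g → (r + c * s) * (r + c * s) ≤ r * r + 5 / 2 * t * g := by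
    intro c r hc hr
    have h1 : |r * s| ≤ g := by
      rw [abs_le]
      constructor <;> nlinarith [sq_nonneg (r - s), sq_nonneg (r + s)]
    have h2 : c * (r * s) ≤ t * g := by
      refine (le_abs_self _).trans ?_
      rw [abs_mul]
      exact mul_le_mul hc h1 (abs_nonneg _) ht0
    have h3 : c ^ 2 ≤ t * (1 / 2) := by
      rw [← sq_abs, sq]
      exact mul_le_mul hc (hc.trans ht) (abs_nonneg _) ht0
    have h4 : c ^ 2 * s ^ 2 ≤ t * (1 / 2) * g := mul_le_mul h3 hs (sq_nonneg _) (by positivity)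
    nlinarith
  have h1 := k a p ha (by nlinarith [mul_self_nonneg q])
  have h2 := k b q hb (by nlinarith [mul_self_nonneg p])
  have h3 : 1 + 5 * t ≤ (1 + 12 * t) * D := by nlinarith
  have h4 := mul_le_mul_of_nonneg_right h3 hg0
  nlinarith

theorem Cut.fderiv_comp (h : Cut χ n L) (τ : ℝ) {a : ℂ → ℝ} {x : ℂ}
    (ha : DifferentiableAt ℝ a (TT χ n τ x)) (w : ℂ) :
    fderiv ℝ (a ∘ TT χ n τ) x w = fderiv ℝ a (TT χ n τ x) w
      + τ * fderiv ℝ χ x w * fderiv ℝ a (TT χ n τ x) n := by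
  rw [(ha.hasFDerivAt.comp x (h.hasFDerivAt τ x)).fderiv, ContinuousLinearMap.comp_apply,
    DT_apply, map_add, map_smul, smul_eq_mul]

theorem Cut.energy_pt (h : Cut χ n L) (hτ : |τ| * L ≤ 1 / 2) {a : ℂ → ℝ} {x : ℂ}
    (ha : DifferentiableAt ℝ a (TT χ n τ x)) :
    gdot (a ∘ TT χ n τ) (a ∘ TT χ n τ) x ≤
      (1 + 12 * (|τ| * L)) * (|(DT χ n τ x).det| * gdot a a (TT χ n τ x)) := by
  have h1 := sq_apply_le a (TT χ n τ x) h.hn
  simp only [gdot, d1, d2, h.fderiv_comp τ ha] at h1 ⊢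
  exact energy_aux h1 (h.abs_bd τ x norm_one) (h.abs_bd τ x Complex.norm_I) hτ (h.det_ge τ x)

theorem Cut.energy (h : Cut χ n L) (hτ : |τ| * L ≤ 1 / 2) {a : ℂ → ℝ} {s W : Set ℂ}
    (hs : MeasurableSet s) (hW : MapsTo (TT χ n τ) s W)
    (ha : ∀ x ∈ s, DifferentiableAt ℝ a (TT χ n τ x)) (hi : IntegrableOn (gdot a a) W) :
    IntegrableOn (gdot (a ∘ TT χ n τ) (a ∘ TT χ n τ)) s ∧
      ∫ x in s, gdot (a ∘ TT χ n τ) (a ∘ TT χ n τ) x ≤
        (1 + 12 * (|τ| * L)) * ∫ x in W, gdot a a x := by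
  have hf' : ∀ x ∈ s, HasFDerivWithinAt (TT χ n τ) (DT χ n τ x) s x := fun x _ =>
    (h.hasFDerivAt τ x).hasFDerivWithinAt
  have hinj : InjOn (TT χ n τ) s := (h.injective hτ).injOn
  have h1 := (integrableOn_image_iff_integrableOn_abs_det_fderiv_smul volume hs hf' hinj
    (gdot a a)).mp (hi.mono_set hW.image_subset)
  have h2 := integral_image_eq_integral_abs_det_fderiv_smul volume hs hf' hinj (gdot a a)
  simp only [smul_eq_mul] at h1 h2
  have h3 := h1.const_mul (1 + 12 * (|τ| * L))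
  have h4 : IntegrableOn (gdot (a ∘ TT χ n τ) (a ∘ TT χ n τ)) s := by
    refine h3.mono' (measurable_gdot _ _).aestronglyMeasurable ?_
    filter_upwards [self_mem_ae_restrict hs] with x hx
    rw [Real.norm_of_nonneg (gdot_nonneg _ _)]
    exact h.energy_pt hτ (ha x hx)
  refine ⟨h4, (setIntegral_mono_on h4 h3 hs fun x hx => h.energy_pt hτ (ha x hx)).trans ?_⟩
  rw [integral_const_mul, ← h2]
  have hL := h.L_nonneg
  refine mul_le_mul_of_nonneg_left ?_ (by positivity)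
  exact setIntegral_mono_set hi (Eventually.of_forall fun x => gdot_nonneg a x)
    hW.image_subset.eventuallyLE

theorem Cut.lintegral_comp (h : Cut χ n L) (hτ : |τ| * L ≤ 1 / 2) {s : Set ℂ}
    (hs : MeasurableSet s) (hW : MapsTo (TT χ n τ) s s) (G : ℂ → ℝ≥0∞) :
    ∫⁻ x in s, G (TT χ n τ x) ≤ 2 * ∫⁻ x in s, G x := by
  have hf' : ∀ x ∈ s, HasFDerivWithinAt (TT χ n τ) (DT χ n τ x) s x := fun x _ =>
    (h.hasFDerivAt τ x).hasFDerivWithinAt
  have h2 := lintegral_image_eq_lintegral_abs_det_fderiv_mul volume hs hf'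
    (h.injective hτ).injOn G
  calc ∫⁻ x in s, G (TT χ n τ x)
      ≤ ∫⁻ x in s, 2 * (ENNReal.ofReal |(DT χ n τ x).det| * G (TT χ n τ x)) := by
        refine lintegral_mono fun x => ?_
        rw [← mul_assoc]
        refine le_mul_of_one_le_left' ?_
        have := h.det_ge τ x
        rw [← ENNReal.ofReal_ofNat, ← ENNReal.ofReal_mul (by norm_num), ENNReal.one_le_ofReal]
        linarith
    _ = 2 * ∫⁻ x in TT χ n τ '' s, G x := by
        rw [lintegral_const_mul' _ _ (by norm_num), h2]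
    _ ≤ _ := by
        gcongr
        exact hW.image_subset

/-- A boundary patch. -/
theorem patch {Ω : Set ℂ} (ho : IsOpen Ω) (hL : IsLipschitzDomain Ω) {p : ℂ}
    (hp : p ∈ frontier Ω) {R : ℝ} (hR : 0 < R) :
    ∃ (χ : ℂ → ℝ) (n : ℂ) (L ρ c h₀ : ℝ), Cut χ n L ∧ 0 < ρ ∧ ρ ≤ R ∧ 0 < c ∧ 0 < h₀ ∧
      h₀ * L ≤ 1 / 2 ∧ (∀ x ∉ ball p R, χ x = 0) ∧
      (∀ τ ∈ Icc 0 h₀, ∀ x ∈ Ω, TT χ n τ x ∈ Ω) ∧
      (∀ τ ∈ Icc 0 h₀, ∀ x ∉ Ω, TT χ n (-τ) x ∉ Ω) ∧
      ∀ η > 0, c * η ≤ h₀ → ∀ y ∈ ball p ρ, dist' Ω y < η →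
        TT χ n (-(c * η)) y ∉ Ω ∧ ∃ x ∉ Ω, TT χ n (c * η) x = y := by
  obtain ⟨r₁, hr₁, e, he, K, g, hg, h⟩ := hL p hp
  set r := min r₁ R with hr
  have hr0 : 0 < r := lt_min hr₁ hR
  have hrr : r ≤ r₁ := min_le_left _ _
  have hrR : r ≤ R := min_le_right _ _
  let b : ContDiffBump p := ⟨r / 4, r / 2, by positivity, by linarith⟩
  have hcd : ContDiff ℝ 1 b := b.contDiff
  obtain ⟨L, hLb⟩ := (hcd.continuous_fderiv one_ne_zero).bounded_above_of_compact_support
    (b.hasCompactSupport.fderiv ℝ)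
  have hL0 : 0 ≤ L := (norm_nonneg _).trans (hLb 0)
  set n : ℂ := conj e * Complex.I with hn
  have hn1 : ‖n‖ = 1 := by simp [hn, he]
  have hen : e * n = Complex.I := by
    rw [hn, ← mul_assoc, Complex.mul_conj', he]
    simp
  have hre : ∀ (x : ℂ) (t : ℝ), (e * (x + t • n)).re = (e * x).re := by
    intro x t
    rw [mul_add, mul_smul_comm, hen]
    simp
  have him : ∀ (x : ℂ) (t : ℝ), (e * (x + t • n)).im = (e * x).im + t := by
    intro x t
    rw [mul_add, mul_smul_comm, hen]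
    simp
  have hdist : ∀ (x : ℂ) (t : ℝ), dist (x + t • n) p ≤ dist x p + |t| := by
    intro x t
    have := dist_triangle (x + t • n) x p
    rw [dist_self_add_left, norm_smul, hn1, mul_one, Real.norm_eq_abs] at this
    linarith
  set h₀ := min (r / 8) (1 / (2 * (L + 1))) with hh₀
  have h₀1 : h₀ ≤ r / 8 := min_le_left _ _
  have hz : ∀ x, r / 2 ≤ dist x p → b x = 0 := fun x hx => b.zero_of_le_dist hx
  have hiff : ∀ (τ : ℝ) (x : ℂ), |τ| ≤ h₀ → dist x p < r / 2 →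
      (x ∈ Ω ↔ g (e * x).re < (e * x).im) ∧
      (TT b n τ x ∈ Ω ↔ g (e * x).re < (e * x).im + τ * b x) := by
    intro τ x hτ hx
    refine ⟨h x (mem_ball.mpr (by linarith)), ?_⟩
    have h1 : |τ * b x| ≤ r / 8 := by
      rw [abs_mul, abs_of_nonneg b.nonneg]
      exact (mul_le_of_le_one_right (abs_nonneg _) b.le_one).trans (hτ.trans h₀1)
    have h2 := hdist x (τ * b x)
    rw [TT, h _ (mem_ball.mpr (by linarith)), hre, him]
  refine ⟨b, n, L, r / 8, 1 + K, h₀, ⟨hn1, hcd, fun x => b.nonneg, fun x => b.le_one, hLb⟩,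
    by positivity, by linarith, by positivity, lt_min (by positivity) (by positivity), ?_, ?_, ?_,
    ?_, ?_⟩
  · have h1 : h₀ ≤ 1 / (2 * (L + 1)) := min_le_right _ _
    rw [le_div_iff₀ (by positivity)] at h1
    have h2 : 0 ≤ h₀ := le_min (by positivity) (by positivity)
    nlinarith
  · intro x hx
    rw [mem_ball, not_lt] at hx
    exact hz x (by linarith)
  · intro τ hτ x hx
    by_cases hxp : dist x p < r / 2
    · obtain ⟨h1, h2⟩ := hiff τ x (by rw [abs_of_nonneg hτ.1]; exact hτ.2) hxp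
      rw [h2]
      have := mul_nonneg hτ.1 (b.nonneg (x := x))
      linarith [h1.mp hx]
    · simpa [TT, hz x (not_lt.mp hxp)] using hx
  · intro τ hτ x hx
    by_cases hxp : dist x p < r / 2
    · obtain ⟨h1, h2⟩ := hiff (-τ) x (by rw [abs_neg, abs_of_nonneg hτ.1]; exact hτ.2) hxp
      rw [h2]
      rw [h1] at hx
      have := mul_nonneg hτ.1 (b.nonneg (x := x))
      intro h3
      exact hx (by linarith)
    · simpa [TT, hz x (not_lt.mp hxp)] using hx
  · intro η hη hc y hy hyη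
    have hp1 : p ∉ Ω := fun h => (ho.frontier_eq ▸ hp).2 h
    obtain ⟨a, ha, hya⟩ := (infDist_lt_iff ⟨p, hp1⟩).mp hyη
    rw [mem_ball] at hy
    have hKη : 0 ≤ (K : ℝ) * η := by positivity
    have hη1 : η ≤ r / 8 := by linarith
    have hap : dist a p < r₁ := by
      have := dist_triangle a y p
      rw [dist_comm a y] at this
      linarith
    have h1 := (h a (mem_ball.mpr hap)).not.mp ha
    have h2 := hg.dist_le_mul (e * a).re (e * y).re
    have h3 : ‖e * a - e * y‖ < η := by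
      rw [← mul_sub, norm_mul, he, one_mul, ← dist_eq_norm, dist_comm]
      exact hya
    have h4 := Complex.abs_re_le_norm (e * a - e * y)
    have h5 := Complex.abs_im_le_norm (e * a - e * y)
    rw [Complex.sub_re] at h4
    rw [Complex.sub_im] at h5
    rw [Real.dist_eq, Real.dist_eq] at h2
    have h6 : (K : ℝ) * |(e * a).re - (e * y).re| ≤ K * η :=
      mul_le_mul_of_nonneg_left (by linarith) K.2
    have h7 := le_abs_self (g (e * a).re - g (e * y).re)
    have h8 := neg_abs_le ((e * a).im - (e * y).im)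
    have hcη : 0 ≤ (1 + (K : ℝ)) * η := by positivity
    have hd := hdist y (-((1 + K) * η))
    rw [abs_neg, abs_of_nonneg hcη] at hd
    have hout : y + (-((1 + (K : ℝ)) * η)) • n ∉ Ω := by
      rw [h _ (mem_ball.mpr (by linarith)), hre, him]
      push Not at h1 ⊢
      linarith
    have hb1 : b y = 1 := b.one_of_mem_closedBall (mem_closedBall.mpr (by
      change dist y p ≤ r / 4
      linarith))
    have hb2 : b (y + (-((1 + (K : ℝ)) * η)) • n) = 1 :=
      b.one_of_mem_closedBall (mem_closedBall.mpr (by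
        change dist _ p ≤ r / 4
        linarith))
    refine ⟨by rwa [TT, hb1, mul_one], _, hout, ?_⟩
    rw [TT, hb2, mul_one, add_assoc, ← add_smul]
    simp

/-- Covering the boundary by patches. -/
theorem cover {Ω : Set ℂ} (hb : Bornology.IsBounded Ω) {G : ℂ → ℝ} (hG : ∀ x, 0 ≤ G x)
    (hi : IntegrableOn G Ω)
    (h : ∀ p ∈ frontier Ω, ∃ ρ > 0, ∃ η₀ > 0, ∃ C : ℝ, ∀ η > 0, η ≤ η₀ →
      ∫ x in Ω ∩ {x | dist' Ω x < η} ∩ ball p ρ, G x ≤ C * η) :
    ∃ C : ℝ, ∀ η > 0, ∫ x in Ω ∩ {x | dist' Ω x < η}, G x ≤ C * η := by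
  have hK : IsCompact (frontier Ω) :=
    Metric.isCompact_of_isClosed_isBounded isClosed_frontier
      (hb.closure.subset frontier_subset_closure)
  have hmono : ∀ s t : Set ℂ, s ⊆ t → t ⊆ Ω → ∫ x in s, G x ≤ ∫ x in t, G x := fun s t hst ht =>
    setIntegral_mono_set (hi.mono_set ht) (Eventually.of_forall hG) hst.eventuallyLE
  have hsub : ∀ (η : ℝ) (s : Set ℂ), Ω ∩ {x | dist' Ω x < η} ∩ s ⊆ Ω := fun η s =>
    inter_subset_left.trans inter_subset_left
  obtain ⟨δ, hδ, C, hC⟩ : ∃ δ > 0, ∃ C : ℝ, ∀ η > 0, η ≤ δ →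
      ∫ x in Ω ∩ {x | dist' Ω x < η} ∩ thickening δ (frontier Ω), G x ≤ C * η := by
    refine hK.induction_on (p := fun s => ∃ δ > 0, ∃ C : ℝ, ∀ η > 0, η ≤ δ →
      ∫ x in Ω ∩ {x | dist' Ω x < η} ∩ thickening δ s, G x ≤ C * η)
      ⟨1, one_pos, 0, by simp⟩ ?_ ?_ ?_
    · rintro s t hst ⟨δ, hδ, C, hC⟩
      refine ⟨δ, hδ, C, fun η hη hηδ => le_trans (hmono _ _ ?_ (hsub _ _)) (hC η hη hηδ)⟩
      exact inter_subset_inter_right _ (thickening_subset_of_subset δ hst)
    · rintro s t ⟨δ, hδ, C, hC⟩ ⟨δ', hδ', C', hC'⟩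
      refine ⟨min δ δ', lt_min hδ hδ', C + C', fun η hη hηδ => ?_⟩
      have h1 := hC η hη (hηδ.trans (min_le_left _ _))
      have h2 := hC' η hη (hηδ.trans (min_le_right _ _))
      set A := Ω ∩ {x | dist' Ω x < η} ∩ thickening δ s
      set B := Ω ∩ {x | dist' Ω x < η} ∩ thickening δ' t
      have hA : IntegrableOn G A := hi.mono_set (hsub _ _)
      have hB : IntegrableOn G B := hi.mono_set (hsub _ _)
      have h3 : ∫ x in A ∪ B, G x ≤ (∫ x in A, G x) + ∫ x in B, G x := by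
        rw [← integral_add_measure hA hB]
        exact integral_mono_measure (Measure.restrict_union_le A B) (Eventually.of_forall hG)
          (Integrable.add_measure hA hB)
      refine le_trans (hmono _ (A ∪ B) ?_ (union_subset (hsub _ _) (hsub _ _))) (by linarith)
      rw [thickening_union, inter_union_distrib_left]
      exact union_subset_union
        (inter_subset_inter_right _ (thickening_mono (min_le_left _ _) s))
        (inter_subset_inter_right _ (thickening_mono (min_le_right _ _) t))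
    · intro p hp
      obtain ⟨ρ, hρ, η₀, hη₀, C, hC⟩ := h p hp
      refine ⟨ball p (ρ / 2), mem_nhdsWithin_of_mem_nhds (ball_mem_nhds p (half_pos hρ)),
        min (ρ / 2) η₀, lt_min (half_pos hρ) hη₀, C, fun η hη hηδ => ?_⟩
      refine le_trans (hmono _ _ ?_ (hsub _ _)) (hC η hη (hηδ.trans (min_le_right _ _)))
      refine inter_subset_inter_right _ fun x hx => ?_
      obtain ⟨z, hz, hxz⟩ := mem_thickening_iff.mp hx
      have := dist_triangle x z p
      have h2 := min_le_left (ρ / 2) η₀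
      rw [mem_ball] at *
      linarith
  set E := ∫ x in Ω, G x with hE
  have hE0 : 0 ≤ E := integral_nonneg hG
  refine ⟨max C (E / δ), fun η hη => ?_⟩
  by_cases hηδ : η ≤ δ
  · refine le_trans (hmono _ _ ?_ (hsub _ _)) ((hC η hη hηδ).trans
      (mul_le_mul_of_nonneg_right (le_max_left _ _) hη.le))
    intro x hx
    refine ⟨hx, ?_⟩
    obtain ⟨a, ha, hxa⟩ := exists_mem_frontier_infDist_compl_eq_dist hx.1 (ne_univ hb)
    refine mem_thickening_iff.mpr ⟨a, ha, ?_⟩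
    have : dist' Ω x < η := hx.2
    rw [dist', hxa] at this
    linarith
  · refine (hmono _ _ inter_subset_left subset_rfl).trans (le_trans ?_
      (mul_le_mul_of_nonneg_right (le_max_right _ _) hη.le))
    rw [div_mul_eq_mul_div, le_div_iff₀ hδ]
    exact mul_le_mul_of_nonneg_left (not_le.mp hηδ).le hE0

theorem isOpen_layer (Ω : Set ℂ) (η : ℝ) : IsOpen {x | dist' Ω x < η} :=
  isOpen_lt (continuous_infDist_pt _) continuous_const

end Patch

end Vale.Agent.P071
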