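import Vale.Agent.P071.Gap

/-! Representation formula and variational characterisation of the Green form. -/

open MeasureTheory Set Metric Filter Topology
open scoped ENNReal

namespace Vale.Agent.P071

lemma integrable_ker {ν : Measure ℂ} [SFinite ν] (hν : ∀ᵐ x ∂ν, x ∈ DD) {K : ℂ → ℂ → ℝ} {C : ℝ}
    (hK : Measurable fun p : ℂ × ℂ => K p.1 p.2) (hC : ∀ x ∈ DD, ∀ y ∈ DD, |K x y| ≤ C * g0 x y)
    {a b : ℂ → ℝ} (ha : Integrable a ν) (hb : AEStronglyMeasurable b (volume.restrict DD))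
    {B : ℝ} (hB : ∀ y ∈ DD, |b y| ≤ B) :
    Integrable (fun p : ℂ × ℂ => a p.1 * (K p.1 p.2 * b p.2)) (ν.prod (volume.restrict DD)) := by
  obtain ⟨M, -, hM⟩ := g0_int
  have hB0 : 0 ≤ B := (abs_nonneg _).trans (hB 0 (by simp))
  have hm : AEStronglyMeasurable (fun p : ℂ × ℂ => a p.1 * (K p.1 p.2 * b p.2))
      (ν.prod (volume.restrict DD)) :=
    ha.1.comp_fst.mul (hK.aestronglyMeasurable.mul hb.comp_snd)
  have hle : ∀ x ∈ DD, ∀ᵐ y ∂(volume.restrict DD),
      ‖a x * (K x y * b y)‖ ≤ ‖a x‖ * |C| * B * g0 x y := fun x hx => by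
    filter_upwards [ae_restrict_mem measurableSet_DD] with y hy
    have h0 := g0_nonneg hx hy
    have h1 : |K x y| ≤ |C| * g0 x y := (hC x hx y hy).trans (by gcongr; exact le_abs_self C)
    calc ‖a x * (K x y * b y)‖ = ‖a x‖ * (|K x y| * |b y|) := by simp [norm_mul]
      _ ≤ ‖a x‖ * (|C| * g0 x y * B) := by gcongr; exact hB y hy
      _ = _ := by ring
  have hi : ∀ x ∈ DD, IntegrableOn (fun y => a x * (K x y * b y)) DD := fun x hx =>
    ((hM x hx).1.const_mul _).mono'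
      ((hK.of_uncurry_left.aestronglyMeasurable.mul hb).const_mul _) (hle x hx)
  rw [integrable_prod_iff hm]
  refine ⟨hν.mono hi, (ha.norm.mul_const (|C| * B * M)).mono' hm.norm.integral_prod_right' ?_⟩
  filter_upwards [hν] with x hx
  rw [Real.norm_eq_abs, abs_of_nonneg (integral_nonneg fun _ => norm_nonneg _)]
  calc _ ≤ ∫ y in DD, ‖a x‖ * |C| * B * g0 x y :=
        integral_mono_ae (hi x hx).norm ((hM x hx).1.const_mul _) (hle x hx)
    _ = ‖a x‖ * |C| * B * ∫ y in DD, g0 x y := integral_const_mul _ _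
    _ ≤ ‖a x‖ * |C| * B * M := by gcongr; exact (hM x hx).2
    _ = _ := by ring

/-- The Green operator for the potential. -/
noncomputable def GI (m : Measure ℂ) (s : ℝ) (k : ℂ → ℝ) (x : ℂ) : ℝ :=
  ∫ y in DD, GG m s x y * k y

variable {m : Measure ℂ} {μ C : ℝ}

lemma Pot.ae (h : Pot m μ) : ∀ᵐ z ∂m, z ∈ DD := h.supp

lemma Pot.mem (h : Pot m μ) : μ ∈ Icc 0 μ := ⟨h.mu_pos.le, le_rfl⟩

lemma GreenAn.nonneg (hG : GreenAn m μ C) {s : ℝ} (hs : s ∈ Icc 0 μ) {x y : ℂ} (hx : x ∈ DD)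
    (hy : y ∈ DD) : 0 ≤ GG m s x y := (g0_nonneg hx hy).trans (hG.lower s hs x hx y hy)

lemma GreenAn.abs_le (hG : GreenAn m μ C) {s : ℝ} (hs : s ∈ Icc 0 μ) (x : ℂ) (hx : x ∈ DD) (y : ℂ)
    (hy : y ∈ DD) : |GG m s x y| ≤ C * g0 x y := by
  rw [abs_of_nonneg (hG.nonneg hs hx hy)]; exact hG.upper s hs x hx y hy

lemma abs_g0_le (x : ℂ) (hx : x ∈ DD) (y : ℂ) (hy : y ∈ DD) : |g0 x y| ≤ 1 * g0 x y := by
  rw [abs_of_nonneg (g0_nonneg hx hy), one_mul]

lemma Pot.integrable_g0 (h : Pot m μ) {x : ℂ} (hx : x ∈ DD) : Integrable (g0 x) m :=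
  have := h.fin
  let ⟨_, _, hB⟩ := memLp_g0 h.ae h.sq
  (hB x hx).1.integrable one_le_two

lemma GreenAn.integrable (hG : GreenAn m μ C) (h : Pot m μ) {s : ℝ} (hs : s ∈ Icc 0 μ) {x : ℂ}
    (hx : x ∈ DD) : Integrable (GG m s x) m :=
  ((h.integrable_g0 hx).const_mul C).mono' (hG.meas s).of_uncurry_left.aestronglyMeasurable
    (h.ae.mono (hG.abs_le hs x hx))

lemma GreenAn.integrableOn (hG : GreenAn m μ C) {s : ℝ} (hs : s ∈ Icc 0 μ) {x : ℂ}
    (hx : x ∈ DD) : IntegrableOn (GG m s x) DD :=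
  ((integrableOn_g0 hx).const_mul C).mono' (hG.meas s).of_uncurry_left.aestronglyMeasurable
    ((ae_restrict_mem measurableSet_DD).mono (hG.abs_le hs x hx))

lemma Test.mul_integrableOn {k F : ℂ → ℝ} (hk : Test DD k) (hF : IntegrableOn F DD) :
    IntegrableOn (fun y => F y * k y) DD :=
  let ⟨_, hB⟩ := hk.bdd
  hF.mul_bdd hk.continuous.aestronglyMeasurable (Eventually.of_forall hB)

lemma GreenAn.res (hG : GreenAn m μ C) (h : Pot m μ) {x y : ℂ} (hx : x ∈ DD) (hy : y ∈ DD)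
    (hxy : x ≠ y) : GG m μ x y = g0 x y + μ * ∫ w, GG m μ x w * g0 w y ∂m := by
  rw [hG.resolvent 0 μ le_rfl h.mu_pos.le le_rfl x hx y hy hxy, hG.zero x hx y hy, sub_zero]
  congr 2
  refine integral_congr_ae (h.ae.mono fun w hw => ?_)
  simp only [hG.zero w hw y hy]

lemma GreenAn.res1 (hG : GreenAn m μ C) (h : Pot m μ) {k : ℂ → ℝ} (hk : Test DD k) {x : ℂ}
    (hx : x ∈ DD) : GI m μ k x = G0 k x + μ * ∫ w, GG m μ x w * G0 k w ∂m := by
  have := h.fin
  obtain ⟨B, hB⟩ := hk.bdd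
  have hi := integrable_ker h.ae measurable_g0 abs_g0_le (hG.integrable h h.mem hx)
    hk.continuous.aestronglyMeasurable fun y _ => hB y
  have hs := integral_integral_swap (f := fun w y => GG m μ x w * (g0 w y * k y)) hi
  have hae : ∀ᵐ y : ℂ, y ≠ x := by simp [ae_iff]
  simp only [G0, ← integral_const_mul (GG m μ x _)]
  rw [hs, ← integral_const_mul, ← integral_add (hk.mul_integrableOn (integrableOn_g0 hx))
    (hi.integral_prod_right.const_mul μ)]
  refine setIntegral_congr_ae measurableSet_DD ?_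
  filter_upwards [hae] with y hy hy'
  rw [hG.res h hx hy' hy.symm]
  simp only [← mul_assoc, integral_mul_const]
  ring

lemma GreenAn.res2 (hG : GreenAn m μ C) (h : Pot m μ) {k : ℂ → ℝ} (hk : Test DD k) {x : ℂ}
    (hx : x ∈ DD) : GI m μ k x = G0 k x + μ * SG m (GI m μ k) x := by
  have := h.fin
  obtain ⟨B, hB⟩ := hk.bdd
  have hi := integrable_ker h.ae (hG.meas μ) (hG.abs_le h.mem) (h.integrable_g0 hx)
    hk.continuous.aestronglyMeasurable fun y _ => hB y
  have hs := integral_integral_swap (f := fun w y => g0 x w * (GG m μ w y * k y)) hi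
  have hae : ∀ᵐ y : ℂ, y ≠ x := by simp [ae_iff]
  simp only [G0, SG, GI, ← integral_const_mul (g0 x _)]
  rw [hs, ← integral_const_mul, ← integral_add (hk.mul_integrableOn (integrableOn_g0 hx))
    (hi.integral_prod_right.const_mul μ)]
  refine setIntegral_congr_ae measurableSet_DD ?_
  filter_upwards [hae] with y hy hy'
  rw [hG.symm, hG.res h hy' hx hy, g0_symm y x]
  simp only [← mul_assoc, integral_mul_const]
  simp only [hG.symm μ y, g0_symm _ x, mul_comm (g0 x _)]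
  ring

lemma GreenAn.GI_bdd (hG : GreenAn m μ C) {s : ℝ} (hs : s ∈ Icc 0 μ) {k : ℂ → ℝ} (hk : Test DD k) :
    ∃ M, ∀ x ∈ DD, |GI m s k x| ≤ M := by
  obtain ⟨B, hB⟩ := hk.bdd
  obtain ⟨M, -, hM⟩ := g0_int
  have hB0 : 0 ≤ B := (abs_nonneg _).trans (hB 0)
  refine ⟨|C| * B * M, fun x hx => ?_⟩
  calc _ ≤ ∫ y in DD, |C| * B * g0 x y := by
        refine norm_integral_le_of_norm_le (f := fun y => GG m s x y * k y)
          ((hM x hx).1.const_mul _) ?_
        filter_upwards [ae_restrict_mem measurableSet_DD] with y hy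
        have h0 := g0_nonneg hx hy
        calc ‖GG m s x y * k y‖ = |GG m s x y| * |k y| := abs_mul _ _
          _ ≤ (|C| * g0 x y) * B := by
              gcongr
              exacts [(hG.abs_le hs x hx y hy).trans (by gcongr; exact le_abs_self C), hB y]
          _ = _ := by ring
    _ = |C| * B * ∫ y in DD, g0 x y := integral_const_mul _ _
    _ ≤ _ := by gcongr; exact (hM x hx).2

lemma GreenAn.GI_meas (hG : GreenAn m μ C) (s : ℝ) {k : ℂ → ℝ} (hk : Test DD k) :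
    StronglyMeasurable (GI m s k) :=
  ((hG.meas s).mul (hk.continuous.measurable.comp measurable_snd)).stronglyMeasurable
    |>.integral_prod_right'

variable {ρ : ℂ → ℝ}

lemma Wt.LL_test (hρ : Wt ρ) (μ : ℝ) {ψ : ℂ → ℝ} (hψ : Test DD ψ) : Test DD (LL ρ μ ψ) :=
  hψ.lap.neg.sub (hψ.mul_left isOpen_DD (contDiffOn_const.mul hρ.smooth))

/-- Representation formula. -/
theorem Wt.repr (hρ : Wt ρ) (h : Pot (mm ρ) μ) (hG : GreenAn (mm ρ) μ C) {ψ : ℂ → ℝ}
    (hψ : Test DD ψ) {x : ℂ} (hx : x ∈ DD) : GI (mm ρ) μ (LL ρ μ ψ) x = ψ x := by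
  have h1 := hG.res1 h hψ.lap.neg hx
  have h2 : ∀ w ∈ DD, G0 (fun z => -lap ψ z) w = ψ w := fun w hw => by
    simp only [G0, mul_neg, integral_neg, G0_lap hψ hw, neg_neg]
  rw [h2 x hx, hρ.integral, setIntegral_congr_fun measurableSet_DD
    (g := fun w => GG (mm ρ) μ x w * (ρ w * ψ w)) (fun w hw => by simp only [h2 w hw]; ring),
    GI, ← sub_eq_iff_eq_add, ← integral_const_mul, ← integral_sub
      (hψ.lap.neg.mul_integrableOn (hG.integrableOn h.mem hx)) (((hψ.mul_left isOpen_DD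
        hρ.smooth).mul_integrableOn (hG.integrableOn h.mem hx)).const_mul μ)] at h1
  rw [← h1, GI]
  congr 1; funext y; simp only [LL]; ring

lemma G0_add {a b : ℂ → ℝ} (ha : Test DD a) (hb : Test DD b) (c : ℝ) {x : ℂ} (hx : x ∈ DD) :
    G0 (fun z => a z + c * b z) x = G0 a x + c * G0 b x := by
  simp only [G0]
  rw [← integral_const_mul, ← integral_add (ha.mul_integrableOn (integrableOn_g0 hx))
    ((hb.mul_integrableOn (integrableOn_g0 hx)).const_mul c)]
  congr 1; funext y; ring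

/-- The Green form is approximately attained by test functions. -/
theorem Wt.variational (hρ : Wt ρ) (h : Pot (mm ρ) μ) (hG : GreenAn (mm ρ) μ C) {g : ℂ → ℝ}
    (hg : Test DD g) {ε : ℝ} (hε : 0 < ε) : ∃ Y, Test DD Y ∧
      (∫ x in DD, g x * GI (mm ρ) μ g x) - ε ≤ 2 * (∫ x in DD, g x * Y x) - EE ρ μ Y Y := by
  have := hρ.fin
  have hμ := h.mu_pos
  obtain ⟨B, hB, hg0⟩ := memLp_g0 h.ae h.sq
  obtain ⟨M, hM⟩ := hG.GI_bdd h.mem hg
  have hM0 : 0 ≤ M := (abs_nonneg _).trans (hM 0 (by simp))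
  set Y₀ := GI (mm ρ) μ g with hY₀
  have hYL : MemLp Y₀ 2 (mm ρ) := hρ.memLp_bdd (hG.GI_meas μ hg).aestronglyMeasurable hM
  set A := ∫ x in DD, |g x|
  have hA : 0 ≤ A := integral_nonneg fun _ => abs_nonneg _
  set V := (mm ρ).real univ
  have hV : 0 ≤ V := measureReal_nonneg
  set K := A + μ * (M + 1) * (2 * V + 1) + 1
  have hK : 0 < K := by positivity
  obtain ⟨η, hη, hη1, hηK⟩ : ∃ η > 0, η ≤ 1 ∧ K * η ≤ ε :=
    ⟨min 1 (ε / K), by positivity, min_le_left _ _, by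
      rw [← le_div_iff₀' hK]; exact min_le_right _ _⟩
  obtain ⟨F, hF, -, hFε⟩ := hρ.dense hYL (ε := η ^ 2 / (1 + μ ^ 2 * B)) (by positivity)
  have hFL := hρ.memLp_test hF
  have hD : MemLp (fun z => Y₀ z - F z) 2 (mm ρ) := hYL.sub hFL
  have hρF := hF.mul_left isOpen_DD hρ.smooth
  have hk := hg.add (hρF.const_mul μ)
  set ψ := G0 fun z => g z + μ * (ρ z * F z) with hψ
  have he : ∀ x ∈ DD, |ψ x - Y₀ x| ≤ η := by
    intro x hx
    have e1 : ψ x - Y₀ x = -μ * SG (mm ρ) (fun z => Y₀ z - F z) x := by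
      rw [hψ, G0_add hg hρF μ hx, hY₀, hG.res2 h hg hx, ← hY₀, ← hρ.SG_eq]
      simp only [SG, mul_sub]
      rw [integral_sub (by exact (hg0 x hx).1.integrable_mul hYL)
        (by exact (hg0 x hx).1.integrable_mul hFL)]
      ring
    refine abs_le_of_sq_le_sq ?_ hη.le
    rw [e1, mul_pow, neg_sq]
    calc _ ≤ μ ^ 2 * (B * (η ^ 2 / (1 + μ ^ 2 * B))) := by
          gcongr
          exact (SG_sq_le (hg0 x hx) hD).trans (by gcongr)
      _ = η ^ 2 * (μ ^ 2 * B / (1 + μ ^ 2 * B)) := by ring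
      _ ≤ η ^ 2 * 1 := by
          gcongr
          exact (div_le_one (by positivity)).2 (by linarith)
      _ = _ := mul_one _
  have hψc : ContinuousOn ψ DD := (G0_spec hk).1.continuousOn
  have hψb : ∀ x ∈ DD, |ψ x| ≤ M + 1 := fun x hx => by
    have := abs_sub_abs_le_abs_sub (ψ x) (Y₀ x)
    linarith [he x hx, hM x hx]
  have hψL : MemLp ψ 2 (mm ρ) := hρ.memLp_bdd (aesm_mm hψc) hψb
  have t := ((tendsto_mul_cut hk hg.integrableOn).const_mul 2).sub (hρ.tendsto_EE μ hk)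
  rw [← hψ] at t
  have i1 : IntegrableOn (fun x => g x * ψ x) DD := integrableOn_mul_G0 hk hg.integrableOn
  have i2 : IntegrableOn (fun x => ρ x * F x * ψ x) DD := integrableOn_mul_G0 hk hρF.integrableOn
  have i3 : IntegrableOn (fun x => g x * Y₀ x) DD := hg.integrableOn.mul_bdd
    (hG.GI_meas μ hg).aestronglyMeasurable ((ae_restrict_mem measurableSet_DD).mono hM)
  have e1 : ∫ z in DD, (g z + μ * (ρ z * F z)) * ψ z =
      (∫ z in DD, g z * ψ z) + μ * ∫ z, F z * ψ z ∂mm ρ := by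
    rw [hρ.integral]
    simp only [← mul_assoc]
    rw [← integral_const_mul, ← integral_add i1 (i2.const_mul μ)]
    congr 1; funext z; ring
  have e2 : (∫ z in DD, g z * Y₀ z) - A * η ≤ ∫ z in DD, g z * ψ z := by
    rw [← integral_mul_const, ← integral_sub i3 (hg.integrableOn.abs.mul_const η)]
    refine setIntegral_mono_on (i3.sub (hg.integrableOn.abs.mul_const η)) i1 measurableSet_DD
      fun z hz => ?_
    have h1 := neg_abs_le (g z * (ψ z - Y₀ z))
    have h2 : |g z * (ψ z - Y₀ z)| ≤ |g z| * η := by rw [abs_mul]; gcongr; exact he z hz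
    linarith
  have e3 : ∫ z, F z * ψ z ∂mm ρ ≤ (∫ z, ψ z ^ 2 ∂mm ρ) + (M + 1) * (2 * V + 1) * η := by
    have j1 := hD.integrable_sq
    calc _ ≤ ∫ z, (ψ z ^ 2 + ((M + 1) * η⁻¹ * (Y₀ z - F z) ^ 2 + (M + 1) * (2 * η))) ∂mm ρ := by
          refine integral_mono_ae (hFL.integrable_mul hψL) (hψL.integrable_sq.add
            ((j1.const_mul _).add (integrable_const _))) (h.ae.mono fun z hz => ?_)
          have h1 : |F z - ψ z| ≤ η⁻¹ * (Y₀ z - F z) ^ 2 + 2 * η := by
            have h2 := abs_sub_le (F z) (Y₀ z) (ψ z)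
            rw [abs_sub_comm (F z) (Y₀ z), abs_sub_comm (Y₀ z) (ψ z)] at h2
            have h3 : |Y₀ z - F z| ≤ η⁻¹ * (Y₀ z - F z) ^ 2 + η := by
              rw [← sq_abs, ← sub_le_iff_le_add, le_inv_mul_iff₀ hη]
              nlinarith [sq_nonneg (|Y₀ z - F z| - η), abs_nonneg (Y₀ z - F z)]
            linarith [he z hz]
          have h4 : (F z - ψ z) * ψ z ≤ (η⁻¹ * (Y₀ z - F z) ^ 2 + 2 * η) * (M + 1) := by
            refine (le_abs_self _).trans ?_
            rw [abs_mul]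
            exact mul_le_mul h1 (hψb z hz) (abs_nonneg _) (by positivity)
          simp only
          linarith
      _ = (∫ z, ψ z ^ 2 ∂mm ρ) + ((M + 1) * η⁻¹ * (∫ z, (Y₀ z - F z) ^ 2 ∂mm ρ) +
            V * ((M + 1) * (2 * η))) := by
          rw [integral_add hψL.integrable_sq (by exact (j1.const_mul _).add (integrable_const _)),
            integral_add (j1.const_mul _) (integrable_const _), integral_const_mul, integral_const,
            smul_eq_mul]
      _ ≤ (∫ z, ψ z ^ 2 ∂mm ρ) + ((M + 1) * η⁻¹ * η ^ 2 + V * ((M + 1) * (2 * η))) := by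
          gcongr
          exact hFε.trans (div_le_self (by positivity) (le_add_of_nonneg_right (by positivity)))
      _ = _ := by field_simp; ring
  rw [e1, ← hρ.integral] at t
  have hlt : (∫ x in DD, g x * Y₀ x) - ε < 2 * (∫ x in DD, g x * ψ x) - ((∫ z in DD, g z * ψ z) +
      μ * ∫ z, F z * ψ z ∂mm ρ - μ * ∫ z, ψ z ^ 2 ∂mm ρ) := by
    have := mul_le_mul_of_nonneg_left e3 hμ.le
    simp only [K] at hηK
    linarith
  obtain ⟨δ, h1, hδ⟩ := ((t.eventually (lt_mem_nhds hlt)).and self_mem_nhdsWithin).exists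
  exact ⟨_, G0_test hk hδ, h1.le⟩

end Vale.Agent.P071
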