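import Vale.Agent.P071.Calc
import Vale.Agent.P071.Riemann

/-! Auxiliary results for the shell estimates: cutoffs, Caccioppoli, conformal transfer. -/

open MeasureTheory Set Metric Filter Topology
open scoped ENNReal Convolution

namespace Vale.Agent.P071

namespace Shells

variable {Ω : Set ℂ}

theorem compl_nonempty (hb : Bornology.IsBounded Ω) : Ωᶜ.Nonempty := by
  rw [nonempty_compl]
  rintro rfl
  exact NormedSpace.unbounded_univ ℝ ℂ hb

theorem dist'_nonneg (x : ℂ) : 0 ≤ dist' Ω x := infDist_nonneg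

theorem mem_of_pos {x : ℂ} (h : 0 < dist' Ω x) : x ∈ Ω := by
  by_contra hx
  exact h.ne' (infDist_zero_of_mem hx)

theorem pos_of_mem (ho : IsOpen Ω) (hb : Bornology.IsBounded Ω) {x : ℂ} (h : x ∈ Ω) :
    0 < dist' Ω x :=
  (ho.isClosed_compl.notMem_iff_infDist_pos (compl_nonempty hb)).1 (not_not.2 h)

theorem continuous_dist' : Continuous (dist' Ω) := continuous_infDist_pt _

theorem abs_dist'_sub_le (x y : ℂ) : |dist' Ω x - dist' Ω y| ≤ dist x y := by
  simpa [Real.dist_eq, dist'] using (lipschitz_infDist_pt Ωᶜ).dist_le_mul x y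

theorem exists_bound (hb : Bornology.IsBounded Ω) : ∃ D > 0, ∀ x, dist' Ω x ≤ D := by
  obtain ⟨y, hy⟩ := compl_nonempty hb
  obtain ⟨R, hR, hsub⟩ := hb.subset_ball_lt 0 y
  refine ⟨R, hR, fun x => ?_⟩
  by_cases hx : x ∈ Ω
  · exact (infDist_le_dist_of_mem hy).trans (mem_ball.1 (hsub hx)).le
  · exact (infDist_zero_of_mem (s := Ωᶜ) hx).le.trans hR.le

theorem isCompact_layer (hb : Bornology.IsBounded Ω) {a b : ℝ} (ha : 0 < a) :
    IsCompact {x | a ≤ dist' Ω x ∧ dist' Ω x ≤ b} :=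
  isCompact_of_isClosed_isBounded (isClosed_Icc.preimage continuous_dist')
    (hb.subset fun _ hx => mem_of_pos (ha.trans_le hx.1))

theorem exists_cutoff (hb : Bornology.IsBounded Ω) {η : ℝ} (hη : 0 < η) :
    ∃ ζ : ℂ → ℝ, Test Ω ζ ∧ (∀ x, η ≤ dist' Ω x → dist' Ω x ≤ 2 * η → ζ x = 1) ∧
      (∀ x, |ζ x| ≤ 1) ∧ (∀ x, gdot ζ ζ x ≤ 32 / η ^ 2) ∧
      ∀ x ∈ tsupport ζ, dist' Ω x < 3 * η := by
  let g : ℝ → ℝ := fun t => max 0 (min 1 (min (t - 2) (10 - t)))
  have hg : LipschitzWith 1 g := by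
    have h1 : LipschitzWith 1 fun t : ℝ => t - 2 :=
      LipschitzWith.of_dist_le_mul fun x y => by simp [Real.dist_eq]
    have h2 : LipschitzWith 1 fun t : ℝ => 10 - t :=
      LipschitzWith.of_dist_le_mul fun x y => by
        rw [dist_sub_left, NNReal.coe_one, one_mul]
    simpa using ((h1.min h2).const_min 1).const_max 0
  let F : ℂ → ℝ := fun x => g (4 / η * dist' Ω x)
  have hFc : Continuous F := hg.continuous.comp (continuous_const.mul continuous_dist')
  have hFl : ∀ x y, |F x - F y| ≤ 4 / η * dist x y := fun x y => by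
    have h1 := hg.dist_le_mul (4 / η * dist' Ω x) (4 / η * dist' Ω y)
    rw [NNReal.coe_one, one_mul, Real.dist_eq, Real.dist_eq, ← mul_sub, abs_mul,
      abs_of_pos (by positivity : 0 < 4 / η)] at h1
    exact h1.trans (mul_le_mul_of_nonneg_left (abs_dist'_sub_le x y) (by positivity))
  have hF1 : ∀ x, |F x| ≤ 1 := fun x =>
    abs_le.2 ⟨le_trans (by norm_num) (le_max_left _ _), max_le zero_le_one (min_le_left _ _)⟩
  have hFone : ∀ x, 3 / 4 * η ≤ dist' Ω x → dist' Ω x ≤ 9 / 4 * η → F x = 1 := fun x h1 h2 => by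
    have h3 : 3 ≤ 4 / η * dist' Ω x := by
      rw [div_mul_eq_mul_div, le_div_iff₀ hη]
      linarith
    have h4 : 4 / η * dist' Ω x ≤ 9 := by
      rw [div_mul_eq_mul_div, div_le_iff₀ hη]
      linarith
    simp only [F, g]
    rw [min_eq_left (le_min (by linarith) (by linarith)), max_eq_right zero_le_one]
  have hFzero : ∀ x, dist' Ω x ≤ η / 2 ∨ 5 / 2 * η ≤ dist' Ω x → F x = 0 := fun x h => by
    refine max_eq_left ((min_le_right _ _).trans ?_)
    rcases h with h | h
    · refine (min_le_left _ _).trans ?_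
      rw [sub_nonpos, div_mul_eq_mul_div, div_le_iff₀ hη]
      linarith
    · refine (min_le_right _ _).trans ?_
      rw [sub_nonpos, div_mul_eq_mul_div, le_div_iff₀ hη]
      linarith
  let φ : ContDiffBump (0 : ℂ) := ⟨η / 8, η / 4, by positivity, by linarith⟩
  let ζ : ℂ → ℝ := φ.normed volume ⋆[ContinuousLinearMap.lsmul ℝ ℝ, volume] F
  have hloc : ∀ x y, y ∈ ball x φ.rOut → |dist' Ω y - dist' Ω x| ≤ η / 4 := fun x y hy =>
    (abs_dist'_sub_le y x).trans (mem_ball.1 hy).le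
  have hex : ∀ x, Integrable fun t => φ.normed volume t * F (x - t) := fun x =>
    φ.hasCompactSupport_normed.convolutionExists_left (ContinuousLinearMap.lsmul ℝ ℝ)
      φ.continuous_normed hFc.locallyIntegrable x
  have hζ : ∀ x, ζ x = ∫ t, φ.normed volume t * F (x - t) := fun x => rfl
  have hbd : ∀ (u : ℂ → ℝ) (c : ℝ), (∀ t, |u t| ≤ c) → |∫ t, φ.normed volume t * u t| ≤ c := by
    intro u c hu
    have h1 := norm_integral_le_of_norm_le (f := fun t => φ.normed volume t * u t)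
      (φ.integrable_normed.mul_const c) (Eventually.of_forall fun t => by
        rw [norm_mul, Real.norm_of_nonneg (φ.nonneg_normed t)]
        exact mul_le_mul_of_nonneg_left (hu t) (φ.nonneg_normed t))
    rwa [integral_mul_const, φ.integral_normed, one_mul] at h1
  have hsupp : tsupport ζ ⊆ {x | η / 4 ≤ dist' Ω x ∧ dist' Ω x ≤ 11 / 4 * η} := by
    refine closure_minimal (fun x hx => ?_) (isClosed_Icc.preimage continuous_dist')
    by_contra h
    apply hx
    have h0 : ∀ y, |dist' Ω y - dist' Ω x| ≤ η / 4 → F y = 0 := fun y hy => by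
      rw [abs_le] at hy
      refine hFzero y ?_
      rcases not_and_or.1 h with h | h
      · left
        linarith [not_le.1 h]
      · right
        linarith [not_le.1 h]
    have h1 := h0 x (by simp; positivity)
    rw [← h1]
    exact φ.normed_convolution_eq_right fun y hy => by rw [h1, h0 y (hloc x y hy)]
  have hlip : LipschitzWith ⟨4 / η, by positivity⟩ ζ := by
    refine LipschitzWith.of_dist_le_mul fun x y => ?_
    rw [Real.dist_eq, hζ, hζ, ← integral_sub (hex x) (hex y)]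
    simp only [← mul_sub]
    refine hbd _ _ fun t => (hFl _ _).trans (le_of_eq ?_)
    rw [dist_sub_right]
    rfl
  refine ⟨ζ, ⟨φ.hasCompactSupport_normed.contDiff_convolution_left _ φ.contDiff_normed
    hFc.locallyIntegrable, (isCompact_layer hb (by positivity)).of_isClosed_subset
      (isClosed_tsupport _) hsupp, fun x hx => mem_of_pos ((by positivity : 0 < η / 4).trans_le
      (hsupp hx).1)⟩, fun x h1 h2 => ?_, fun x => hbd _ _ fun t => hF1 _, fun x => ?_,
    fun x hx => by linarith [(hsupp hx).2]⟩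
  · have h3 := hFone x (by linarith) (by linarith)
    rw [← h3]
    refine φ.normed_convolution_eq_right fun y hy => ?_
    have h4 := abs_le.1 (hloc x y hy)
    rw [h3, hFone y (by linarith) (by linarith)]
  · have h1 : ‖fderiv ℝ ζ x‖ ≤ 4 / η := norm_fderiv_le_of_lipschitz ℝ hlip
    have h2 : ∀ v : ℂ, ‖v‖ = 1 → fderiv ℝ ζ x v * fderiv ℝ ζ x v ≤ 16 / η ^ 2 := fun v hv => by
      have h3 := (fderiv ℝ ζ x).le_opNorm v
      rw [hv, mul_one] at h3
      rw [← abs_mul_abs_self]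
      refine (mul_self_le_mul_self (abs_nonneg _) (h3.trans h1)).trans (le_of_eq ?_)
      ring
    have h3 := h2 1 norm_one
    have h4 := h2 Complex.I Complex.norm_I
    simp only [gdot, d1, d2]
    linarith [show 32 / η ^ 2 = 16 / η ^ 2 + 16 / η ^ 2 by ring]

theorem measurableSet_near (η : ℝ) : MeasurableSet {x | dist' Ω x < η} :=
  (isOpen_lt continuous_dist' continuous_const).measurableSet

theorem cacc (ho : IsOpen Ω) (hb : Bornology.IsBounded Ω) {W : ℂ → ℝ}
    (hW : ContDiffOn ℝ (⊤ : ℕ∞) W Ω) {μ : ℝ} (hlap : ∀ x ∈ Ω, lap W x = -μ * W x)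
    (hint : IntegrableOn (fun x => W x ^ 2) Ω) :
    ∃ C : ℝ, 0 ≤ C ∧ ∀ η > 0, ∫ x in {x | η ≤ dist' Ω x ∧ dist' Ω x ≤ 2 * η}, gdot W W x ≤
      C / η ^ 2 * ∫ x in Ω ∩ {x | dist' Ω x < 3 * η}, W x ^ 2 := by
  obtain ⟨D, hD, hDx⟩ := exists_bound hb
  refine ⟨2 * |μ| * D ^ 2 + 128, by positivity, fun η hη => ?_⟩
  rcases lt_or_ge D η with hDη | hDη
  · have : {x | η ≤ dist' Ω x ∧ dist' Ω x ≤ 2 * η} = ∅ :=
      eq_empty_of_forall_notMem fun x hx => by linarith [hx.1, hDx x]
    rw [this, setIntegral_empty]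
    exact mul_nonneg (by positivity) (integral_nonneg fun x => sq_nonneg _)
  obtain ⟨ζ, hζ, h1, h2, h3, h4⟩ := exists_cutoff hb hη
  have hζ2 : Test Ω fun x => ζ x * ζ x := hζ.mul_left ho hζ.contDiffOn
  have hψ : Test Ω fun x => W x * (ζ x * ζ x) := hζ2.mul_left ho hW
  have hG : ContinuousOn (gdot W W) Ω :=
    continuousOn_gdot ho (hW.of_le one_le_oo) (hW.of_le one_le_oo)
  have hi1 := hζ2.integrableOn_mul ho hG
  have hi2 := hψ.integrableOn_gdot ho (hW.of_le one_le_oo)
  have hi3 := hψ.integrableOn_mul ho (contDiffOn_lap ho hW).continuousOn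
  have hgr := green1 ho (hW.of_le two_le_oo) hψ
  set K := (2 * |μ| * D ^ 2 + 128) / η ^ 2 with hK
  have hi4 : IntegrableOn (indicator {x | dist' Ω x < 3 * η} fun x => K * W x ^ 2) Ω :=
    (hint.const_mul K).indicator (measurableSet_near _)
  have hpt : ∀ x ∈ Ω, gdot W W x * (ζ x * ζ x) ≤
      2 * (gdot W (fun x => W x * (ζ x * ζ x)) x + lap W x * (W x * (ζ x * ζ x))) +
        indicator {x | dist' Ω x < 3 * η} (fun x => K * W x ^ 2) x := by
    intro x hx
    have hWd : DifferentiableAt ℝ W x :=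
      (hW.contDiffAt (ho.mem_nhds hx)).differentiableAt oo_ne_zero
    have hζd := hζ.diffAt x
    have h5 : 2 * μ * (ζ x * ζ x) * W x ^ 2 + 4 * gdot ζ ζ x * W x ^ 2 ≤
        indicator {x | dist' Ω x < 3 * η} (fun x => K * W x ^ 2) x := by
      by_cases hxs : x ∈ tsupport ζ
      · rw [indicator_of_mem (s := {x | dist' Ω x < 3 * η}) (h4 x hxs), ← add_mul]
        refine mul_le_mul_of_nonneg_right ?_ (sq_nonneg _)
        have h6 : ζ x * ζ x ≤ 1 := by
          rw [← abs_mul_abs_self]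
          exact mul_le_one₀ (h2 x) (abs_nonneg _) (h2 x)
        have h7 : μ * (ζ x * ζ x) ≤ |μ| := (mul_le_mul_of_nonneg_right (le_abs_self μ)
          (mul_self_nonneg _)).trans (mul_le_of_le_one_right (abs_nonneg _) h6)
        have h8 : |μ| ≤ |μ| * D ^ 2 / η ^ 2 := by
          rw [le_div_iff₀ (by positivity)]
          exact mul_le_mul_of_nonneg_left (pow_le_pow_left₀ hη.le hDη 2) (abs_nonneg _)
        have h9 : K = 2 * (|μ| * D ^ 2 / η ^ 2) + 4 * (32 / η ^ 2) := by
          rw [hK]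
          ring
        linarith [h3 x]
      · have h6 : gdot ζ ζ x = 0 := by
          simp only [gdot, d1_eq, d2_eq, dd_eq_zero_of_notMem_tsupport hxs]
          ring
        rw [image_eq_zero_of_notMem_tsupport hxs, h6]
        simpa using indicator_nonneg (fun y _ => by positivity) x
    refine le_trans ?_ (add_le_add le_rfl h5)
    rw [hlap x hx]
    have h6 : ∀ v, dd v (fun x => W x * (ζ x * ζ x)) x =
        dd v W x * (ζ x * ζ x) + W x * (dd v ζ x * ζ x + ζ x * dd v ζ x) := fun v => by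
      rw [dd_mul (b := fun x => ζ x * ζ x) hWd (hζd.mul hζd), dd_mul hζd hζd]
    simp only [gdot, d1_eq, d2_eq, h6]
    nlinarith [sq_nonneg (ζ x * dd 1 W x + 2 * W x * dd 1 ζ x),
      sq_nonneg (ζ x * dd Complex.I W x + 2 * W x * dd Complex.I ζ x)]
  have hsub : {x | η ≤ dist' Ω x ∧ dist' Ω x ≤ 2 * η} ⊆ Ω := fun x hx =>
    mem_of_pos (hη.trans_le hx.1)
  calc ∫ x in {x | η ≤ dist' Ω x ∧ dist' Ω x ≤ 2 * η}, gdot W W x
      = ∫ x in {x | η ≤ dist' Ω x ∧ dist' Ω x ≤ 2 * η}, gdot W W x * (ζ x * ζ x) :=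
        setIntegral_congr_fun (isCompact_layer hb hη).measurableSet fun x hx => by
          simp [h1 x hx.1 hx.2]
    _ ≤ ∫ x in Ω, gdot W W x * (ζ x * ζ x) :=
        setIntegral_mono_set hi1 (Eventually.of_forall fun x =>
          mul_nonneg gdot_self_nonneg (mul_self_nonneg _)) hsub.eventuallyLE
    _ ≤ ∫ x in Ω, (2 * (gdot W (fun x => W x * (ζ x * ζ x)) x + lap W x * (W x * (ζ x * ζ x))) +
          indicator {x | dist' Ω x < 3 * η} (fun x => K * W x ^ 2) x) :=
        setIntegral_mono_on hi1 (((hi2.add hi3).const_mul 2).add hi4) ho.measurableSet hpt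
    _ = _ := by
        have hi5 : IntegrableOn (fun x => 2 * (gdot W (fun x => W x * (ζ x * ζ x)) x +
          lap W x * (W x * (ζ x * ζ x)))) Ω := (hi2.add hi3).const_mul 2
        rw [integral_add hi5 hi4, integral_const_mul, integral_add hi2 hi3,
          hgr, neg_add_cancel, mul_zero, zero_add, setIntegral_indicator (measurableSet_near _),
          integral_const_mul]

variable {f φ : ℂ → ℂ}

theorem hasDerivAt_phi (ho : IsOpen Ω) (hc : Conf Ω f φ) {x : ℂ} (hx : x ∈ Ω) :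
    HasDerivAt φ (deriv φ x) x := (hc.hφ.differentiableAt (ho.mem_nhds hx)).hasDerivAt

theorem schwarz_pick (ho : IsOpen Ω) (hb : Bornology.IsBounded Ω) (hc : Conf Ω f φ) {x : ℂ}
    (hx : x ∈ Ω) : ‖deriv φ x‖ * dist' Ω x ≤ hh (φ x) := by
  have hd := pos_of_mem ho hb hx
  have hn : ∀ y ∈ Ω, ‖φ y‖ < 1 := fun y hy => mem_ball_zero_iff.1 (hc.mapsφ hy)
  have hsub : ball x (dist' Ω x) ⊆ Ω := ball_infDist_compl_subset
  have hder : ∀ y ∈ Ω, HasDerivAt (fun y => Riemann.mob (φ x) (φ y)) (_ * deriv φ y) y :=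
    fun y hy => (Riemann.mob_deriv (hn x hx) (hn y hy)).comp y (hasDerivAt_phi ho hc hy)
  have h1 := Complex.norm_deriv_le_div_of_mapsTo_ball (f := fun y => Riemann.mob (φ x) (φ y))
    (c := x) (R₂ := 1)
    (fun y hy => (hder y (hsub hy)).differentiableAt.differentiableWithinAt)
    (fun y hy => by
      have : Riemann.mob (φ x) (φ x) = 0 := by simp [Riemann.mob]
      rw [this, mem_closedBall_zero_iff]
      exact (Riemann.mob_norm (hn x hx) (hn y (hsub hy))).le) hd
  have h2 : 0 < 1 - ‖φ x‖ ^ 2 := by nlinarith [hn x hx, norm_nonneg (φ x)]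
  rw [(hder x hx).deriv, norm_mul, norm_div, norm_pow, Riemann.norm_den _ (hn x hx),
    le_div_iff₀ hd] at h1
  rw [hh]
  calc _ = (1 - ‖φ x‖ ^ 2) * ((1 - ‖φ x‖ ^ 2) / (1 - ‖φ x‖ ^ 2) ^ 2 * ‖deriv φ x‖ * dist' Ω x) := by
        field_simp
    _ ≤ _ := mul_le_of_le_one_right h2.le h1

theorem transfer (ho : IsOpen Ω) (hc : Conf Ω f φ) (g : ℂ → ℝ≥0∞) :
    ∫⁻ z in DD, g z = ∫⁻ x in Ω, ENNReal.ofReal (‖deriv φ x‖ ^ 2) * g (φ x) := by
  have h1 : φ '' Ω = DD := Subset.antisymm hc.mapsφ.image_subset fun z hz =>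
    ⟨f z, hc.mapsf hz, hc.left z hz⟩
  rw [← h1, lintegral_image_eq_lintegral_abs_det_fderiv_mul volume ho.measurableSet
    (fun x hx => ((hasDerivAt_phi ho hc hx).hasFDerivAt.restrictScalars ℝ).hasFDerivWithinAt)
    (fun x hx y hy h => by rw [← hc.right x hx, h, hc.right y hy])]
  refine lintegral_congr fun x => ?_
  congr 2
  rw [ContinuousLinearMap.det, ← LinearMap.det_toMatrix Complex.basisOneI, Matrix.det_fin_two,
    Complex.sq_norm, Complex.normSq_apply]
  simp only [LinearMap.toMatrix_apply]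
  simpa using add_nonneg (mul_self_nonneg _) (mul_self_nonneg _)

theorem gdot_transfer (ho : IsOpen Ω) (hc : Conf Ω f φ) {W : ℂ → ℝ}
    (hW : ContDiffOn ℝ (⊤ : ℕ∞) W Ω) {x : ℂ} (hx : x ∈ Ω) :
    gdot W W x = ‖deriv φ x‖ ^ 2 * gdot (W ∘ f) (W ∘ f) (φ x) := by
  have hf : DifferentiableAt ℝ f (φ x) :=
    (hc.hf.differentiableAt (isOpen_ball.mem_nhds (hc.mapsφ hx))).restrictScalars ℝ
  have hWd : DifferentiableAt ℝ W (f (φ x)) :=
    (hW.contDiffAt (ho.mem_nhds (hc.mapsf (hc.mapsφ hx)))).differentiableAt oo_ne_zero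
  have h1 := (hWd.comp _ hf).hasFDerivAt.comp x
    ((hasDerivAt_phi ho hc hx).hasFDerivAt.restrictScalars ℝ)
  have h2 : W =ᶠ[𝓝 x] (W ∘ f) ∘ φ := by
    filter_upwards [ho.mem_nhds hx] with y hy
    simp [hc.right y hy]
  have h3 : ∀ v : ℂ, fderiv ℝ W x v = (v * deriv φ x).re * fderiv ℝ (W ∘ f) (φ x) 1 +
      (v * deriv φ x).im * fderiv ℝ (W ∘ f) (φ x) Complex.I := fun v => by
    rw [h2.fderiv_eq, h1.fderiv, ← smul_eq_mul (v * deriv φ x).re, ← smul_eq_mul (v * deriv φ x).im,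
      ← map_smul, ← map_smul, ← map_add, Complex.real_smul, Complex.real_smul, mul_one,
      Complex.re_add_im]
    rfl
  simp only [gdot, d1, d2, h3, Complex.sq_norm, Complex.normSq_apply]
  simp
  ring

end Shells

end Vale.Agent.P071
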