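import Vale.Agent.P071.SmoothingAux

/-! Smooth finite-dimensional multipliers from a conditionally negative kernel on a shell. -/

open MeasureTheory Set Metric
open scoped ENNReal

namespace Vale.Agent.P071

namespace Smoothing

/-- Lattice indices. -/
abbrev Idx (M : ℕ) : Type := Fin (2 * M + 1) × Fin (2 * M + 1)

/-- Lattice points. -/
noncomputable def lat (δ : ℝ) (M : ℕ) (q : Idx M) : ℂ := ⟨δ * co M q.1, δ * co M q.2⟩

/-- Lattice partition of unity. -/
noncomputable def Phi (δ : ℝ) (M : ℕ) (q : Idx M) (z : ℂ) : ℝ :=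
  ph (z.re / δ - co M q.1) * ph (z.im / δ - co M q.2)

/-- Lattice points active at `z`. -/
def Act (δ : ℝ) (M : ℕ) (q : Idx M) (z : ℂ) : Prop :=
  |z.re / δ - co M q.1| < 1 ∧ |z.im / δ - co M q.2| < 1

variable {δ : ℝ} {M : ℕ}

lemma Act.near (hδ : 0 < δ) {q : Idx M} {z : ℂ} (h : Act δ M q z) : ‖lat δ M q - z‖ ≤ 2 * δ := by
  have key : ∀ s c : ℝ, |s / δ - c| < 1 → |δ * c - s| ≤ δ := by
    intro s c hs
    have : δ * c - s = -(δ * (s / δ - c)) := by field_simp; ring
    rw [this, abs_neg, abs_mul, abs_of_pos hδ]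
    nlinarith
  have h1 := key _ _ h.1
  have h2 := key _ _ h.2
  refine (Complex.norm_le_abs_re_add_abs_im _).trans ?_
  simp only [lat, Complex.sub_re, Complex.sub_im]
  linarith

lemma contDiff_re_aux (c : ℝ) : ContDiff ℝ (⊤ : ℕ∞) fun z : ℂ => z.re / δ - c :=
  (Complex.reCLM.contDiff.div_const δ).sub contDiff_const

lemma contDiff_im_aux (c : ℝ) : ContDiff ℝ (⊤ : ℕ∞) fun z : ℂ => z.im / δ - c :=
  (Complex.imCLM.contDiff.div_const δ).sub contDiff_const

lemma Phi_contDiff (q : Idx M) : ContDiff ℝ (⊤ : ℕ∞) (Phi δ M q) :=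
  (ph_contDiff.comp (contDiff_re_aux _)).mul (ph_contDiff.comp (contDiff_im_aux _))

lemma dd_re_aux (c : ℝ) (v z : ℂ) : dd v (fun z : ℂ => z.re / δ - c) z = v.re / δ := by
  have h : HasFDerivAt (fun z : ℂ => z.re / δ - c) (δ⁻¹ • Complex.reCLM) z := by
    have := ((Complex.reCLM.hasFDerivAt (x := z)).const_smul δ⁻¹).sub_const c
    refine this.congr_of_eventuallyEq (Filter.Eventually.of_forall fun w => ?_)
    simp [div_eq_inv_mul]
  rw [dd, h.fderiv]
  simp [div_eq_inv_mul]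

lemma dd_im_aux (c : ℝ) (v z : ℂ) : dd v (fun z : ℂ => z.im / δ - c) z = v.im / δ := by
  have h : HasFDerivAt (fun z : ℂ => z.im / δ - c) (δ⁻¹ • Complex.imCLM) z := by
    have := ((Complex.imCLM.hasFDerivAt (x := z)).const_smul δ⁻¹).sub_const c
    refine this.congr_of_eventuallyEq (Filter.Eventually.of_forall fun w => ?_)
    simp [div_eq_inv_mul]
  rw [dd, h.fderiv]
  simp [div_eq_inv_mul]

lemma dd_Phi (q : Idx M) (v z : ℂ) : dd v (Phi δ M q) z =
    deriv ph (z.re / δ - co M q.1) * (v.re / δ) * ph (z.im / δ - co M q.2) +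
      ph (z.re / δ - co M q.1) * (deriv ph (z.im / δ - co M q.2) * (v.im / δ)) := by
  have h1 : DifferentiableAt ℝ (fun z : ℂ => z.re / δ - co M q.1) z :=
    (contDiff_re_aux _).differentiable oo_ne_zero z
  have h2 : DifferentiableAt ℝ (fun z : ℂ => z.im / δ - co M q.2) z :=
    (contDiff_im_aux _).differentiable oo_ne_zero z
  have h3 : DifferentiableAt ℝ (fun z : ℂ => ph (z.re / δ - co M q.1)) z :=
    (ph_contDiff.comp (contDiff_re_aux _)).differentiable oo_ne_zero z
  have h4 : DifferentiableAt ℝ (fun z : ℂ => ph (z.im / δ - co M q.2)) z :=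
    (ph_contDiff.comp (contDiff_im_aux _)).differentiable oo_ne_zero z
  have e := dd_mul (v := v) h3 h4
  rw [dd_comp (ph_hasDerivAt _) h1, dd_comp (ph_hasDerivAt _) h2, dd_re_aux, dd_im_aux] at e
  exact e

lemma act_of_mul {f g : ℝ → ℝ} (hf : ∀ t, 1 ≤ |t| → f t = 0) (hg : ∀ t, 1 ≤ |t| → g t = 0)
    {q : Idx M} {z : ℂ} (h : f (z.re / δ - co M q.1) * g (z.im / δ - co M q.2) ≠ 0) :
    Act δ M q z := by
  constructor
  · by_contra hc
    exact h (by rw [hf _ (not_lt.1 hc), zero_mul])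
  · by_contra hc
    exact h (by rw [hg _ (not_lt.1 hc), mul_zero])

lemma sum_prod_mul (f g : Fin (2 * M + 1) → ℝ) :
    ∑ q : Idx M, f q.1 * g q.2 = (∑ i, f i) * ∑ j, g j := by
  rw [Fintype.sum_prod_type, Finset.sum_mul_sum]

lemma weighted {E : Type*} [NormedAddCommGroup E] [NormedSpace ℝ E] {ι : Type*} [Fintype ι]
    (w : ι → ℝ) (b : ι → E) (c : E) {D : ℝ} (h : ∀ q, w q ≠ 0 → ‖b q - c‖ ≤ D) :
    ‖∑ q, w q • b q - (∑ q, w q) • c‖ ≤ (∑ q, |w q|) * D := by
  rw [Finset.sum_smul, ← Finset.sum_sub_distrib, Finset.sum_mul]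
  refine norm_sum_le_of_le _ fun q _ => ?_
  rw [← smul_sub, norm_smul, Real.norm_eq_abs]
  by_cases hq : w q = 0
  · simp [hq]
  · exact mul_le_mul_of_nonneg_left (h q hq) (abs_nonneg _)

lemma coord_le (hδ : 0 < δ) {s : ℝ} (hs : |s| ≤ 1) : |s / δ| ≤ (⌈1 / δ⌉₊ : ℕ) := by
  rw [abs_div, abs_of_pos hδ]
  exact (div_le_div_of_nonneg_right hs hδ.le).trans (Nat.le_ceil _)

end Smoothing

open Smoothing

theorem smoothing : ∃ K : ℝ, ∀ (N : ℂ → ℂ → ℝ) (A δ : ℝ), 0 < δ → δ ≤ 1 / 4 → 0 ≤ A →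
    (∀ x y, N x y = N y x) → (∀ x, N x x = 0) →
    (∀ (n : ℕ) (x : Fin n → ℂ) (c : Fin n → ℝ), (∀ i, x i ∈ shell δ) → ∑ i, c i = 0 →
      ∑ i, ∑ j, c i * c j * N (x i) (x j) ≤ 0) →
    (∀ x ∈ shell δ, ∀ y ∈ shell δ, √(N x y) ≤ A * (‖x - y‖ + δ)) →
    ∃ (n : ℕ) (β : Fin n → ℂ → ℝ), (∀ j, ContDiff ℝ (⊤ : ℕ∞) (β j)) ∧
      (∀ z ∈ DD, ∑ j, gdot (β j) (β j) z ≤ K * A ^ 2) ∧
      ∀ x ∈ shell δ, ∀ y ∈ shell δ,
        |√(∑ j, (β j x - β j y) ^ 2) - √(N x y)| ≤ K * A * δ := by
  obtain ⟨L, hL0, hL⟩ := exists_deriv_bound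
  refine ⟨2 * (250 * L) ^ 2 + 266, fun N A δ hδ hδ4 hA hs hd hC hN => ?_⟩
  have hC' : CND N (shell δ) := hC
  set M : ℕ := ⌈1 / δ⌉₊ with hM
  set q0 : Idx M := (0, 0) with hq0
  obtain ⟨n, v, hv⟩ := embed hs hd hC' (fun q : Idx M => pr δ (lat δ M q))
    (fun q => pr_mem hδ hδ4 _) q0
  set b : Idx M → EuclideanSpace ℝ (Fin n) := fun q => lam (lat δ M q) • (v q - v q0) with hb
  have hvv : ∀ q q', ‖v q - v q'‖ ≤ A * (‖pr δ (lat δ M q) - pr δ (lat δ M q')‖ + δ) :=
    fun q q' => (hv q q').trans_le (hN _ (pr_mem hδ hδ4 _) _ (pr_mem hδ hδ4 _))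
  have hblip : ∀ q q', ‖b q - b q'‖ ≤ 25 * A * (‖lat δ M q - lat δ M q'‖ + δ) := by
    intro q q'
    have e : b q - b q' = lam (lat δ M q) • (v q - v q') +
        (lam (lat δ M q) - lam (lat δ M q')) • (v q' - v q0) := by
      simp only [hb, smul_sub, sub_smul]; abel
    have h1 : ‖v q' - v q0‖ ≤ 3 * A := by
      refine (hvv q' q0).trans ?_
      have := norm_sub_le (pr δ (lat δ M q')) (pr δ (lat δ M q0))
      rw [norm_pr, norm_pr] at this
      have := sqrt_le_one' hδ
      nlinarith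
    have h2 := pr_lip hδ (lat δ M q) (lat δ M q')
    have h3 := lam_lip (lat δ M q) (lat δ M q')
    have h4 : lam (lat δ M q) ≤ 1 := min_le_left _ _
    have h5 : lam (lat δ M q) ≤ 5 * ‖lat δ M q‖ := min_le_right _ _
    have h6 := lam_nonneg (lat δ M q)
    have h7 := hvv q q'
    set P := ‖pr δ (lat δ M q) - pr δ (lat δ M q')‖
    set T := ‖lat δ M q - lat δ M q'‖
    have hP : 0 ≤ P := norm_nonneg _
    have hT : 0 ≤ T := norm_nonneg _
    have h8 : lam (lat δ M q) * P ≤ 10 * T := by nlinarith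
    rw [e]
    refine (norm_add_le _ _).trans ?_
    rw [norm_smul, norm_smul, Real.norm_of_nonneg h6, Real.norm_eq_abs]
    have h9 : lam (lat δ M q) * ‖v q - v q'‖ ≤ A * (10 * T + δ) := by
      refine (mul_le_mul_of_nonneg_left h7 h6).trans ?_
      have : lam (lat δ M q) * (P + δ) ≤ 10 * T + δ := by nlinarith
      nlinarith
    have h10 : |lam (lat δ M q) - lam (lat δ M q')| * ‖v q' - v q0‖ ≤ 5 * T * (3 * A) :=
      mul_le_mul h3 h1 (norm_nonneg _) (by positivity)
    have : 0 ≤ A * δ := by positivity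
    nlinarith
  have hact : ∀ z q q', Act δ M q z → Act δ M q' z → ‖b q - b q'‖ ≤ 125 * A * δ := by
    intro z q q' h h'
    refine (hblip q q').trans ?_
    have h1 := h.near hδ
    have h2 := h'.near hδ
    have h3 : ‖lat δ M q - lat δ M q'‖ ≤ 4 * δ := by
      have := norm_sub_le_norm_sub_add_norm_sub (lat δ M q) z (lat δ M q')
      rw [norm_sub_rev z] at this
      linarith
    nlinarith
  have hre : ∀ z ∈ DD, |z.re / δ| ≤ M := fun z hz =>
    coord_le hδ ((Complex.abs_re_le_norm z).trans (mem_ball_zero_iff.1 hz).le)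
  have him : ∀ z ∈ DD, |z.im / δ| ≤ M := fun z hz =>
    coord_le hδ ((Complex.abs_im_le_norm z).trans (mem_ball_zero_iff.1 hz).le)
  have hsum : ∀ z ∈ DD, ∑ q, Phi δ M q z = 1 := by
    intro z hz
    have := sum_prod_mul (M := M) (fun i => ph (z.re / δ - co M i)) fun i => ph (z.im / δ - co M i)
    rw [sum_ph_eq_one (hre z hz), sum_ph_eq_one (him z hz), mul_one] at this
    exact this
  have hPhiAct : ∀ z q, Phi δ M q z ≠ 0 → Act δ M q z := fun z q h =>
    act_of_mul (fun _ => ph_eq_zero) (fun _ => ph_eq_zero) h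
  have hex : ∀ z ∈ DD, ∃ q, Act δ M q z := by
    intro z hz
    obtain ⟨q, -, hq⟩ := Finset.exists_ne_zero_of_sum_ne_zero
      (s := Finset.univ) (f := fun q => Phi δ M q z) (by rw [hsum z hz]; exact one_ne_zero)
    exact ⟨q, hPhiAct z q hq⟩
  have hcoord : ∀ (w : Idx M → ℝ) (j : Fin n), (∑ q, w q • b q) j = ∑ q, w q * b q j := by
    intro w j
    simp
  refine ⟨n, fun j z => ∑ q, Phi δ M q z * b q j, fun j => ?_, fun z hz => ?_,
    fun x hx y hy => ?_⟩
  · exact ContDiff.sum fun q _ => (Phi_contDiff q).mul contDiff_const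
  · obtain ⟨qz, hqz⟩ := hex z hz
    have hdd : ∀ (u : ℂ) (j : Fin n), dd u (fun z => ∑ q, Phi δ M q z * b q j) z =
        (∑ q, dd u (Phi δ M q) z • b q) j := by
      intro u j
      rw [hcoord, dd_sum _ fun q _ =>
        (((Phi_contDiff q).mul contDiff_const).differentiable oo_ne_zero z)]
      refine Finset.sum_congr rfl fun q _ => ?_
      rw [dd_mul ((Phi_contDiff q).differentiable oo_ne_zero z) (differentiableAt_const _),
        dd_const, mul_zero, add_zero]
    have key : ∀ w : Idx M → ℝ, (∀ q, w q ≠ 0 → Act δ M q z) → ∑ q, w q = 0 →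
        ∑ q, |w q| ≤ 2 * L / δ → ∑ j, (∑ q, w q • b q) j * (∑ q, w q • b q) j ≤
          (250 * L) ^ 2 * A ^ 2 := by
      intro w h1 h2 h3
      have h4 := weighted w b (b qz) fun q hq => hact z q qz (h1 q hq) hqz
      rw [h2, zero_smul, sub_zero] at h4
      have h5 : ‖∑ q, w q • b q‖ ≤ 250 * L * A := by
        refine h4.trans ((mul_le_mul_of_nonneg_right h3 (by positivity)).trans_eq ?_)
        field_simp; ring
      have h6 := pow_le_pow_left₀ (norm_nonneg _) h5 2
      rw [EuclideanSpace.real_norm_sq_eq] at h6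
      simp_rw [← sq]
      exact h6.trans_eq (by ring)
    have k1 := key (fun q => dd 1 (Phi δ M q) z) (fun q hq => ?_) ?_ ?_
    have k2 := key (fun q => dd Complex.I (Phi δ M q) z) (fun q hq => ?_) ?_ ?_
    · simp only [gdot, d1_eq, d2_eq, hdd]
      rw [Finset.sum_add_distrib]
      nlinarith [sq_nonneg A]
    · refine act_of_mul (f := ph) (g := deriv ph) (fun _ => ph_eq_zero)
        (fun _ => deriv_ph_eq_zero) fun h => hq ?_
      simp only [dd_Phi, Complex.I_re, Complex.I_im, zero_div, mul_zero, zero_mul, zero_add]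
      rw [← mul_assoc, h, zero_mul]
    · simp only [dd_Phi, Complex.I_re, Complex.I_im, zero_div, mul_zero, zero_mul, zero_add]
      rw [sum_prod_mul (M := M) (fun i => ph (z.re / δ - co M i))
        fun i => deriv ph (z.im / δ - co M i) * (1 / δ), ← Finset.sum_mul,
        sum_deriv_ph (him z hz), zero_mul, mul_zero]
    · simp only [dd_Phi, Complex.I_re, Complex.I_im, zero_div, mul_zero, zero_mul, zero_add,
        abs_mul, abs_of_nonneg (ph_nonneg _), abs_of_pos (one_div_pos.2 hδ)]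
      rw [sum_prod_mul (M := M) (fun i => ph (z.re / δ - co M i))
        fun i => |deriv ph (z.im / δ - co M i)| * (1 / δ), ← Finset.sum_mul,
        sum_ph_eq_one (hre z hz), one_mul, mul_one_div]
      exact div_le_div_of_nonneg_right (sum_abs_deriv_ph hL M _) hδ.le
    · refine act_of_mul (f := deriv ph) (g := ph) (fun _ => deriv_ph_eq_zero)
        (fun _ => ph_eq_zero) fun h => hq ?_
      simp only [dd_Phi, Complex.one_re, Complex.one_im, zero_div, mul_zero, add_zero]
      rw [mul_right_comm, h, zero_mul]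
    · simp only [dd_Phi, Complex.one_re, Complex.one_im, zero_div, mul_zero, add_zero]
      rw [sum_prod_mul (M := M) (fun i => deriv ph (z.re / δ - co M i) * (1 / δ))
        fun i => ph (z.im / δ - co M i), ← Finset.sum_mul,
        sum_deriv_ph (hre z hz), zero_mul, zero_mul]
    · simp only [dd_Phi, Complex.one_re, Complex.one_im, zero_div, mul_zero, add_zero,
        abs_mul, abs_of_nonneg (ph_nonneg _), abs_of_pos (one_div_pos.2 hδ)]
      rw [sum_prod_mul (M := M) (fun i => |deriv ph (z.re / δ - co M i)| * (1 / δ))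
        fun i => ph (z.im / δ - co M i), ← Finset.sum_mul,
        sum_ph_eq_one (him z hz), mul_one, mul_one_div]
      exact div_le_div_of_nonneg_right (sum_abs_deriv_ph hL M _) hδ.le
  · have near : ∀ x ∈ shell δ, ∃ q, ‖∑ q, Phi δ M q x • b q - b q‖ ≤ 125 * A * δ ∧
        b q = v q - v q0 ∧ √(N (pr δ (lat δ M q)) x) ≤ 8 * A * δ := by
      intro x hx
      have hxD := mem_DD_of_shell hδ hx
      obtain ⟨q, hq⟩ := hex x hxD
      have h0 := hq.near hδ
      have hx7 := norm_of_shell hδ4 hx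
      refine ⟨q, ?_, ?_, ?_⟩
      · have h4 := weighted (fun q => Phi δ M q x) b (b q) fun q' hq' =>
          hact x q' q (hPhiAct x q' hq') hq
        have h5 : ∑ q, |Phi δ M q x| = 1 := by
          rw [← hsum x hxD]
          exact Finset.sum_congr rfl fun q _ =>
            abs_of_nonneg (mul_nonneg (ph_nonneg _) (ph_nonneg _))
        rwa [hsum x hxD, h5, one_smul, one_mul] at h4
      · have : lam (lat δ M q) = 1 := by
          refine min_eq_left ?_
          have := norm_sub_norm_le x (lat δ M q)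
          rw [norm_sub_rev] at this
          linarith
        simp only [hb, this, one_smul]
      · refine (hN _ (pr_mem hδ hδ4 _) x hx).trans ?_
        have h1 := pr_lip hδ x (lat δ M q)
        have h2 := pr_sub_self hδ4 hx
        have h3 := norm_sub_le_norm_sub_add_norm_sub (pr δ (lat δ M q)) (pr δ x) x
        rw [norm_sub_rev x] at h1
        rw [norm_sub_rev (pr δ (lat δ M q)) (pr δ x)] at h3
        have h4 : ‖pr δ x - pr δ (lat δ M q)‖ ≤ 6 * δ := by
          have := norm_nonneg (pr δ x - pr δ (lat δ M q))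
          nlinarith
        have : ‖pr δ (lat δ M q) - x‖ + δ ≤ 8 * δ := by linarith
        nlinarith
    obtain ⟨qx, hx1, hx2, hx3⟩ := near x hx
    obtain ⟨qy, hy1, hy2, hy3⟩ := near y hy
    have e1 : √(∑ j, ((∑ q, Phi δ M q x * b q j) - ∑ q, Phi δ M q y * b q j) ^ 2) =
        ‖∑ q, Phi δ M q x • b q - ∑ q, Phi δ M q y • b q‖ := by
      rw [EuclideanSpace.norm_eq]
      simp only [PiLp.sub_apply, hcoord, Real.norm_eq_abs, sq_abs]
    have e2 : ‖b qx - b qy‖ = √(N (pr δ (lat δ M qx)) (pr δ (lat δ M qy))) := by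
      rw [hx2, hy2, sub_sub_sub_cancel_right, hv]
    have h1 := four_point hs hd hC' (pr_mem hδ hδ4 (lat δ M qx)) (pr_mem hδ hδ4 (lat δ M qy)) hx hy
    have h2 := dist_dist_dist_le (∑ q, Phi δ M q x • b q) (∑ q, Phi δ M q y • b q) (b qx) (b qy)
    simp only [dist_eq_norm, Real.norm_eq_abs] at h2
    rw [e1]
    rw [← e2] at h1
    have h3 := abs_sub_le ‖∑ q, Phi δ M q x • b q - ∑ q, Phi δ M q y • b q‖ ‖b qx - b qy‖ √(N x y)
    have h4 : 0 ≤ 2 * (250 * L) ^ 2 * A * δ := by positivity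
    nlinarith

end Vale.Agent.P071
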