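import Vale.Agent.P071.Calc

/-! Auxiliary facts for the smoothing step: Euclidean embedding of a conditionally negative
kernel, a one-dimensional partition of unity, and a radial projection. -/

open MeasureTheory Set Metric
open scoped ENNReal MatrixOrder

namespace Vale.Agent.P071.Smoothing

/-- Conditional negativity on a set. -/
def CND (N : ℂ → ℂ → ℝ) (S : Set ℂ) : Prop :=
  ∀ (n : ℕ) (x : Fin n → ℂ) (c : Fin n → ℝ), (∀ i, x i ∈ S) → ∑ i, c i = 0 →
    ∑ i, ∑ j, c i * c j * N (x i) (x j) ≤ 0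

lemma embed_fin {N : ℂ → ℂ → ℝ} {S : Set ℂ} (hs : ∀ x y, N x y = N y x) (hd : ∀ x, N x x = 0)
    (hC : CND N S) {n : ℕ} (x : Fin n → ℂ) (hx : ∀ i, x i ∈ S) (i0 : Fin n) :
    ∃ v : Fin n → EuclideanSpace ℝ (Fin n), ∀ i j, ‖v i - v j‖ = √(N (x i) (x j)) := by
  set G : Matrix (Fin n) (Fin n) ℝ :=
    Matrix.of fun i j => (N (x i) (x i0) + N (x j) (x i0) - N (x i) (x j)) / 2 with hG
  have hpsd : G.PosSemidef := by
    refine Matrix.PosSemidef.of_dotProduct_mulVec_nonneg ?_ fun c => ?_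
    · ext i j
      simp only [hG, Matrix.conjTranspose_apply, Matrix.of_apply, star_trivial]
      rw [hs (x j) (x i)]; ring
    · set s := ∑ i, c i with hsdef
      have h := hC n x (fun i => c i - if i = i0 then s else 0) hx (by
        rw [Finset.sum_sub_distrib]; simp [hsdef])
      have e1 : ∑ i, ∑ j, (c i - if i = i0 then s else 0) * (c j - if j = i0 then s else 0) *
          N (x i) (x j) = ∑ i, ∑ j, c i * c j * N (x i) (x j) -
            2 * s * ∑ i, c i * N (x i) (x i0) := by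
        have a1 : ∀ i, ∑ j, (c i - if i = i0 then s else 0) * (c j - if j = i0 then s else 0) *
            N (x i) (x j) = (c i - if i = i0 then s else 0) *
              (∑ j, c j * N (x i) (x j) - s * N (x i) (x i0)) := by
          intro i
          simp_rw [mul_assoc]
          rw [← Finset.mul_sum]
          congr 1
          simp_rw [sub_mul]
          rw [Finset.sum_sub_distrib]
          simp [ite_mul]
        simp_rw [a1, sub_mul]
        rw [Finset.sum_sub_distrib]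
        simp only [ite_mul, zero_mul, Finset.sum_ite_eq', Finset.mem_univ, if_true, hd, mul_zero,
          sub_zero]
        simp_rw [mul_sub]
        rw [Finset.sum_sub_distrib]
        have a2 : ∑ j, c j * N (x i0) (x j) = ∑ j, c j * N (x j) (x i0) :=
          Finset.sum_congr rfl fun j _ => by rw [hs]
        have a3 : ∑ i, c i * (s * N (x i) (x i0)) = s * ∑ i, c i * N (x i) (x i0) := by
          rw [Finset.mul_sum]; exact Finset.sum_congr rfl fun j _ => by ring
        have a4 : ∑ i, c i * ∑ j, c j * N (x i) (x j) = ∑ i, ∑ j, c i * c j * N (x i) (x j) := by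
          refine Finset.sum_congr rfl fun i _ => ?_
          rw [Finset.mul_sum]; exact Finset.sum_congr rfl fun j _ => by ring
        rw [a2, a3, a4]; ring
      have e2 : star c ⬝ᵥ G.mulVec c = s * ∑ i, c i * N (x i) (x i0) -
          (∑ i, ∑ j, c i * c j * N (x i) (x j)) / 2 := by
        simp only [dotProduct, Matrix.mulVec, hG, Matrix.of_apply, star_trivial]
        have a1 : ∀ i, c i * ∑ j, (N (x i) (x i0) + N (x j) (x i0) - N (x i) (x j)) / 2 * c j =
            s / 2 * (c i * N (x i) (x i0)) + c i * ((∑ j, c j * N (x j) (x i0)) / 2) -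
              (∑ j, c i * c j * N (x i) (x j)) / 2 := by
          intro i
          rw [hsdef, Finset.mul_sum, Finset.sum_div, Finset.sum_div, Finset.sum_div,
            Finset.sum_mul, Finset.mul_sum, ← Finset.sum_add_distrib, ← Finset.sum_sub_distrib]
          exact Finset.sum_congr rfl fun j _ => by ring
        simp_rw [a1]
        rw [Finset.sum_sub_distrib, Finset.sum_add_distrib, ← Finset.mul_sum, ← Finset.sum_mul,
          ← Finset.sum_div]
        ring
      rw [e2]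
      rw [e1] at h
      linarith
  obtain ⟨B, hB⟩ := CStarAlgebra.nonneg_iff_eq_star_mul_self.1 hpsd.nonneg
  have hin : ∀ i j, ∑ k, B k i * B k j = G i j := by
    intro i j
    rw [hB]
    simp [Matrix.mul_apply, Matrix.star_apply]
  refine ⟨fun i => WithLp.toLp 2 fun k => B k i, fun i j => ?_⟩
  rw [EuclideanSpace.norm_eq]
  congr 1
  have : ∑ k, (B k i - B k j) ^ 2 = G i i + G j j - 2 * G i j := by
    rw [← hin, ← hin, ← hin, Finset.mul_sum, ← Finset.sum_add_distrib, ← Finset.sum_sub_distrib]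
    exact Finset.sum_congr rfl fun k _ => by ring
  simp only [hG, Matrix.of_apply, hd] at this
  simp only [PiLp.sub_apply, Real.norm_eq_abs, sq_abs]
  rw [this]; ring

lemma embed {N : ℂ → ℂ → ℝ} {S : Set ℂ} (hs : ∀ x y, N x y = N y x) (hd : ∀ x, N x x = 0)
    (hC : CND N S) {ι : Type} [Fintype ι] (x : ι → ℂ) (hx : ∀ i, x i ∈ S) (i0 : ι) :
    ∃ (n : ℕ) (v : ι → EuclideanSpace ℝ (Fin n)), ∀ i j, ‖v i - v j‖ = √(N (x i) (x j)) := by
  set e := Fintype.equivFin ι
  obtain ⟨v, hv⟩ := embed_fin hs hd hC (fun k => x (e.symm k)) (fun k => hx _) (e i0)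
  exact ⟨_, fun i => v (e i), fun i j => by simpa using hv (e i) (e j)⟩

lemma four_point {N : ℂ → ℂ → ℝ} {S : Set ℂ} (hs : ∀ x y, N x y = N y x) (hd : ∀ x, N x x = 0)
    (hC : CND N S) {a b c d : ℂ} (ha : a ∈ S) (hb : b ∈ S) (hc : c ∈ S) (hd' : d ∈ S) :
    |√(N a b) - √(N c d)| ≤ √(N a c) + √(N b d) := by
  obtain ⟨v, hv⟩ := embed_fin hs hd hC ![a, b, c, d] (fun i => by
    fin_cases i <;> simpa) 0
  have h1 := hv 0 1
  have h2 := hv 2 3
  have h3 := hv 0 2
  have h4 := hv 1 3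
  simp only [Matrix.cons_val_zero, Matrix.cons_val_one, Matrix.cons_val] at h1 h2 h3 h4
  rw [← h1, ← h2, ← h3, ← h4, ← dist_eq_norm, ← dist_eq_norm, ← dist_eq_norm, ← dist_eq_norm,
    ← Real.dist_eq]
  exact dist_dist_dist_le _ _ _ _

/-- The one-dimensional bump. -/
noncomputable def ph (t : ℝ) : ℝ := Real.smoothTransition (t + 1) - Real.smoothTransition t

lemma ph_contDiff : ContDiff ℝ (⊤ : ℕ∞) ph :=
  (Real.smoothTransition.contDiff.comp (contDiff_id.add contDiff_const)).sub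
    Real.smoothTransition.contDiff

lemma ph_nonneg (t : ℝ) : 0 ≤ ph t :=
  sub_nonneg.2 (Real.smoothTransition.monotone (by linarith))

lemma ph_le_one (t : ℝ) : ph t ≤ 1 := by
  have := Real.smoothTransition.le_one (t + 1)
  have := Real.smoothTransition.nonneg t
  unfold ph; linarith

lemma ph_eq_zero {t : ℝ} (h : 1 ≤ |t|) : ph t = 0 := by
  unfold ph
  rcases le_abs.1 h with h | h
  · rw [Real.smoothTransition.one_of_one_le h,
      Real.smoothTransition.one_of_one_le (by linarith), sub_self]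
  · rw [Real.smoothTransition.zero_of_nonpos (by linarith),
      Real.smoothTransition.zero_of_nonpos (by linarith), sub_self]

lemma deriv_ph_eq_zero {t : ℝ} (h : 1 ≤ |t|) : deriv ph t = 0 := by
  refine IsLocalMin.deriv_eq_zero (Filter.Eventually.of_forall fun s => ?_)
  rw [ph_eq_zero h]; exact ph_nonneg s

lemma ph_hasDerivAt (t : ℝ) : HasDerivAt ph (deriv ph t) t :=
  (ph_contDiff.differentiable (by simp) t).hasDerivAt

lemma exists_deriv_bound : ∃ L : ℝ, 0 ≤ L ∧ ∀ t, |deriv ph t| ≤ L := by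
  have hc : HasCompactSupport (deriv ph) := by
    refine HasCompactSupport.intro (isCompact_Icc (a := -1) (b := 1)) fun t ht => ?_
    refine deriv_ph_eq_zero ?_
    by_contra h
    exact ht (abs_le.1 (not_le.1 h).le)
  obtain ⟨L, hL⟩ := (ph_contDiff.continuous_deriv (by simp)).bounded_above_of_compact_support hc
  exact ⟨L, (norm_nonneg _).trans (hL 0), fun t => hL t⟩

/-- Lattice coordinate. -/
def co (M : ℕ) (i : Fin (2 * M + 1)) : ℝ := (i : ℕ) - (M : ℝ)

lemma sum_ph (M : ℕ) (s : ℝ) : ∑ i : Fin (2 * M + 1), ph (s - co M i) =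
    Real.smoothTransition (s + M + 1) - Real.smoothTransition (s - M) := by
  have h := Finset.sum_range_sub' (fun i : ℕ => Real.smoothTransition (s + M + 1 - i)) (2 * M + 1)
  have e : ∑ i : Fin (2 * M + 1), ph (s - co M i) = ∑ i ∈ Finset.range (2 * M + 1),
      (Real.smoothTransition (s + M + 1 - (i : ℕ)) -
        Real.smoothTransition (s + M + 1 - ((i + 1 : ℕ) : ℝ))) := by
    rw [← Fin.sum_univ_eq_sum_range (fun i : ℕ => Real.smoothTransition (s + M + 1 - (i : ℕ)) -
        Real.smoothTransition (s + M + 1 - ((i + 1 : ℕ) : ℝ)))]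
    refine Finset.sum_congr rfl fun i _ => ?_
    unfold ph co
    have a1 : s - ((i : ℕ) - (M : ℝ)) + 1 = s + M + 1 - (i : ℕ) := by ring
    have a2 : s - ((i : ℕ) - (M : ℝ)) = s + M + 1 - (((i : ℕ) + 1 : ℕ) : ℝ) := by
      push_cast; ring
    rw [a1, ← a2]
  rw [e, h]
  have a1 : s + M + 1 - ((0 : ℕ) : ℝ) = s + M + 1 := by simp
  have a2 : s + M + 1 - ((2 * M + 1 : ℕ) : ℝ) = s - M := by push_cast; ring
  rw [a1, a2]

lemma sum_ph_eq_one {M : ℕ} {s : ℝ} (h : |s| ≤ M) : ∑ i : Fin (2 * M + 1), ph (s - co M i) = 1 := by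
  obtain ⟨h1, h2⟩ := abs_le.1 h
  rw [sum_ph, Real.smoothTransition.one_of_one_le (by linarith),
    Real.smoothTransition.zero_of_nonpos (by linarith), sub_zero]

lemma sum_deriv_ph {M : ℕ} {s : ℝ} (h : |s| ≤ M) :
    ∑ i : Fin (2 * M + 1), deriv ph (s - co M i) = 0 := by
  have hd : HasDerivAt (fun s => ∑ i : Fin (2 * M + 1), ph (s - co M i))
      (∑ i : Fin (2 * M + 1), deriv ph (s - co M i)) s := by
    refine HasDerivAt.fun_sum fun i _ => ?_
    exact (ph_hasDerivAt (s - co M i)).comp_sub_const s (co M i)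
  refine IsLocalMax.hasDerivAt_eq_zero (Filter.Eventually.of_forall fun t => ?_) hd
  rw [sum_ph_eq_one h, sum_ph]
  have := Real.smoothTransition.le_one (t + M + 1)
  have := Real.smoothTransition.nonneg (t - M)
  linarith

lemma sum_abs_deriv_ph {L : ℝ} (hL : ∀ t, |deriv ph t| ≤ L) (M : ℕ) (s : ℝ) :
    ∑ i : Fin (2 * M + 1), |deriv ph (s - co M i)| ≤ 2 * L := by
  classical
  have hL0 : 0 ≤ L := (abs_nonneg _).trans (hL 0)
  set T : Finset (Fin (2 * M + 1)) := Finset.univ.filter fun i => |s - co M i| < 1 with hT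
  have h1 : ∑ i : Fin (2 * M + 1), |deriv ph (s - co M i)| = ∑ i ∈ T, |deriv ph (s - co M i)| := by
    refine (Finset.sum_subset (Finset.subset_univ _) fun i _ hi => ?_).symm
    rw [deriv_ph_eq_zero, abs_zero]
    simpa [hT] using hi
  have h2 : T.card ≤ 2 := by
    have : T.card ≤ ({⌊s + M⌋, ⌊s + M⌋ + 1} : Finset ℤ).card := by
      refine Finset.card_le_card_of_injOn (fun i => ((i : ℕ) : ℤ)) (fun i hi => ?_) ?_
      · have hi' : |s - co M i| < 1 := by simpa [hT] using hi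
        obtain ⟨a1, a2⟩ := abs_lt.1 hi'
        unfold co at a1 a2
        have b1 := Int.floor_le (s + M)
        have b2 := Int.lt_floor_add_one (s + M)
        have c1 : ((⌊s + M⌋ - 1 : ℤ) : ℝ) < (((i : ℕ) : ℤ) : ℝ) := by push_cast; linarith
        have c2 : (((i : ℕ) : ℤ) : ℝ) < ((⌊s + M⌋ + 2 : ℤ) : ℝ) := by push_cast; linarith
        have c1' := Int.cast_lt.1 c1
        have c2' := Int.cast_lt.1 c2
        simp only [Finset.coe_insert, Finset.coe_singleton, mem_insert_iff, mem_singleton_iff]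
        omega
      · intro i _ j _ hij
        have hij' : ((i : ℕ) : ℤ) = ((j : ℕ) : ℤ) := hij
        exact Fin.ext (by exact_mod_cast hij')
    exact this.trans Finset.card_le_two
  rw [h1]
  calc ∑ i ∈ T, |deriv ph (s - co M i)| ≤ T.card • L := Finset.sum_le_card_nsmul _ _ _ fun i _ => hL _
    _ ≤ 2 * L := by
      rw [nsmul_eq_mul]
      exact mul_le_mul_of_nonneg_right (by exact_mod_cast h2) hL0

/-- Direction of a complex number. -/
noncomputable def dir (q : ℂ) : ℂ := if q = 0 then 1 else q / (‖q‖ : ℂ)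

lemma norm_dir (q : ℂ) : ‖dir q‖ = 1 := by
  unfold dir
  split_ifs with h
  · simp
  · rw [norm_div, Complex.norm_real, norm_norm, div_self (norm_ne_zero_iff.2 h)]

lemma norm_mul_dir (q : ℂ) : (‖q‖ : ℂ) * dir q = q := by
  unfold dir
  split_ifs with h
  · simp [h]
  · have : (‖q‖ : ℂ) ≠ 0 := by exact_mod_cast norm_ne_zero_iff.2 h
    field_simp

lemma dir_lip (q q' : ℂ) : ‖q‖ * ‖dir q - dir q'‖ ≤ 2 * ‖q - q'‖ := by
  have h1 : ‖q‖ * ‖dir q - dir q'‖ = ‖(q - q') + ((‖q'‖ : ℂ) - (‖q‖ : ℂ)) * dir q'‖ := by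
    have : (q - q') + ((‖q'‖ : ℂ) - (‖q‖ : ℂ)) * dir q' = (‖q‖ : ℂ) * (dir q - dir q') := by
      rw [sub_mul, norm_mul_dir, mul_sub, norm_mul_dir]; ring
    rw [this, norm_mul, Complex.norm_real, norm_norm]
  rw [h1]
  refine (norm_add_le _ _).trans ?_
  rw [norm_mul, norm_dir, mul_one, ← Complex.ofReal_sub, Complex.norm_real, Real.norm_eq_abs]
  have := abs_norm_sub_norm_le q' q
  rw [norm_sub_rev q' q] at this
  linarith

/-- Radial projection onto the outer circle of the shell. -/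
noncomputable def pr (δ : ℝ) (q : ℂ) : ℂ := (√(1 - δ) : ℝ) * dir q

lemma norm_pr (δ : ℝ) (q : ℂ) : ‖pr δ q‖ = √(1 - δ) := by
  rw [pr, norm_mul, norm_dir, mul_one, Complex.norm_real, Real.norm_of_nonneg (Real.sqrt_nonneg _)]

lemma sqrt_le_one' {δ : ℝ} (h : 0 < δ) : √(1 - δ) ≤ 1 := Real.sqrt_le_one.2 (by linarith)

lemma pr_mem {δ : ℝ} (h : 0 < δ) (h' : δ ≤ 1 / 4) (q : ℂ) : pr δ q ∈ shell δ := by
  have : hh (pr δ q) = δ := by
    rw [hh, norm_pr, Real.sq_sqrt (by linarith)]; ring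
  exact ⟨this.ge, by rw [this]; linarith⟩

lemma pr_lip {δ : ℝ} (h : 0 < δ) (q q' : ℂ) : ‖q‖ * ‖pr δ q - pr δ q'‖ ≤ 2 * ‖q - q'‖ := by
  rw [pr, pr, ← mul_sub, norm_mul, Complex.norm_real, Real.norm_of_nonneg (Real.sqrt_nonneg _)]
  have h1 := dir_lip q q'
  have h2 := sqrt_le_one' h
  have h3 : 0 ≤ ‖q‖ * ‖dir q - dir q'‖ := by positivity
  nlinarith

lemma norm_of_shell {δ : ℝ} (h' : δ ≤ 1 / 4) {x : ℂ} (hx : x ∈ shell δ) : 7 / 10 ≤ ‖x‖ := by
  have h2 : 1 - ‖x‖ ^ 2 ≤ 2 * δ := hx.2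
  by_contra hc
  have := norm_nonneg x
  nlinarith

lemma mem_DD_of_shell {δ : ℝ} (h : 0 < δ) {x : ℂ} (hx : x ∈ shell δ) : x ∈ DD := by
  have h1 : δ ≤ 1 - ‖x‖ ^ 2 := hx.1
  rw [mem_ball_zero_iff]
  by_contra hc
  nlinarith

lemma pr_sub_self {δ : ℝ} (h' : δ ≤ 1 / 4) {x : ℂ} (hx : x ∈ shell δ) : ‖pr δ x - x‖ ≤ δ := by
  have h1 : δ ≤ 1 - ‖x‖ ^ 2 := hx.1
  have h2 : 1 - ‖x‖ ^ 2 ≤ 2 * δ := hx.2
  have h3 := norm_of_shell h' hx
  have e : pr δ x - x = ((√(1 - δ) - ‖x‖ : ℝ) : ℂ) * dir x := by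
    rw [pr, Complex.ofReal_sub, sub_mul, norm_mul_dir]
  rw [e, norm_mul, norm_dir, mul_one, Complex.norm_real, Real.norm_eq_abs]
  have h4 : ‖x‖ ≤ √(1 - δ) := Real.le_sqrt_of_sq_le (by linarith)
  have h5 : √(1 - δ) ≤ ‖x‖ + δ := by
    rw [Real.sqrt_le_left (by nlinarith)]
    nlinarith
  rw [abs_of_nonneg (by linarith)]
  linarith

/-- Radial damping factor. -/
noncomputable def lam (q : ℂ) : ℝ := min 1 (5 * ‖q‖)

lemma lam_nonneg (q : ℂ) : 0 ≤ lam q := le_min zero_le_one (by positivity)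

lemma lam_lip (q q' : ℂ) : |lam q - lam q'| ≤ 5 * ‖q - q'‖ := by
  have h := abs_min_sub_min_le_max (1 : ℝ) (5 * ‖q‖) 1 (5 * ‖q'‖)
  have h2 := abs_norm_sub_norm_le q q'
  unfold lam
  refine h.trans (max_le (by simp) ?_)
  rw [← mul_sub, abs_mul]
  norm_num
  exact h2

end Vale.Agent.P071.Smoothing
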