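import Vale.Agent.P071.Repr

/-! From the Hodge inequality to a lower bound for a boundary quadratic form. -/

open MeasureTheory Set Metric Filter Topology
open scoped ENNReal

namespace Vale.Agent.P071

variable {ρ : ℂ → ℝ} {μ C : ℝ}

lemma Wt.EE_eq_LL (hρ : Wt ρ) (μ : ℝ) {a R : ℂ → ℝ} (ha : ContDiffOn ℝ oo a DD) (hR : Test DD R) :
    EE ρ μ a R = ∫ z in DD, LL ρ μ a z * R z := by
  have i1 : IntegrableOn (fun z => μ * ρ z * a z * R z) DD := hR.integrableOn_mul isOpen_DD
    ((continuousOn_const.mul hρ.smooth.continuousOn).mul ha.continuousOn)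
  rw [EE, integral_sub (hR.gdot_right isOpen_DD ha).integrableOn i1,
    green1 isOpen_DD (ha.of_le two_le_oo) hR, ← integral_neg, ← integral_sub
      (by exact (hR.integrableOn_mul isOpen_DD (contDiffOn_lap isOpen_DD ha).continuousOn).neg) i1]
  congr 1; funext z; simp only [LL]; ring

lemma GreenAn.integrable_prod {m : Measure ℂ} (hG : GreenAn m μ C) {s : ℝ} (hs : s ∈ Icc 0 μ)
    {a b : ℂ → ℝ} (ha : Test DD a) (hb : Test DD b) :
    Integrable (fun p : ℂ × ℂ => a p.1 * (GG m s p.1 p.2 * b p.2))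
      ((volume.restrict DD).prod (volume.restrict DD)) :=
  let ⟨_, hB⟩ := hb.bdd
  integrable_ker (ae_restrict_mem measurableSet_DD) (hG.meas s) (hG.abs_le hs) ha.integrableOn
    hb.continuous.aestronglyMeasurable fun y _ => hB y

lemma GreenAn.GI_symm {m : Measure ℂ} (hG : GreenAn m μ C) {s : ℝ} (hs : s ∈ Icc 0 μ)
    {a b : ℂ → ℝ} (ha : Test DD a) (hb : Test DD b) :
    ∫ x in DD, a x * GI m s b x = ∫ x in DD, b x * GI m s a x := by
  have := integral_integral_swap (f := fun x y => a x * (GG m s x y * b y))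
    (hG.integrable_prod hs ha hb)
  simp only [GI, ← integral_const_mul]
  rw [this]
  congr 1; funext x; congr 1; funext y
  rw [hG.symm s y x]; ring

lemma GreenAn.integrableOn_GI {m : Measure ℂ} (hG : GreenAn m μ C) {s : ℝ} (hs : s ∈ Icc 0 μ)
    {a b : ℂ → ℝ} (ha : Test DD a) (hb : Test DD b) :
    IntegrableOn (fun x => a x * GI m s b x) DD := by
  have := (hG.integrable_prod hs ha hb).integral_prod_left
  simpa only [GI, integral_const_mul, IntegrableOn] using this

lemma Wt.green_form (hρ : Wt ρ) (h : Pot (mm ρ) μ) (hG : GreenAn (mm ρ) μ C) {v β : ℂ → ℝ}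
    (hv : Test DD v) (hβ : ContDiff ℝ oo β) :
    ∫ x in DD, (LL ρ μ (fun z => β z * v z) x - β x * LL ρ μ v x) *
      GI (mm ρ) μ (fun x => LL ρ μ (fun z => β z * v z) x - β x * LL ρ μ v x) x =
      (∫ x in DD, gdot β β x * v x ^ 2) - 2⁻¹ * ∫ x in DD, ∫ y in DD,
        GG (mm ρ) μ x y * (β x - β y) ^ 2 * (LL ρ μ v x * LL ρ μ v y) := by
  have hβv := hv.mul_left isOpen_DD hβ.contDiffOn
  have hk := hρ.LL_test μ hv
  have hL := hρ.LL_test μ hβv
  have hβk := hk.mul_left isOpen_DD hβ.contDiffOn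
  have hββk := hβk.mul_left isOpen_DD hβ.contDiffOn
  set k := LL ρ μ v with hkd
  set L := LL ρ μ fun z => β z * v z with hLd
  have e1 : ∀ x ∈ DD, GI (mm ρ) μ (fun x => L x - β x * k x) x =
      β x * v x - GI (mm ρ) μ (fun x => β x * k x) x := fun x hx => by
    rw [← hρ.repr h hG hβv hx]
    simp only [GI, mul_sub]
    exact integral_sub (hL.mul_integrableOn (hG.integrableOn h.mem hx))
      (hβk.mul_integrableOn (hG.integrableOn h.mem hx))
  have e2 : ∫ x in DD, L x * GI (mm ρ) μ (fun x => β x * k x) x =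
      ∫ x in DD, β x * k x * (β x * v x) := by
    rw [hG.GI_symm h.mem hL hβk]
    exact setIntegral_congr_fun measurableSet_DD fun x hx => by simp only [hLd, hρ.repr h hG hβv hx]
  have e3 : ∫ x in DD, L x * (β x * v x) =
      (∫ x in DD, gdot β β x * v x ^ 2) + ∫ x in DD, β x * k x * (β x * v x) := by
    have a1 := hρ.EE_eq_LL μ hβv.contDiffOn hβv
    have a2 := hρ.EE_test μ hβv
    have a3 := energy_mul isOpen_DD hv.contDiffOn hβ.contDiffOn hβv
    have a4 : ∫ x in DD, β x * k x * (β x * v x) = -(∫ z in DD, lap v z * (β z * (β z * v z))) -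
        μ * ∫ z in DD, ρ z * (β z * v z) ^ 2 := by
      rw [← integral_neg, ← integral_const_mul, ← integral_sub]
      · congr 1; funext z; simp only [hkd, LL]; ring
      · exact ((hβv.mul_left isOpen_DD hβ.contDiffOn).mul_left isOpen_DD
          hv.lap.contDiffOn).neg.integrableOn
      · simp only [sq]
        exact (((hβv.mul_left isOpen_DD hβv.contDiffOn).mul_left isOpen_DD
          hρ.smooth).const_mul μ).integrableOn
    linarith
  have e4 : ∫ x in DD, ∫ y in DD, GG (mm ρ) μ x y * (β x - β y) ^ 2 * (k x * k y) =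
      2 * (∫ x in DD, β x * k x * (β x * v x)) -
        2 * ∫ x in DD, β x * k x * GI (mm ρ) μ (fun x => β x * k x) x := by
    have a1 : ∫ x in DD, k x * GI (mm ρ) μ (fun x => β x * (β x * k x)) x =
        ∫ x in DD, β x * k x * (β x * v x) := by
      rw [hG.GI_symm h.mem hk hββk]
      refine setIntegral_congr_fun measurableSet_DD fun x hx => ?_
      simp only [hkd, hρ.repr h hG hv hx]; ring
    have i1 := hG.integrableOn_GI h.mem hk hββk
    have i2 := hG.integrableOn_GI h.mem hβk hβk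
    have i3 := (hβv.mul_left isOpen_DD hβk.contDiffOn).integrableOn (V := DD)
    rw [two_mul (∫ x in DD, β x * k x * (β x * v x))]
    nth_rewrite 1 [← a1]
    rw [← integral_const_mul, ← integral_add i1 i3, ← integral_sub (by exact i1.add i3)
      (i2.const_mul 2)]
    refine setIntegral_congr_fun measurableSet_DD fun x hx => ?_
    have j := hG.integrableOn h.mem hx
    have j1 := (hββk.mul_integrableOn j).const_mul (k x)
    have j2 := (hk.mul_integrableOn j).const_mul (β x * k x * β x)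
    have j3 := (hβk.mul_integrableOn j).const_mul (2 * (β x * k x))
    rw [← hρ.repr h hG hv hx, ← hkd, ← mul_assoc (β x * k x), ← mul_assoc 2]
    simp only [GI, ← integral_const_mul]
    rw [← integral_add j1 j2, ← integral_sub (by exact j1.add j2) j3]
    congr 1; funext y; ring
  rw [e4, setIntegral_congr_fun measurableSet_DD (g := fun x => L x * (β x * v x) -
    β x * k x * (β x * v x) - L x * GI (mm ρ) μ (fun x => β x * k x) x +
      β x * k x * GI (mm ρ) μ (fun x => β x * k x) x) fun x hx => by simp only [e1 x hx]; ring]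
  have i1 := (hβv.mul_left isOpen_DD hL.contDiffOn).integrableOn (V := DD)
  have i2 := (hβv.mul_left isOpen_DD hβk.contDiffOn).integrableOn (V := DD)
  have i3 := hG.integrableOn_GI h.mem hL hβk
  rw [integral_add (by exact (i1.sub i2).sub i3) (hG.integrableOn_GI h.mem hβk hβk),
    integral_sub (by exact i1.sub i2) i3, integral_sub i1 i2, e2, e3]
  ring

/-- The boundary remainder. -/
noncomputable def rem (w : ℂ → ℝ) (δ : ℝ) (z : ℂ) : ℝ :=
  2 * ((1 - chi δ z) ^ 2 * (w z ^ 2 + hh z ^ 2 * gdot w w z)) +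
    2 * (gdot (chi δ) (chi δ) z * (hh z * w z) ^ 2)

lemma rem_nonneg (w : ℂ → ℝ) (δ : ℝ) (z : ℂ) : 0 ≤ rem w δ z := by
  have h1 : 0 ≤ gdot w w z := gdot_self_nonneg
  have h2 : 0 ≤ gdot (chi δ) (chi δ) z := gdot_self_nonneg
  unfold rem; positivity

lemma integrableOn_sq {w : ℂ → ℝ} (hw : ContDiffOn ℝ oo w DD)
    (h2 : IntegrableOn (fun z => w z ^ 2 + hh z ^ 2 * gdot w w z) DD) :
    IntegrableOn (fun z => w z ^ 2) DD := by
  refine h2.mono' ((hw.continuousOn.pow 2).aestronglyMeasurable measurableSet_DD)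
    (Eventually.of_forall fun z => ?_)
  rw [Real.norm_eq_abs, abs_of_nonneg (sq_nonneg _)]
  exact le_add_of_nonneg_right (mul_nonneg (sq_nonneg _) gdot_self_nonneg)

lemma integrableOn_chi_pow {F : ℂ → ℝ} (hF : IntegrableOn F DD) (δ : ℝ) (n : ℕ) :
    IntegrableOn (fun z => chi δ z ^ n * F z) DD :=
  hF.bdd_mul (c := 1) ((contDiff_chi δ).continuous.pow n).aestronglyMeasurable
    (Eventually.of_forall fun z => by
      rw [norm_pow, Real.norm_eq_abs]; exact pow_le_one₀ (abs_nonneg _) (abs_chi_le δ z))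

lemma one_sub_chi {F : ℂ → ℝ} (hF : IntegrableOn F DD) :
    (∀ δ, IntegrableOn (fun z => (1 - chi δ z) ^ 2 * F z) DD) ∧
      Tendsto (fun δ => ∫ z in DD, (1 - chi δ z) ^ 2 * F z) (𝓝[>] 0) (𝓝 0) := by
  have e : ∀ δ, (fun z => (1 - chi δ z) ^ 2 * F z) =
      fun z => chi δ z ^ 2 * F z - 2 * (chi δ z ^ 1 * F z) + F z := fun δ => by funext z; ring
  have i := fun δ => (integrableOn_chi_pow hF δ 2).sub ((integrableOn_chi_pow hF δ 1).const_mul 2)
  refine ⟨fun δ => e δ ▸ (i δ).add hF, ?_⟩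
  have t := ((tendsto_chi_mul hF 2).sub ((tendsto_chi_mul hF 1).const_mul 2)).add_const
    (∫ z in DD, F z)
  rw [show (∫ z in DD, F z) - 2 * (∫ z in DD, F z) + ∫ z in DD, F z = 0 by ring] at t
  refine t.congr fun δ => ?_
  rw [e, integral_add (by exact i δ) hF, integral_sub (integrableOn_chi_pow hF δ 2)
    ((integrableOn_chi_pow hF δ 1).const_mul 2), integral_const_mul]

lemma rem_facts {w : ℂ → ℝ} (hw : ContDiffOn ℝ oo w DD)
    (h2 : IntegrableOn (fun z => w z ^ 2 + hh z ^ 2 * gdot w w z) DD) :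
    (∀ δ > 0, IntegrableOn (rem w δ) DD) ∧
      Tendsto (fun δ => ∫ z in DD, rem w δ z) (𝓝[>] 0) (𝓝 0) := by
  obtain ⟨a1, a2⟩ := one_sub_chi h2
  have i : ∀ δ > 0, IntegrableOn (fun z => gdot (chi δ) (chi δ) z * (hh z * w z) ^ 2) DD :=
    fun δ hδ => (((chi_test hδ).gdot_right isOpen_DD (contDiff_chi δ).contDiffOn).mul_right
      isOpen_DD ((contDiff_hh.contDiffOn.mul hw).pow 2)).integrableOn
  refine ⟨fun δ hδ => ((a1 δ).const_mul 2).add ((i δ hδ).const_mul 2), ?_⟩
  have t := (a2.const_mul 2).add ((tendsto_gdot_chi (integrableOn_sq hw h2)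
    (a := fun z => hh z * w z) fun z _ => (mul_pow _ _ _).le).const_mul 2)
  simp only [mul_zero, add_zero] at t
  refine t.congr' ?_
  filter_upwards [self_mem_nhdsWithin] with δ hδ
  simp only [rem]
  rw [integral_add ((a1 δ).const_mul 2) ((i δ hδ).const_mul 2), integral_const_mul,
    integral_const_mul]

lemma gdot_bdd {β : ℂ → ℝ} (hβ : ContDiff ℝ oo β) {F : ℂ → ℝ} (hF : IntegrableOn F DD) :
    IntegrableOn (fun z => gdot β β z * F z) DD := by
  obtain ⟨B, hB⟩ := (isCompact_closedBall (0 : ℂ) 1).exists_bound_of_continuousOn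
    ((continuousOn_gdot isOpen_univ (hβ.of_le one_le_oo).contDiffOn
      (hβ.of_le one_le_oo).contDiffOn).mono (subset_univ _))
  exact hF.bdd_mul measurable_gdot.aestronglyMeasurable
    ((ae_restrict_mem measurableSet_DD).mono fun z hz => hB z (ball_subset_closedBall hz))

lemma Wt.cross_le (hρ : Wt ρ) {w β R : ℂ → ℝ} (hw : ContDiffOn ℝ oo w DD)
    (heq : ∀ z ∈ DD, lap w z = -μ * ρ z * w z)
    (h2 : IntegrableOn (fun z => w z ^ 2 + hh z ^ 2 * gdot w w z) DD) (hβ : ContDiff ℝ oo β)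
    (hR : Test DD R) {δ τ : ℝ} (hδ : 0 < δ) (hτ : 0 < τ) :
    2 * EE ρ μ (fun z => β z * w z) R ≤
      2 * (∫ x in DD, (LL ρ μ (fun z => β z * (chi δ z * w z)) x -
        β x * LL ρ μ (fun z => chi δ z * w z) x) * R x) + 2 * τ * (∫ z in DD, gdot R R z) +
          τ⁻¹ * ∫ z in DD, gdot β β z * rem w δ z := by
  have hv := (chi_test hδ).mul_right isOpen_DD hw
  have hβR := hR.mul_left isOpen_DD hβ.contDiffOn
  set v : ℂ → ℝ := fun z => chi δ z * w z with hvd
  have hβv : Test DD fun z => β z * v z := hv.mul_left isOpen_DD hβ.contDiffOn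
  set u : ℂ → ℝ := fun z => w z - v z with hud
  have hu : ContDiffOn ℝ oo u DD := hw.sub hv.contDiffOn
  have hβd : ∀ z, DifferentiableAt ℝ β z := hβ.differentiable oo_ne_zero
  have iE : ∀ {a S : ℂ → ℝ}, ContDiffOn ℝ oo a DD → Test DD S →
      IntegrableOn (fun z => gdot a S z - μ * ρ z * a z * S z) DD := fun ha hS =>
    ((hS.gdot_right isOpen_DD ha).sub (hS.mul_left isOpen_DD
      ((contDiffOn_const.mul hρ.smooth).mul ha))).integrableOn
  have hX : Test DD fun z => u z * gdot β R z - gdot β u z * R z :=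
    ((hR.gdot_right isOpen_DD hβ.contDiffOn).mul_left isOpen_DD hu).sub
      (hR.mul_left isOpen_DD (contDiffOn_gdot isOpen_DD hβ.contDiffOn hu oo_add_one))
  have e0 : EE ρ μ w (fun z => β z * R z) = 0 := by
    rw [hρ.EE_eq_LL μ hw hβR, setIntegral_congr_fun measurableSet_DD (g := fun _ => 0)
      fun z hz => by simp only [LL, heq z hz]; ring, integral_zero]
  have e1 : EE ρ μ (fun z => β z * w z) R + EE ρ μ v (fun z => β z * R z) =
      EE ρ μ (fun z => β z * v z) R + EE ρ μ w (fun z => β z * R z) +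
        ∫ z in DD, (u z * gdot β R z - gdot β u z * R z) := by
    simp only [EE]
    rw [← integral_add (iE (hβ.contDiffOn.mul hw) hR) (iE hv.contDiffOn hβR),
      ← integral_add (iE hβv.contDiffOn hR) (iE hw hβR),
      ← integral_add (by exact (iE hβv.contDiffOn hR).add (iE hw hβR)) hX.integrableOn]
    refine setIntegral_congr_fun measurableSet_DD fun z hz => ?_
    have dw := diffAt_of isOpen_DD hw hz
    simp only [gdot, d1_eq, d2_eq, hud, dd_mul (hβd z) dw, dd_mul (hβd z) (hR.diffAt z),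
      dd_mul (hβd z) (hv.diffAt z), dd_sub dw (hv.diffAt z)]
    ring
  have e2 : ∫ x in DD, (LL ρ μ (fun z => β z * v z) x - β x * LL ρ μ v x) * R x =
      EE ρ μ (fun z => β z * v z) R - EE ρ μ v (fun z => β z * R z) := by
    rw [hρ.EE_eq_LL μ hβv.contDiffOn hR, hρ.EE_eq_LL μ hv.contDiffOn hβR, ← integral_sub
      (hR.mul_left isOpen_DD (hρ.LL_test μ hβv).contDiffOn).integrableOn
      (hβR.mul_left isOpen_DD (hρ.LL_test μ hv).contDiffOn).integrableOn]
    congr 1; funext z; ring
  have i1 := (hR.gdot_right isOpen_DD hR.contDiffOn).integrableOn (V := DD)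
  have i2 : IntegrableOn (fun z => (hh z ^ 2)⁻¹ * (R z * R z)) DD :=
    (hR.mul_left isOpen_DD hR.contDiffOn).integrableOn_mul isOpen_DD
      ((continuous_hh.pow 2).continuousOn.inv₀ fun z hz => (pow_pos (hh_pos hz) 2).ne')
  have i3 := gdot_bdd hβ ((rem_facts hw h2).1 δ hδ)
  have e3 := setIntegral_mono_on (hX.integrableOn.const_mul 2)
    (((i1.const_mul τ).add (i2.const_mul τ)).add (i3.const_mul τ⁻¹)) measurableSet_DD
    fun z hz => by
      have h0 := hh_pos hz
      have dw := diffAt_of isOpen_DD hw hz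
      have dχ := (chi_test hδ).diffAt z
      have b0 : 0 ≤ gdot β β z := gdot_self_nonneg
      have b1 : u z ^ 2 + hh z ^ 2 * gdot u u z ≤ rem w δ z := by
        simp only [rem, gdot, d1_eq, d2_eq, hud, hvd, dd_sub dw (dχ.fun_mul dw), dd_mul dχ dw]
        nlinarith [sq_nonneg (hh z * ((1 - chi δ z) * dd 1 w z + dd 1 (chi δ) z * w z)),
          sq_nonneg (hh z * ((1 - chi δ z) * dd Complex.I w z + dd Complex.I (chi δ) z * w z)),
          sq_nonneg ((1 - chi δ z) * w z)]
      have b2 : 2 * (u z * gdot β R z) ≤ τ * gdot R R z + τ⁻¹ * (gdot β β z * u z ^ 2) := by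
        have : τ * gdot R R z + τ⁻¹ * (gdot β β z * u z ^ 2) - 2 * (u z * gdot β R z) =
            τ⁻¹ * ((τ * d1 R z - u z * d1 β z) ^ 2 + (τ * d2 R z - u z * d2 β z) ^ 2) := by
          simp only [gdot]; field_simp; ring
        have h : 0 ≤ τ⁻¹ * ((τ * d1 R z - u z * d1 β z) ^ 2 + (τ * d2 R z - u z * d2 β z) ^ 2) := by
          positivity
        linarith
      have b3 : -2 * (gdot β u z * R z) ≤ τ * ((hh z ^ 2)⁻¹ * (R z * R z)) +
          τ⁻¹ * (gdot β β z * (hh z ^ 2 * gdot u u z)) := by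
        have : τ * ((hh z ^ 2)⁻¹ * (R z * R z)) + τ⁻¹ * (gdot β β z * (hh z ^ 2 * gdot u u z)) +
            2 * (gdot β u z * R z) = τ⁻¹ * ((τ * R z / hh z + hh z * gdot β u z) ^ 2 +
              (hh z * (d1 β z * d2 u z - d2 β z * d1 u z)) ^ 2) := by
          simp only [gdot]; field_simp; ring
        have h : 0 ≤ τ⁻¹ * ((τ * R z / hh z + hh z * gdot β u z) ^ 2 +
              (hh z * (d1 β z * d2 u z - d2 β z * d1 u z)) ^ 2) := by positivity
        linarith
      have b4 := mul_le_mul_of_nonneg_left (mul_le_mul_of_nonneg_left b1 b0) (inv_pos.2 hτ).le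
      simp only [Pi.add_apply]
      linarith
  simp only [Pi.add_apply] at e3
  rw [integral_add (by exact (i1.const_mul τ).add (i2.const_mul τ)) (i3.const_mul τ⁻¹),
    integral_add (i1.const_mul τ) (i2.const_mul τ), integral_const_mul, integral_const_mul,
    integral_const_mul, integral_const_mul] at e3
  have e4 := mul_le_mul_of_nonneg_left (hardy hR) hτ.le
  rw [e2]
  linarith

end Vale.Agent.P071
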