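import Vale.Agent.P071.Step1
import Vale.Agent.P071.Smoothing
import Vale.Agent.P071.GreenPt

/-! Lower bound for the boundary form with the conditionally negative kernel. -/

open MeasureTheory Set Metric Filter Topology
open scoped ENNReal

namespace Vale.Agent.P071

variable {ρ : ℂ → ℝ} {μ C : ℝ}

/-- Product measure on the bidisc. -/
noncomputable abbrev V2 : Measure (ℂ × ℂ) := (volume.restrict DD).prod (volume.restrict DD)

/-- The boundary layer of `w` at scale `δ`. -/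
noncomputable def ks (ρ : ℂ → ℝ) (μ : ℝ) (w : ℂ → ℝ) (δ : ℝ) : ℂ → ℝ :=
  LL ρ μ fun z => chi δ z * w z

lemma Wt.ks_test (hρ : Wt ρ) (μ : ℝ) {w : ℂ → ℝ} (hw : ContDiffOn ℝ oo w DD) {δ : ℝ} (hδ : 0 < δ) :
    Test DD (ks ρ μ w δ) := hρ.LL_test μ ((chi_test hδ).mul_right isOpen_DD hw)

lemma ks_eq {w : ℂ → ℝ} (hw : ContDiffOn ℝ oo w DD) (heq : ∀ z ∈ DD, lap w z = -μ * ρ z * w z)
    (δ : ℝ) {z : ℂ} (hz : z ∈ DD) :
    ks ρ μ w δ z = -(lap (chi δ) z * w z + 2 * gdot (chi δ) w z) := by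
  rw [ks, LL, lap_mul ((contDiff_chi δ).of_le two_le_oo).contDiffAt
    ((hw.of_le two_le_oo).contDiffAt (isOpen_DD.mem_nhds hz)), heq z hz]
  ring

lemma Wt.ks_eq_zero (hρ : Wt ρ) {w : ℂ → ℝ} (hw : ContDiffOn ℝ oo w DD)
    (heq : ∀ z ∈ DD, lap w z = -μ * ρ z * w z) {δ : ℝ} (hδ : 0 < δ) (z : ℂ) (hz : z ∉ shell δ) :
    ks ρ μ w δ z = 0 := by
  by_cases h : z ∈ DD
  · rw [ks_eq hw heq δ h, lap_chi_eq_zero hδ hz]
    simp only [gdot, d1_eq, d2_eq, dd_chi_eq_zero hδ hz]; ring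
  · exact (hρ.ks_test μ hw hδ).eq_zero h

lemma GreenAn.integrable_H {m : Measure ℂ} (hG : GreenAn m μ C) {s : ℝ} (hs : s ∈ Icc 0 μ)
    {k : ℂ → ℝ} (hk : Test DD k) {S : Set ℂ} (hS : ∀ z ∉ S, k z = 0) {H : ℂ × ℂ → ℝ}
    (hH : Measurable H) {M : ℝ} (hM : ∀ x ∈ S, ∀ y ∈ S, |H (x, y)| ≤ M) :
    Integrable (fun p : ℂ × ℂ => GG m s p.1 p.2 * H p * (k p.1 * k p.2)) V2 := by
  have hkm := hk.continuous.measurable
  refine ((hG.integrable_prod hs hk hk).norm.const_mul M).mono' (((hG.meas s).mul hH).mul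
    ((hkm.comp measurable_fst).mul (hkm.comp measurable_snd))).aestronglyMeasurable
    (Eventually.of_forall fun p => ?_)
  by_cases h1 : p.1 ∈ S
  swap; · simp [hS _ h1]
  by_cases h2 : p.2 ∈ S
  swap; · simp [hS _ h2]
  calc _ = |H p| * ‖k p.1 * (GG m s p.1 p.2 * k p.2)‖ := by simp only [norm_mul, Real.norm_eq_abs]; ring
    _ ≤ _ := mul_le_mul_of_nonneg_right (hM _ h1 _ h2) (norm_nonneg _)

lemma GreenAn.integrable_β {m : Measure ℂ} (hG : GreenAn m μ C) {s : ℝ} (hs : s ∈ Icc 0 μ)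
    {k : ℂ → ℝ} (hk : Test DD k) {β : ℂ → ℝ} (hβ : Continuous β) :
    Integrable (fun p : ℂ × ℂ => GG m s p.1 p.2 * (β p.1 - β p.2) ^ 2 * (k p.1 * k p.2)) V2 := by
  obtain ⟨B, hB⟩ := (isCompact_closedBall (0 : ℂ) 1).exists_bound_of_continuousOn hβ.continuousOn
  refine hG.integrable_H hs hk (fun z hz => hk.eq_zero hz)
    (H := fun p => (β p.1 - β p.2) ^ 2) (by fun_prop) (M := (B + B) ^ 2) fun x hx y hy => ?_
  rw [abs_pow]
  exact pow_le_pow_left₀ (abs_nonneg _) ((abs_sub _ _).trans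
    (add_le_add (hB x (ball_subset_closedBall hx)) (hB y (ball_subset_closedBall hy)))) 2

lemma EE_const_mul (ρ : ℂ → ℝ) (μ c : ℝ) (Y : ℂ → ℝ) :
    EE ρ μ (fun z => c * Y z) (fun z => c * Y z) = c ^ 2 * EE ρ μ Y Y := by
  simp only [EE, ← integral_const_mul, gdot, d1_eq, d2_eq, dd_const_mul]
  congr 1; funext z; ring

lemma Wt.scalar_step (hρ : Wt ρ) (h : Pot (mm ρ) μ) (hG : GreenAn (mm ρ) μ C)
    {w : Fin 2 → ℂ → ℝ} (hw : WData ρ μ w) (hH : Hodge ρ μ w) {γ : ℝ} (hγ : 0 < γ)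
    (hco : ∀ R, Test DD R → γ * ∫ z in DD, gdot R R z ≤ EE ρ μ R R) {β : ℂ → ℝ}
    (hβ : ContDiff ℝ oo β) {δ τ : ℝ} (hδ : 0 < δ) (hτ : 0 < τ) :
    0 ≤ ∑ i, ((∫ z in DD, gdot β β z * (w i z ^ 2 - (1 + 2 * τ / γ)⁻¹ * (chi δ z ^ 2 * w i z ^ 2) +
      τ⁻¹ * rem (w i) δ z)) + (1 + 2 * τ / γ)⁻¹ / 2 * ∫ p, GG (mm ρ) μ p.1 p.2 *
        (β p.1 - β p.2) ^ 2 * (ks ρ μ (w i) δ p.1 * ks ρ μ (w i) δ p.2) ∂V2) := by
  set l := (1 + 2 * τ / γ)⁻¹ with hl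
  have hl0 : 0 < l := by positivity
  refine le_of_forall_eps (K := 2 * l) fun ε hε _ => ?_
  have hv := fun i => (chi_test hδ).mul_right isOpen_DD (hw.smooth i)
  have hE := fun i => (hρ.LL_test μ ((hv i).mul_left isOpen_DD hβ.contDiffOn)).sub
    ((hρ.LL_test μ (hv i)).mul_left isOpen_DD hβ.contDiffOn)
  choose Y hY hYε using fun i => hρ.variational h hG (hE i) hε
  have hR := fun i => (hY i).const_mul (-l)
  refine (hH β hβ _ hR).trans ?_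
  rw [show 2 * l * ε = ∑ _ : Fin 2, l * ε by simp; ring, ← Finset.sum_add_distrib]
  refine Finset.sum_le_sum fun i _ => ?_
  have a1 := hρ.cross_le (hw.smooth i) (hw.eq i) (hw.L2 i) hβ (hR i) hδ hτ
  have a2 := hco _ (hR i)
  have a3 := hYε i
  rw [hρ.green_form h hG (hv i) hβ] at a3
  have a4 := integral_prod _ (hG.integrable_β h.mem (hρ.ks_test μ (hw.smooth i) hδ) hβ.continuous)
  have i0 := integrableOn_sq (hw.smooth i) (hw.L2 i)
  have i1 := gdot_bdd hβ i0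
  have i2 := (gdot_bdd hβ (integrableOn_chi_pow i0 δ 2)).const_mul l
  have i3 := (gdot_bdd hβ ((rem_facts (hw.smooth i) (hw.L2 i)).1 δ hδ)).const_mul τ⁻¹
  have a5 : ∫ z in DD, gdot β β z * (w i z ^ 2 - l * (chi δ z ^ 2 * w i z ^ 2) +
      τ⁻¹ * rem (w i) δ z) = (∫ z in DD, gdot β β z * w i z ^ 2) -
        l * (∫ z in DD, gdot β β z * (chi δ z * w i z) ^ 2) +
          τ⁻¹ * ∫ z in DD, gdot β β z * rem (w i) δ z := by
    simp only [mul_pow]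
    rw [← integral_const_mul, ← integral_const_mul, ← integral_sub i1 i2,
      ← integral_add (by exact i1.sub i2) i3]
    congr 1; funext z; ring
  rw [a4, a5]
  simp only [mul_left_comm _ (-l), integral_const_mul] at a1
  rw [EE_const_mul] at a2 ⊢
  have a6 : 2 * τ * ∫ z in DD, gdot (fun z => -l * Y i z) (fun z => -l * Y i z) z ≤
      2 * τ / γ * ((-l) ^ 2 * EE ρ μ (Y i) (Y i)) := by
    rw [div_mul_eq_mul_div, le_div_iff₀ hγ]
    nlinarith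
  have a7 : 2 * τ / γ * ((-l) ^ 2 * EE ρ μ (Y i) (Y i)) + (-l) ^ 2 * EE ρ μ (Y i) (Y i) =
      l * EE ρ μ (Y i) (Y i) := by
    rw [hl]; field_simp; ring
  have a8 := mul_le_mul_of_nonneg_left a3 hl0.le
  simp only [ks] at a8 ⊢
  linarith

theorem Wt.step1 (hρ : Wt ρ) (h : Pot (mm ρ) μ) (hG : GreenAn (mm ρ) μ C)
    {w : Fin 2 → ℂ → ℝ} (hw : WData ρ μ w) (hH : Hodge ρ μ w) {B η : ℝ} (hB : 0 ≤ B) (hη : 0 < η) :
    ∀ᶠ δ in 𝓝[>] (0 : ℝ), ∀ (n : ℕ) (β : Fin n → ℂ → ℝ), (∀ j, ContDiff ℝ oo (β j)) →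
      (∀ z ∈ DD, ∑ j, gdot (β j) (β j) z ≤ B) →
      -η ≤ ∑ i, ∫ p, GG (mm ρ) μ p.1 p.2 * (∑ j, (β j p.1 - β j p.2) ^ 2) *
        (ks ρ μ (w i) δ p.1 * ks ρ μ (w i) δ p.2) ∂V2 := by
  obtain ⟨γ, hγ, hco⟩ := hρ.coercive h
  have i0 := fun i => integrableOn_sq (hw.smooth i) (hw.L2 i)
  set W := ∑ i, ∫ z in DD, w i z ^ 2 with hW
  have hW0 : 0 ≤ W := Finset.sum_nonneg fun i _ => integral_nonneg fun _ => sq_nonneg _
  obtain ⟨τ, hτ, hτη⟩ : ∃ τ > 0, 2 * B * (2 * τ / γ * W) < η := by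
    refine ⟨η * γ / (4 * B * W + 1), by positivity, ?_⟩
    have : 2 * B * (2 * (η * γ / (4 * B * W + 1)) / γ * W) = η * (4 * B * W / (4 * B * W + 1)) := by
      field_simp; ring
    rw [this]
    exact mul_lt_of_lt_one_right hη ((div_lt_one (by positivity)).2 (lt_add_one _))
  set l := (1 + 2 * τ / γ)⁻¹ with hl
  have hl0 : 0 < l := by positivity
  have hl1 : l ≤ 1 := inv_le_one_of_one_le₀ (le_add_of_nonneg_right (by positivity))
  set Φ : Fin 2 → ℝ → ℂ → ℝ := fun i δ z =>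
    w i z ^ 2 - l * (chi δ z ^ 2 * w i z ^ 2) + τ⁻¹ * rem (w i) δ z with hΦ
  have hΦi : ∀ i δ, 0 < δ → IntegrableOn (Φ i δ) DD := fun i δ hδ =>
    ((i0 i).sub ((integrableOn_chi_pow (i0 i) δ 2).const_mul l)).add
      (((rem_facts (hw.smooth i) (hw.L2 i)).1 δ hδ).const_mul τ⁻¹)
  have hΦ0 : ∀ i δ z, 0 ≤ Φ i δ z := fun i δ z => by
    have h1 : chi δ z ^ 2 ≤ 1 := pow_le_one₀ (chi_nonneg δ z) (chi_le_one δ z)
    have h2 : l * (chi δ z ^ 2 * w i z ^ 2) ≤ 1 * (1 * w i z ^ 2) := by gcongr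
    have h3 := mul_nonneg (inv_pos.2 hτ).le (rem_nonneg (w i) δ z)
    simp only [hΦ]; linarith
  have t : Tendsto (fun δ => ∑ i, ∫ z in DD, Φ i δ z) (𝓝[>] 0) (𝓝 (∑ i, ((∫ z in DD, w i z ^ 2) -
      l * (∫ z in DD, w i z ^ 2) + τ⁻¹ * 0))) := by
    refine tendsto_finsetSum _ fun i _ => ((((tendsto_chi_mul (i0 i) 2).const_mul l).const_sub _).add
      ((rem_facts (hw.smooth i) (hw.L2 i)).2.const_mul τ⁻¹)).congr' ?_
    filter_upwards [self_mem_nhdsWithin] with δ hδ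
    simp only [hΦ]
    rw [integral_add (by exact (i0 i).sub ((integrableOn_chi_pow (i0 i) δ 2).const_mul l))
      (((rem_facts (hw.smooth i) (hw.L2 i)).1 δ hδ).const_mul τ⁻¹), integral_sub (i0 i)
      ((integrableOn_chi_pow (i0 i) δ 2).const_mul l), integral_const_mul, integral_const_mul]
  have hlim : B * ∑ i, ((∫ z in DD, w i z ^ 2) - l * (∫ z in DD, w i z ^ 2) + τ⁻¹ * 0) <
      l / 2 * η := by
    have e : ∑ i, ((∫ z in DD, w i z ^ 2) - l * (∫ z in DD, w i z ^ 2) + τ⁻¹ * 0) =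
        l * (2 * τ / γ * W) := by
      simp only [mul_zero, add_zero, Finset.sum_sub_distrib, ← Finset.mul_sum, ← hW, hl]
      field_simp; ring
    rw [e]; nlinarith
  filter_upwards [(t.const_mul B).eventually (gt_mem_nhds hlim), self_mem_nhdsWithin]
    with δ hδB hδ n β hβ hβB
  have a1 := Finset.sum_nonneg fun j (_ : j ∈ Finset.univ) =>
    hρ.scalar_step h hG hw hH hγ hco (hβ j) hδ hτ
  rw [Finset.sum_comm] at a1
  have a2 : ∀ i, ∑ j, ((∫ z in DD, gdot (β j) (β j) z * Φ i δ z) + l / 2 * ∫ p, GG (mm ρ) μ p.1 p.2 *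
      (β j p.1 - β j p.2) ^ 2 * (ks ρ μ (w i) δ p.1 * ks ρ μ (w i) δ p.2) ∂V2) ≤
      B * (∫ z in DD, Φ i δ z) + l / 2 * ∫ p, GG (mm ρ) μ p.1 p.2 * (∑ j, (β j p.1 - β j p.2) ^ 2) *
        (ks ρ μ (w i) δ p.1 * ks ρ μ (w i) δ p.2) ∂V2 := by
    intro i
    rw [Finset.sum_add_distrib, ← Finset.mul_sum, ← integral_finsetSum _ fun j _ =>
      hG.integrable_β h.mem (hρ.ks_test μ (hw.smooth i) hδ) (hβ j).continuous,
      ← integral_finsetSum _ fun j _ => gdot_bdd (hβ j) (hΦi i δ hδ), ← integral_const_mul B]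
    simp only [← Finset.sum_mul, ← Finset.mul_sum]
    refine add_le_add_left (integral_mono_of_nonneg (Eventually.of_forall fun z => mul_nonneg
      (Finset.sum_nonneg fun j _ => gdot_self_nonneg) (hΦ0 i δ z)) ((hΦi i δ hδ).const_mul B) ?_) _
    filter_upwards [ae_restrict_mem measurableSet_DD] with z hz
    exact mul_le_mul_of_nonneg_right (hβB z hz) (hΦ0 i δ z)
  have a3 := a1.trans (Finset.sum_le_sum fun i _ => a2 i)
  rw [Finset.sum_add_distrib, ← Finset.mul_sum, ← Finset.mul_sum] at a3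
  refine le_of_mul_le_mul_left ?_ (half_pos hl0)
  linarith

end Vale.Agent.P071
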