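import Vale.Agent.P071.Step2
import Vale.Agent.P071.Final
import Vale.Agent.P071.Expand
import Vale.Agent.P071.GreenHolder

/-! The main theorem on the disc. -/

open MeasureTheory Set Metric Filter Topology
open scoped ENNReal ComplexConjugate

namespace Vale.Agent.P071

variable {ρ : ℂ → ℝ} {μ C : ℝ}

lemma integrable_g0_test {a b : ℂ → ℝ} (ha : Continuous a) (hb : Continuous b) :
    Integrable (fun p : ℂ × ℂ => a p.1 * (g0 p.1 p.2 * b p.2)) V2 := by
  obtain ⟨A, hA⟩ := (isCompact_closedBall (0 : ℂ) 1).exists_bound_of_continuousOn ha.continuousOn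
  obtain ⟨B, hB⟩ := (isCompact_closedBall (0 : ℂ) 1).exists_bound_of_continuousOn hb.continuousOn
  exact integrable_g0_mul (ae_restrict_mem measurableSet_DD) ha.aestronglyMeasurable
    hb.aestronglyMeasurable
    ((ae_restrict_mem measurableSet_DD).mono fun z hz => hA z (ball_subset_closedBall hz))
    ((ae_restrict_mem measurableSet_DD).mono fun z hz => hB z (ball_subset_closedBall hz))

lemma ae_V2 : ∀ᵐ p ∂V2, p.1 ∈ DD ∧ p.2 ∈ DD :=
  (Measure.quasiMeasurePreserving_fst.ae (ae_restrict_mem measurableSet_DD)).and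
    (Measure.quasiMeasurePreserving_snd.ae (ae_restrict_mem measurableSet_DD))

lemma schur_abs {k : ℂ → ℝ} (hk : Test DD k) {δ : ℝ} (hδ : 0 < δ) (hs : ∀ z ∉ shell δ, k z = 0) :
    ∫ p, |k p.1| * (g0 p.1 p.2 * |k p.2|) ∂V2 ≤ ∫ z in DD, hh z ^ 2 * (k z * k z) := by
  refine le_of_forall_eps (K := volume.real DD) fun ε hε _ => ?_
  have hκ : Test DD fun z => √(k z ^ 2 + ε) * chi (δ / 2) z := (chi_test (half_pos hδ)).mul_left
    isOpen_DD (((hk.1.pow 2).add contDiff_const).sqrt fun z => by positivity).contDiffOn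
  set κ : ℂ → ℝ := fun z => √(k z ^ 2 + ε) * chi (δ / 2) z with hκd
  have h1 : ∀ z, |k z| ≤ κ z := fun z => by
    by_cases hz : z ∈ shell δ
    · simp only [hκd, chi_eq_one (half_pos hδ) (show 2 * (δ / 2) ≤ hh z by linarith [hz.1]), mul_one]
      exact Real.abs_le_sqrt (by linarith)
    · rw [hs z hz, abs_zero]
      exact mul_nonneg (Real.sqrt_nonneg _) (chi_nonneg _ _)
  have i := integrable_g0_test hκ.continuous hκ.continuous
  have i1 := (hk.mul_left isOpen_DD hk.contDiffOn).integrableOn_mul isOpen_DD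
    (continuous_hh.pow 2).continuousOn
  calc _ ≤ ∫ p, κ p.1 * (g0 p.1 p.2 * κ p.2) ∂V2 := by
        refine integral_mono_ae (integrable_g0_test hk.continuous.abs hk.continuous.abs) i ?_
        filter_upwards [ae_V2] with p hp
        have := g0_nonneg hp.1 hp.2
        exact mul_le_mul (h1 _) (mul_le_mul_of_nonneg_left (h1 _) this) (by positivity)
          ((abs_nonneg _).trans (h1 _))
    _ = ∫ z in DD, κ z * G0 κ z := by rw [integral_prod _ i]; simp only [G0, integral_const_mul]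
    _ ≤ ∫ z in DD, hh z ^ 2 * (κ z * κ z) := schur hκ
    _ ≤ ∫ z in DD, (hh z ^ 2 * (k z * k z) + ε) := by
        refine setIntegral_mono_on ((hκ.mul_left isOpen_DD hκ.contDiffOn).integrableOn_mul isOpen_DD
          (continuous_hh.pow 2).continuousOn) (i1.add (integrable_const ε)) measurableSet_DD
          fun z hz => ?_
        have h2 : κ z * κ z ≤ k z * k z + ε := by
          have h3 : chi (δ / 2) z ^ 2 ≤ 1 := pow_le_one₀ (chi_nonneg _ z) (chi_le_one _ z)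
          have h4 : κ z * κ z = (k z ^ 2 + ε) * chi (δ / 2) z ^ 2 := by
            rw [← sq, hκd, mul_pow, Real.sq_sqrt (by positivity)]
          rw [h4, ← sq]
          exact mul_le_of_le_one_right (by positivity) h3
        have h5 : hh z ^ 2 ≤ 1 := pow_le_one₀ (hh_pos hz).le (hh_le_one z)
        nlinarith [mul_le_mul_of_nonneg_left h2 (sq_nonneg (hh z))]
    _ = _ := by
        rw [integral_add (by exact i1) (integrable_const ε), setIntegral_const, smul_eq_mul]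

lemma Wt.ks_bounds (hρ : Wt ρ) {w : ℂ → ℝ} (hw : ContDiffOn ℝ oo w DD)
    (heq : ∀ z ∈ DD, lap w z = -μ * ρ z * w z)
    (h2 : IntegrableOn (fun z => w z ^ 2 + hh z ^ 2 * gdot w w z) DD) :
    Tendsto (fun δ => δ ^ 2 * ∫ z in DD, hh z ^ 2 * (ks ρ μ w δ z * ks ρ μ w δ z)) (𝓝[>] 0) (𝓝 0) := by
  obtain ⟨K, hK0, hK⟩ := chi_bounds
  have h1 := (tendsto_outer h2).const_mul (32 * K ^ 2)
  rw [mul_zero] at h1
  refine tendsto_of_tendsto_of_tendsto_of_le_of_le' tendsto_const_nhds h1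
    (Eventually.of_forall fun δ => mul_nonneg (sq_nonneg _) (integral_nonneg fun z =>
      mul_nonneg (sq_nonneg _) (mul_self_nonneg _))) ?_
  filter_upwards [Ioo_mem_nhdsGT zero_lt_one] with δ hδ
  rw [← integral_const_mul, ← integral_const_mul,
    ← inter_eq_right.2 (show outer δ ⊆ DD from inter_subset_left),
    ← setIntegral_indicator (measurableSet_outer δ)]
  refine integral_mono_of_nonneg (Eventually.of_forall fun z =>
    mul_nonneg (sq_nonneg _) (mul_nonneg (sq_nonneg _) (mul_self_nonneg _)))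
    ((h2.const_mul _).indicator (measurableSet_outer δ)) ?_
  filter_upwards [ae_restrict_mem measurableSet_DD] with z hz
  have g0 : 0 ≤ gdot w w z := gdot_self_nonneg
  by_cases hs : z ∈ shell δ
  swap
  · simp only [hρ.ks_eq_zero hw heq hδ.1 z hs, mul_zero]
    exact indicator_nonneg (fun z _ => mul_nonneg (by positivity)
      (add_nonneg (sq_nonneg _) (mul_nonneg (sq_nonneg _) gdot_self_nonneg))) z
  rw [indicator_of_mem (shell_subset_outer hδ.1 hs), ks_eq hw heq δ hz]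
  have h0 := hδ.1
  obtain ⟨b1, b2⟩ := hK δ hδ.1 hδ.2.le z
  have b3 : (lap (chi δ) z * w z) ^ 2 ≤ (K / δ ^ 2) ^ 2 * w z ^ 2 := by
    rw [mul_pow, ← sq_abs (lap _ _)]; gcongr
  have b4 : gdot (chi δ) w z ^ 2 ≤ K ^ 2 / δ ^ 2 * gdot w w z := by
    refine le_trans ?_ (mul_le_mul_of_nonneg_right b1 g0)
    unfold gdot
    nlinarith [sq_nonneg (d1 (chi δ) z * d2 w z - d2 (chi δ) z * d1 w z)]
  have b5 : hh z ^ 2 ≤ (2 * δ) ^ 2 := pow_le_pow_left₀ (hh_pos hz).le hs.2 2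
  have b6 : δ ^ 2 ≤ hh z ^ 2 := pow_le_pow_left₀ h0.le hs.1 2
  calc _ = δ ^ 2 * hh z ^ 2 * (lap (chi δ) z * w z + 2 * gdot (chi δ) w z) ^ 2 := by ring
    _ ≤ δ ^ 2 * (2 * δ) ^ 2 * (2 * ((K / δ ^ 2) ^ 2 * w z ^ 2) +
          8 * (K ^ 2 / δ ^ 2 * gdot w w z)) := by
        gcongr
        nlinarith [sq_nonneg (lap (chi δ) z * w z - 2 * gdot (chi δ) w z)]
    _ = 8 * K ^ 2 * w z ^ 2 + 32 * K ^ 2 * (δ ^ 2 * gdot w w z) := by field_simp; ring
    _ ≤ 32 * K ^ 2 * w z ^ 2 + 32 * K ^ 2 * (hh z ^ 2 * gdot w w z) := by gcongr; norm_num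
    _ = _ := by ring

lemma ks_L1 : ∃ K ≥ 0, ∀ (ρ : ℂ → ℝ) (μ : ℝ) (w : ℂ → ℝ), Wt ρ → ContDiffOn ℝ oo w DD →
    (∀ z ∈ DD, lap w z = -μ * ρ z * w z) → ∀ δ, 0 < δ → δ ≤ 1 → ∫ z in DD, |ks ρ μ w δ z| ≤
      K / δ * ∫ z in shell δ, (|w z| / δ + |d1 w z| + |d2 w z|) := by
  obtain ⟨K, hK0, hK⟩ := chi_bounds
  refine ⟨2 * K, by positivity, fun ρ μ w hρ hw heq δ hδ hδ1 => ?_⟩
  rw [← integral_const_mul, setIntegral_eq_of_subset_of_forall_sdiff_eq_zero measurableSet_DD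
    (shell_subset hδ) fun z hz => by rw [hρ.ks_eq_zero hw heq hδ z hz.2, abs_zero]]
  have hc : ∀ v, ContinuousOn (dd v w) DD := fun v =>
    (contDiffOn_dd isOpen_DD hw oo_add_one).continuousOn
  refine setIntegral_mono_on (hρ.ks_test μ hw hδ).integrable.abs.integrableOn
    (ContinuousOn.integrableOn_compact (isCompact_shell hδ) ((continuousOn_const.mul
      (((hw.continuousOn.abs.div_const δ).add (hc 1).abs).add (hc Complex.I).abs)).mono
        (shell_subset hδ))) (isClosed_shell δ).measurableSet fun z hz => ?_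
  obtain ⟨b1, b2⟩ := hK δ hδ hδ1 z
  rw [← div_pow] at b1
  have b3 : |d1 (chi δ) z| ≤ K / δ := abs_le_of_sq_le_sq
    (by unfold gdot at b1; nlinarith [mul_self_nonneg (d2 (chi δ) z)]) (by positivity)
  have b4 : |d2 (chi δ) z| ≤ K / δ := abs_le_of_sq_le_sq
    (by unfold gdot at b1; nlinarith [mul_self_nonneg (d1 (chi δ) z)]) (by positivity)
  rw [ks_eq hw heq δ (shell_subset hδ hz), abs_neg]
  calc _ ≤ |lap (chi δ) z| * |w z| + 2 * (|d1 (chi δ) z| * |d1 w z| + |d2 (chi δ) z| * |d2 w z|) := by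
        refine (abs_add_le _ _).trans ?_
        rw [abs_mul, abs_mul, abs_two, ← abs_mul (d1 _ _), ← abs_mul (d2 _ _)]
        gcongr
        exact abs_add_le _ _
    _ ≤ 2 * K / δ ^ 2 * |w z| + 2 * (K / δ * |d1 w z| + K / δ * |d2 w z|) := by
        gcongr
        exact b2.trans (by gcongr; linarith)
    _ = _ := by field_simp; ring

section kernel

variable {m : Measure ℂ} {s δ : ℝ} {x y : ℂ}

lemma GreenAn.shell_le (hG : GreenAn m μ C) (hC : 1 ≤ C) (hs : s ∈ Icc 0 μ) (hδ : 0 < δ)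
    (hδ' : δ ≤ 1 / 4) (hx : x ∈ shell δ) : GG m s x 0 ≤ C * hh x :=
  (hG.upper s hs x (shell_subset hδ hx) 0 (by simp)).trans (mul_le_mul_of_nonneg_left
    (FinalAux.g0_zero_le (shell_subset hδ hx) (by linarith [hx.2])) (by linarith))

lemma GreenAn.NN_nonneg (hG : GreenAn m μ C) (hs : s ∈ Icc 0 μ) (hx : x ∈ DD) (hy : y ∈ DD) :
    0 ≤ NN m s 0 x y :=
  div_nonneg (mul_nonneg (hG.nonneg hs hx (by simp)) (hG.nonneg hs hy (by simp)))
    (hG.nonneg hs hx hy)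

lemma GreenAn.g0_NN (hG : GreenAn m μ C) (hC : 1 ≤ C) (hs : s ∈ Icc 0 μ) (hδ : 0 < δ)
    (hδ' : δ ≤ 1 / 4) (hx : x ∈ shell δ) (hy : y ∈ shell δ) :
    g0 x y * NN m s 0 x y ≤ C ^ 2 * (hh x * hh y) := by
  have hx' := shell_subset hδ hx
  have hy' := shell_subset hδ hy
  have h1 := hh_pos hx'
  have h2 := hh_pos hy'
  rcases eq_or_ne x y with rfl | h
  · rw [g0_self, zero_mul]; positivity
  have h3 := (g0_pos hx' hy' h).trans_le (hG.lower s hs x hx' y hy')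
  calc _ ≤ GG m s x y * NN m s 0 x y :=
        mul_le_mul_of_nonneg_right (hG.lower s hs x hx' y hy') (hG.NN_nonneg hs hx' hy')
    _ = GG m s x 0 * GG m s y 0 := by rw [NN]; field_simp
    _ ≤ (C * hh x) * (C * hh y) := mul_le_mul (hG.shell_le hC hs hδ hδ' hx)
        (hG.shell_le hC hs hδ hδ' hy) (hG.nonneg hs hy' (by simp)) (by positivity)
    _ = _ := by ring

lemma GreenAn.NN_le (hG : GreenAn m μ C) (hC : 1 ≤ C) (hs : s ∈ Icc 0 μ) (hδ : 0 < δ)
    (hδ' : δ ≤ 1 / 4) (hx : x ∈ shell δ) (hy : y ∈ shell δ) :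
    NN m s 0 x y ≤ (8 * C * (‖x - y‖ + δ)) ^ 2 := by
  have hx' := shell_subset hδ hx
  have hy' := shell_subset hδ hy
  have h1 := hh_pos hx'
  have h2 := hh_pos hy'
  rcases eq_or_ne x y with rfl | h
  · rw [NN, hG.diag, div_zero]; positivity
  have h3 := Green.q_le_g0 hx' hy' h
  rw [div_le_iff₀ (pow_pos (Green.one_sub_pos hx' hy') 2), norm_one_sub_sq] at h3
  have h4 := hG.g0_NN hC hs hδ hδ' hx hy
  have h5 := g0_pos hx' hy' h
  have h6 : hh x * hh y ≤ (2 * δ) * (2 * δ) := mul_le_mul hx.2 hy.2 h2.le (by positivity)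
  have h7 := norm_nonneg (x - y)
  refine le_of_mul_le_mul_left (h4.trans ?_) h5
  calc C ^ 2 * (hh x * hh y) ≤ C ^ 2 * (4 * Real.pi * g0 x y * (‖x - y‖ ^ 2 + hh x * hh y)) := by
        gcongr
    _ ≤ C ^ 2 * (4 * 4 * g0 x y * (4 * (‖x - y‖ + δ) ^ 2)) := by
        gcongr
        · exact Real.pi_le_four
        · nlinarith [mul_nonneg h7 hδ.le]
    _ = _ := by ring

lemma GreenAn.NN_meas (hG : GreenAn m μ C) (s : ℝ) :
    Measurable fun p : ℂ × ℂ => NN m s 0 p.1 p.2 :=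
  (((hG.meas s).comp (measurable_fst.prodMk measurable_const)).mul
    ((hG.meas s).comp (measurable_snd.prodMk measurable_const))).div (hG.meas s)

lemma GreenAn.integrable_NN (hG : GreenAn m μ C) (h : Pot m μ) (hC : 1 ≤ C) (hs : s ∈ Icc 0 μ)
    (hδ : 0 < δ) (hδ' : δ ≤ 1 / 4) {k : ℂ → ℝ} (hk : Test DD k) (hS : ∀ z ∉ shell δ, k z = 0) :
    Integrable (fun p : ℂ × ℂ => GG m μ p.1 p.2 * NN m s 0 p.1 p.2 * (k p.1 * k p.2)) V2 := by
  refine hG.integrable_H h.mem hk hS (hG.NN_meas s) (M := (8 * C * (2 + δ)) ^ 2) fun x hx y hy => ?_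
  have hx' := shell_subset hδ hx
  have hy' := shell_subset hδ hy
  rw [abs_of_nonneg (hG.NN_nonneg hs hx' hy')]
  refine (hG.NN_le hC hs hδ hδ' hx hy).trans ?_
  gcongr
  linarith [norm_sub_le x y, mem_DD.1 hx', mem_DD.1 hy']

end kernel

lemma abs_sub_le_of_sqrt {S N D ε : ℝ} (hS : 0 ≤ S) (hN : 0 ≤ N) (hε : 0 < ε)
    (h : |√S - √N| ≤ D) : |S - N| ≤ ε * N + (1 + ε⁻¹) * D ^ 2 := by
  obtain ⟨a, ha, rfl⟩ : ∃ a, 0 ≤ a ∧ S = a ^ 2 := ⟨√S, Real.sqrt_nonneg _, (Real.sq_sqrt hS).symm⟩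
  obtain ⟨b, hb, rfl⟩ : ∃ b, 0 ≤ b ∧ N = b ^ 2 := ⟨√N, Real.sqrt_nonneg _, (Real.sq_sqrt hN).symm⟩
  rw [Real.sqrt_sq ha, Real.sqrt_sq hb] at h
  have h1 := abs_le.1 h
  have h2 : 2 * b * D ≤ ε * b ^ 2 + ε⁻¹ * D ^ 2 := by
    have : ε * b ^ 2 + ε⁻¹ * D ^ 2 - 2 * b * D = ε⁻¹ * (ε * b - D) ^ 2 := by field_simp; ring
    have h : 0 ≤ ε⁻¹ * (ε * b - D) ^ 2 := by positivity
    linarith
  rw [sq_sub_sq, abs_mul, abs_of_nonneg (add_nonneg ha hb)]
  calc (a + b) * |a - b| ≤ (2 * b + D) * D :=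
        mul_le_mul (by linarith) h (abs_nonneg _) (by linarith)
    _ ≤ _ := by linarith

theorem Wt.step2 (hρ : Wt ρ) (h : Pot (mm ρ) μ) (hG : GreenAn (mm ρ) μ C) (hC : 1 ≤ C)
    {w : Fin 2 → ℂ → ℝ} (hw : WData ρ μ w) (hH : Hodge ρ μ w) {s : ℝ} (hs : s ∈ Icc 0 μ)
    (hN : GreenCND (mm ρ) s) (T : ℝ) {η : ℝ} (hη : 0 < η) :
    ∀ᶠ δ in 𝓝[>] (0 : ℝ), (∀ i, ∫ z in DD, |ks ρ μ (w i) δ z| ≤ T / δ) →
      -η ≤ ∑ i, ∫ p, GG (mm ρ) μ p.1 p.2 * NN (mm ρ) s 0 p.1 p.2 *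
        (ks ρ μ (w i) δ p.1 * ks ρ μ (w i) δ p.2) ∂V2 := by
  obtain ⟨K, hK⟩ := smoothing
  obtain ⟨ε, hε, hεη⟩ : ∃ ε > 0, ε * (4 * C ^ 3 * T ^ 2) < η / 4 := by
    refine ⟨η / 4 / (4 * C ^ 3 * T ^ 2 + 1), by positivity, ?_⟩
    rw [div_mul_eq_mul_div, div_lt_iff₀ (by positivity)]
    gcongr; exact lt_add_one _
  set L := (1 + ε⁻¹) * (K * (8 * C)) ^ 2 * C with hL
  have t := fun i => ((hρ.ks_bounds (hw.smooth i) (hw.eq i) (hw.L2 i)).const_mul L).const_add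
    (ε * (4 * C ^ 3 * T ^ 2))
  filter_upwards [hρ.step1 h hG hw hH (B := |K| * (8 * C) ^ 2) (by positivity) (half_pos hη),
    Ioc_mem_nhdsGT (show (0 : ℝ) < 1 / 4 by norm_num), eventually_all.2 fun i =>
      (t i).eventually (gt_mem_nhds (show _ < η / 4 by linarith))] with δ h1 hδ h2 hT
  obtain ⟨n, β, hβ, hβB, hβN⟩ := hK (NN (mm ρ) s 0) (8 * C) δ hδ.1 hδ.2 (by positivity)
    (fun x y => by rw [NN, NN, mul_comm, hG.symm s x y]) (fun x => by rw [NN, hG.diag, div_zero])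
    (fun n x c hx hc => hN 0 (by simp) n x c (fun i => ⟨shell_subset hδ.1 (hx i), fun h0 => by
      have := (hx i).2
      rw [h0] at this
      norm_num [hh] at this
      linarith [hδ.2]⟩) hc)
    fun x hx y hy => Real.sqrt_le_iff.2 ⟨by have := hδ.1; positivity, hG.NN_le hC hs hδ.1 hδ.2 hx hy⟩
  have h3 := h1 n β hβ fun z hz => (hβB z hz).trans (by gcongr; exact le_abs_self K)
  have key : ∀ i, ∫ p, GG (mm ρ) μ p.1 p.2 * (∑ j, (β j p.1 - β j p.2) ^ 2) *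
      (ks ρ μ (w i) δ p.1 * ks ρ μ (w i) δ p.2) ∂V2 ≤ ∫ p, GG (mm ρ) μ p.1 p.2 *
        NN (mm ρ) s 0 p.1 p.2 * (ks ρ μ (w i) δ p.1 * ks ρ μ (w i) δ p.2) ∂V2 + η / 4 := by
    intro i
    have hk := hρ.ks_test μ (hw.smooth i) hδ.1
    have hS := hρ.ks_eq_zero (hw.smooth i) (hw.eq i) hδ.1
    have h4 := h2 i
    have h5 := hT i
    set k := ks ρ μ (w i) δ
    have i1 := hG.integrable_NN h hC hs hδ.1 hδ.2 hk hS
    have i2 : Integrable (fun p : ℂ × ℂ => |k p.1| * |k p.2|) V2 :=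
      hk.integrable.abs.integrableOn.mul_prod hk.integrable.abs.integrableOn
    have i3 := integrable_g0_test hk.continuous.abs hk.continuous.abs
    have i4 : Integrable (fun p : ℂ × ℂ => GG (mm ρ) μ p.1 p.2 * (∑ j, (β j p.1 - β j p.2) ^ 2) *
        (k p.1 * k p.2)) V2 := by
      simp only [Finset.mul_sum, Finset.sum_mul]
      exact integrable_finsetSum _ fun j _ => hG.integrable_β h.mem hk (hβ j).continuous
    have := integral_mono_ae i4 (i1.add ((i2.const_mul (ε * (4 * C ^ 3) * δ ^ 2)).add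
      (i3.const_mul (L * δ ^ 2)))) (Eventually.of_forall fun p => by
        simp only [Pi.add_apply]
        by_cases hx : p.1 ∈ shell δ
        swap; · simp [hS _ hx]
        by_cases hy : p.2 ∈ shell δ
        swap; · simp [hS _ hy]
        have hx' := shell_subset hδ.1 hx
        have hy' := shell_subset hδ.1 hy
        have a0 := hG.NN_nonneg hs hx' hy'
        have a1 := abs_sub_le_of_sqrt (Finset.sum_nonneg fun j _ => sq_nonneg _) a0 hε
          (hβN _ hx _ hy)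
        have a2 := hG.g0_NN hC hs hδ.1 hδ.2 hx hy
        have a3 : hh p.1 * hh p.2 ≤ (2 * δ) * (2 * δ) :=
          mul_le_mul hx.2 hy.2 (hh_pos hy').le (by linarith [hδ.1])
        have a4 := g0_nonneg hx' hy'
        rw [← sub_le_iff_le_add', ← sub_mul, ← mul_sub]
        calc _ ≤ |GG (mm ρ) μ p.1 p.2| * |∑ j, (β j p.1 - β j p.2) ^ 2 - NN (mm ρ) s 0 p.1 p.2| *
              (|k p.1| * |k p.2|) := by simp only [← abs_mul]; exact le_abs_self _
          _ ≤ C * g0 p.1 p.2 * (ε * NN (mm ρ) s 0 p.1 p.2 + (1 + ε⁻¹) * (K * (8 * C) * δ) ^ 2) *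
              (|k p.1| * |k p.2|) := by gcongr; exact hG.abs_le h.mem _ hx' _ hy'
          _ = ε * C * (g0 p.1 p.2 * NN (mm ρ) s 0 p.1 p.2) * (|k p.1| * |k p.2|) +
              L * δ ^ 2 * (|k p.1| * (g0 p.1 p.2 * |k p.2|)) := by rw [hL]; ring
          _ ≤ ε * C * (C ^ 2 * (2 * δ * (2 * δ))) * (|k p.1| * |k p.2|) +
              L * δ ^ 2 * (|k p.1| * (g0 p.1 p.2 * |k p.2|)) := by
              gcongr ε * C * ?_ * _ + _; exact a2.trans (by gcongr)
          _ = _ := by ring)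
    simp only [Pi.add_apply] at this
    rw [integral_add i1 (by exact (i2.const_mul _).add (i3.const_mul _)),
      integral_add (i2.const_mul _) (i3.const_mul _), integral_const_mul, integral_const_mul,
      integral_prod_mul (fun z => |k z|) (fun z => |k z|)] at this
    have h0 : 0 ≤ ∫ z in DD, |k z| := integral_nonneg fun _ => abs_nonneg _
    have h6 : ε * (4 * C ^ 3) * δ ^ 2 * ((∫ z in DD, |k z|) * ∫ z in DD, |k z|) ≤
        ε * (4 * C ^ 3 * T ^ 2) :=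
      calc _ ≤ ε * (4 * C ^ 3) * δ ^ 2 * (T / δ * (T / δ)) := by
            gcongr; exact h0.trans h5
        _ = _ := by have := hδ.1; field_simp
    have h7 := mul_le_mul_of_nonneg_left (schur_abs hk hδ.1 hS)
      (show 0 ≤ L * δ ^ 2 by rw [hL]; positivity)
    linarith
  have h4 := h3.trans (Finset.sum_le_sum fun i _ => key i)
  rw [Finset.sum_add_distrib] at h4
  simp only [Finset.sum_const, Finset.card_univ, Fintype.card_fin, nsmul_eq_mul] at h4
  push_cast at h4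
  linarith

theorem Wt.disc_main (hρ : Wt ρ) (h : Pot (mm ρ) μ) {w : Fin 2 → ℂ → ℝ} (hw : WData ρ μ w)
    (hH : Hodge ρ μ w) (i : Fin 2) : ∀ z ∈ DD, w i z = 0 := by
  obtain ⟨C, hC, hG⟩ := exists_greenAn h
  have hN := green_cnd h hG
  have hμ := h.mu_pos
  obtain ⟨C₁, hC₁⟩ := hw.L1
  obtain ⟨K₁, hK₁0, hK₁⟩ := ks_L1
  set T := |K₁ * C₁| + ∑ i, ∫ z in DD, ρ z * w i z ^ 2 with hT
  have hI : ∀ i, 0 ≤ ∫ z in DD, ρ z * w i z ^ 2 := fun i => setIntegral_nonneg measurableSet_DD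
    fun z hz => mul_nonneg (hρ.pos z hz).le (sq_nonneg _)
  obtain ⟨K, hK⟩ := expand h hG T
  refine final h hG (hN μ h.mem) (fun r hr => green_holder h hG hr) hρ.open_pos
    (hw.smooth i).continuousOn (hw.zero i) T fun η hη => ?_
  obtain ⟨t, ht, htμ, htK⟩ : ∃ t > 0, t ≤ μ ∧ K * t ≤ η / 4 := by
    refine ⟨min μ (η / 4 / (|K| + 1)), by positivity, min_le_left _ _, ?_⟩
    calc _ ≤ (|K| + 1) * (η / 4 / (|K| + 1)) :=
          mul_le_mul (by linarith [le_abs_self K]) (min_le_right _ _) (by positivity) (by positivity)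
      _ = _ := by field_simp
  have hs : μ - t ∈ Icc 0 μ := ⟨by linarith, by linarith⟩
  obtain ⟨δ₀, hδ₀, hst⟩ := mem_nhdsGT_iff_exists_Ioo_subset.1
    (hρ.step2 h hG hC hw hH hs (hN _ hs) T (η := t * η / 2) (by positivity))
  obtain ⟨δ, hδ, hδ', hsh⟩ := hC₁ (min δ₀ (min η (1 / 4))) (lt_min hδ₀ (by positivity))
  simp only [lt_min_iff] at hδ'
  have hk := fun j => hρ.ks_test μ (hw.smooth j) hδ
  have hS := fun j => hρ.ks_eq_zero (hw.smooth j) (hw.eq j) hδ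
  have hv := fun j => (chi_test hδ).mul_right isOpen_DD (hw.smooth j)
  have hR : ∀ j, ∀ x ∈ DD, ∫ y in DD, GG (mm ρ) μ x y * ks ρ μ (w j) δ y = chi δ x * w j x :=
    fun j x hx => hρ.repr h hG (hv j) hx
  have hL1 : ∀ j, ∫ z in DD, |ks ρ μ (w j) δ z| ≤ T / δ := fun j => by
    refine (hK₁ ρ μ _ hρ (hw.smooth j) (hw.eq j) δ hδ (by linarith [hδ'.2.2])).trans ?_
    calc _ ≤ K₁ / δ * C₁ := mul_le_mul_of_nonneg_left (hsh j) (by positivity)
      _ = K₁ * C₁ / δ := by ring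
      _ ≤ T / δ := by
          gcongr
          exact (le_abs_self _).trans (le_add_of_nonneg_right (Finset.sum_nonneg fun i _ => hI i))
  have h0 : ∀ j, ∫ y in DD, GG (mm ρ) μ 0 y * ks ρ μ (w j) δ y = 0 := fun j => by
    rw [hR j 0 (by simp), hw.zero, mul_zero]
  have hae : ∀ j, (fun x => ∫ y in DD, GG (mm ρ) μ x y * ks ρ μ (w j) δ y) =ᵐ[mm ρ]
      fun x => chi δ x * w j x := fun j => (ae_mm ρ).mono (hR j)
  have hE : ∀ j, ∫ p, GG (mm ρ) μ p.1 p.2 * NN (mm ρ) (μ - t) 0 p.1 p.2 *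
      (ks ρ μ (w j) δ p.1 * ks ρ μ (w j) δ p.2) ∂V2 ≤
        K * t ^ 2 + t * ∫ p, QN (mm ρ) μ (ks ρ μ (w j) δ) p ∂mm ρ := fun j => by
    rw [integral_prod _ (hG.integrable_NN h hC hs hδ hδ'.2.2.le (hk j) (hS j))]
    refine hK t ht htμ δ hδ hδ'.2.2.le _ (hk j).continuous (hS j) (hL1 j) (h0 j)
      ((hρ.memLp_test (hv j)).ae_eq (hae j).symm) ?_
    rw [integral_congr_ae ((hae j).mono fun x hx => congrArg (· ^ 2) hx), hρ.integral]
    refine le_trans (integral_mono_of_nonneg ?_ (hw.intρ j) ?_) ((Finset.single_le_sum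
      (fun i _ => hI i) (Finset.mem_univ j)).trans (le_add_of_nonneg_left (abs_nonneg _)))
    · filter_upwards [ae_restrict_mem measurableSet_DD] with z hz
      exact mul_nonneg (hρ.pos z hz).le (sq_nonneg _)
    · filter_upwards [ae_restrict_mem measurableSet_DD] with z hz
      rw [mul_pow]
      exact mul_le_mul_of_nonneg_left (mul_le_of_le_one_left (sq_nonneg _)
        (pow_le_one₀ (chi_nonneg δ z) (chi_le_one δ z))) (hρ.pos z hz).le
  have hQ := fun j => QN_nonpos h hG (hN μ h.mem) hδ hδ'.2.2.le (hk j).continuous (hS j) (h0 j)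
  refine ⟨δ, hδ, hδ'.2.1, _, (hk i).continuous, hS i, hL1 i, fun x hx => ?_, ?_⟩
  · rw [hR i x (mem_DD_of_hh_pos (by linarith)), chi_eq_one hδ hx, one_mul]
  have h1 := (hst ⟨hδ, hδ'.1⟩ hL1).trans (Finset.sum_le_sum fun j _ => hE j)
  rw [Fin.sum_univ_two] at h1
  have h2 := mul_le_mul_of_nonneg_left htK ht.le
  have h3 := mul_le_mul_of_nonneg_left (hQ 0) ht.le
  have h4 := mul_le_mul_of_nonneg_left (hQ 1) ht.le
  refine le_of_mul_le_mul_left ?_ ht
  fin_cases i <;> simp only [Fin.zero_eta, Fin.mk_one, Fin.isValue] <;> linarith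

end Vale.Agent.P071
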