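import Vale.Agent.P071.Disc
import Vale.Agent.P071.Patch

/-! Conformal change of variables. -/

open MeasureTheory Set Metric Filter Topology
open scoped ENNReal

namespace Vale.Agent.P071

namespace Transport

theorem hasF {g : ℂ → ℂ} {z : ℂ} (hg : DifferentiableAt ℂ g z) :
    HasFDerivAt g ((ContinuousLinearMap.toSpanSingleton ℂ (deriv g z)).restrictScalars ℝ) z :=
  hg.hasDerivAt.hasFDerivAt.restrictScalars ℝ

theorem det_hol (c : ℂ) :
    |((ContinuousLinearMap.toSpanSingleton ℂ c).restrictScalars ℝ).det| = ‖c‖ ^ 2 := by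
  have h2 : ‖c‖ ^ 2 = c.re ^ 2 + c.im ^ 2 := by
    rw [Complex.sq_norm, Complex.normSq_apply]
    ring
  simp only [Patch.det_eq, h2]
  simp only [ContinuousLinearMap.coe_restrictScalars', ContinuousLinearMap.toSpanSingleton_apply,
    smul_eq_mul, one_mul, mul_one, Complex.mul_re, Complex.mul_im, Complex.I_re, Complex.I_im,
    zero_mul, zero_sub, zero_add]
  rw [abs_of_nonneg (by nlinarith)]
  ring

theorem dd_hol {g : ℂ → ℂ} {z : ℂ} (hg : DifferentiableAt ℂ g z) {a : ℂ → ℝ}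
    (ha : DifferentiableAt ℝ a (g z)) (v : ℂ) :
    dd v (a ∘ g) z = (v * deriv g z).re * d1 a (g z) + (v * deriv g z).im * d2 a (g z) := by
  rw [dd, (ha.hasFDerivAt.comp z (hasF hg)).fderiv, ContinuousLinearMap.comp_apply,
    Patch.apply_eq]
  simp [d1, d2]

theorem d1_hol {g : ℂ → ℂ} {z : ℂ} (hg : DifferentiableAt ℂ g z) {a : ℂ → ℝ}
    (ha : DifferentiableAt ℝ a (g z)) :
    d1 (a ∘ g) z = d1 a (g z) * (deriv g z).re + d2 a (g z) * (deriv g z).im := by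
  rw [d1_eq, dd_hol hg ha, ← d1_eq, one_mul]
  ring

theorem d2_hol {g : ℂ → ℂ} {z : ℂ} (hg : DifferentiableAt ℂ g z) {a : ℂ → ℝ}
    (ha : DifferentiableAt ℝ a (g z)) :
    d2 (a ∘ g) z = d2 a (g z) * (deriv g z).re - d1 a (g z) * (deriv g z).im := by
  rw [d2_eq, dd_hol hg ha, ← d2_eq]
  simp
  ring

theorem gdot_hol {g : ℂ → ℂ} {z : ℂ} (hg : DifferentiableAt ℂ g z) {a b : ℂ → ℝ}
    (ha : DifferentiableAt ℝ a (g z)) (hb : DifferentiableAt ℝ b (g z)) :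
    gdot (a ∘ g) (b ∘ g) z = ‖deriv g z‖ ^ 2 * gdot a b (g z) := by
  rw [gdot, gdot, d1_hol hg ha, d1_hol hg hb, d2_hol hg ha, d2_hol hg hb, Complex.sq_norm,
    Complex.normSq_apply]
  ring

theorem contDiffOn_hol {g : ℂ → ℂ} {U : Set ℂ} (hU : IsOpen U) (hg : DifferentiableOn ℂ g U)
    {n : WithTop ℕ∞} : ContDiffOn ℝ n g U :=
  (hg.contDiffOn hU).restrict_scalars ℝ

variable {Ω : Set ℂ} {f φ : ℂ → ℂ}

theorem diffAt (hc : Conf Ω f φ) {z : ℂ} (hz : z ∈ DD) : DifferentiableAt ℂ f z :=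
  hc.hf.differentiableAt (isOpen_ball.mem_nhds hz)

theorem image_eq (hc : Conf Ω f φ) : f '' DD = Ω :=
  Subset.antisymm hc.mapsf.image_subset fun x hx => ⟨φ x, hc.mapsφ hx, hc.right x hx⟩

theorem injOn (hc : Conf Ω f φ) : InjOn f DD := fun x hx y hy hxy => by
  rw [← hc.left x hx, hxy, hc.left y hy]

theorem deriv_ne (hc : Conf Ω f φ) (ho : IsOpen Ω) {z : ℂ} (hz : z ∈ DD) : deriv f z ≠ 0 := by
  intro h0
  have h1 := (hc.hφ.differentiableAt (ho.mem_nhds (hc.mapsf hz))).hasDerivAt.comp z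
    (diffAt hc hz).hasDerivAt
  have h2 : φ ∘ f =ᶠ[𝓝 z] id := by
    filter_upwards [isOpen_ball.mem_nhds hz] with w hw using hc.left w hw
  have h3 := (h1.congr_of_eventuallyEq h2.symm).unique (hasDerivAt_id z)
  rw [h0, mul_zero] at h3
  exact zero_ne_one h3

theorem comp_ev (hc : Conf Ω f φ) (a : ℂ → ℝ) {z : ℂ} (hz : z ∈ DD) :
    (a ∘ φ) ∘ f =ᶠ[𝓝 z] a := by
  filter_upwards [isOpen_ball.mem_nhds hz] with w hw
  simp only [Function.comp_apply, hc.left w hw]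

theorem adm_diff {U : Set ℂ} (hU : IsOpen U) {a : ℂ → ℝ} (ha : ContDiffOn ℝ 1 a U) {z : ℂ}
    (hz : z ∈ U) : DifferentiableAt ℝ a z :=
  (ha.contDiffAt (hU.mem_nhds hz)).differentiableAt one_ne_zero

end Transport

open Transport

theorem Conf.integral_eq {Ω : Set ℂ} {f φ : ℂ → ℂ} (hc : Conf Ω f φ) (ho : IsOpen Ω)
    (F : ℂ → ℝ) : ∫ x in Ω, F x = ∫ z in DD, ‖deriv f z‖ ^ 2 * F (f z) := by
  have _ := ho
  have h := integral_image_eq_integral_abs_det_fderiv_smul volume measurableSet_ball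
    (fun z hz => (hasF (diffAt hc hz)).hasFDerivWithinAt) (injOn hc) F
  simp only [det_hol, smul_eq_mul] at h
  rw [← h, image_eq hc]

theorem Conf.integrableOn_iff {Ω : Set ℂ} {f φ : ℂ → ℂ} (hc : Conf Ω f φ) (ho : IsOpen Ω)
    (F : ℂ → ℝ) :
    IntegrableOn F Ω ↔ IntegrableOn (fun z => ‖deriv f z‖ ^ 2 * F (f z)) DD := by
  have _ := ho
  have h := integrableOn_image_iff_integrableOn_abs_det_fderiv_smul volume measurableSet_ball
    (fun z hz => (hasF (diffAt hc hz)).hasFDerivWithinAt) (injOn hc) F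
  simp only [det_hol, smul_eq_mul] at h
  rw [← h, image_eq hc]

theorem Conf.wt {Ω : Set ℂ} {f φ : ℂ → ℂ} (hc : Conf Ω f φ) (ho : IsOpen Ω)
    (hb : Bornology.IsBounded Ω) : Wt fun z => ‖deriv f z‖ ^ 2 := by
  refine ⟨(contDiffOn_hol isOpen_ball (hc.hf.deriv isOpen_ball)).norm_sq ℝ,
    (measurable_deriv f).norm.pow_const 2,
    fun z hz => pow_pos (norm_pos_iff.mpr (deriv_ne hc ho hz)) 2, ?_⟩
  have := (hc.integrableOn_iff ho fun _ => 1).mp (integrableOn_const hb.measure_lt_top.ne)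
  simpa only [mul_one] using this

theorem Conf.adm_comp {Ω : Set ℂ} {f φ : ℂ → ℂ} (hc : Conf Ω f φ) (ho : IsOpen Ω) {u : ℂ → ℝ}
    (hu : Adm Ω u) : Adm DD (u ∘ f) := by
  obtain ⟨M, hM⟩ := hu.2.1
  refine ⟨hu.1.comp (contDiffOn_hol isOpen_ball hc.hf) hc.mapsf,
    ⟨M, fun z hz => hM _ (hc.mapsf hz)⟩, ?_⟩
  refine ((hc.integrableOn_iff ho _).mp hu.2.2).congr_fun (fun z hz => ?_) measurableSet_ball
  have := adm_diff ho hu.1 (hc.mapsf hz)
  exact (gdot_hol (diffAt hc hz) this this).symm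

theorem Conf.adm_inv {Ω : Set ℂ} {f φ : ℂ → ℂ} (hc : Conf Ω f φ) (ho : IsOpen Ω) {a : ℂ → ℝ}
    (ha : Adm DD a) : Adm Ω (a ∘ φ) := by
  obtain ⟨M, hM⟩ := ha.2.1
  have h1 : ContDiffOn ℝ 1 (a ∘ φ) Ω := ha.1.comp (contDiffOn_hol ho hc.hφ) hc.mapsφ
  refine ⟨h1, ⟨M, fun z hz => hM _ (hc.mapsφ hz)⟩, (hc.integrableOn_iff ho _).mpr ?_⟩
  refine ha.2.2.congr_fun (fun z hz => ?_) measurableSet_ball
  have := adm_diff ho h1 (hc.mapsf hz)
  exact (gdot_congr (comp_ev hc a hz) (comp_ev hc a hz)).symm.trans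
    (gdot_hol (diffAt hc hz) this this)

theorem Conf.integral_gdot {Ω : Set ℂ} {f φ : ℂ → ℂ} (hc : Conf Ω f φ) (ho : IsOpen Ω)
    {a b : ℂ → ℝ} (ha : ContDiffOn ℝ 1 a Ω) (hb : ContDiffOn ℝ 1 b Ω) :
    ∫ x in Ω, gdot a b x = ∫ z in DD, gdot (a ∘ f) (b ∘ f) z := by
  rw [hc.integral_eq ho]
  exact setIntegral_congr_fun measurableSet_ball fun z hz =>
    (gdot_hol (diffAt hc hz) (adm_diff ho ha (hc.mapsf hz)) (adm_diff ho hb (hc.mapsf hz))).symm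

theorem Conf.np {Ω : Set ℂ} {f φ : ℂ → ℂ} (hc : Conf Ω f φ) (ho : IsOpen Ω) {μ : ℝ}
    (h : ∀ a, Adm Ω a → μ * ((∫ x in Ω, a x ^ 2) - (∫ x in Ω, a x) ^ 2 / ∫ _ in Ω, (1 : ℝ)) ≤
      ∫ x in Ω, gdot a a x) : NP (fun z => ‖deriv f z‖ ^ 2) μ := by
  intro a ha
  have ha' := hc.adm_inv ho ha
  have h1 := h _ ha'
  rw [hc.integral_gdot ho ha'.1 ha'.1, hc.integral_eq ho, hc.integral_eq ho,
    hc.integral_eq ho] at h1
  have e1 : ∫ z in DD, ‖deriv f z‖ ^ 2 * (a ∘ φ) (f z) ^ 2 = ∫ z in DD, ‖deriv f z‖ ^ 2 * a z ^ 2 :=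
    setIntegral_congr_fun measurableSet_ball fun z hz => by
      simp only [Function.comp_apply, hc.left z hz]
  have e2 : ∫ z in DD, ‖deriv f z‖ ^ 2 * (a ∘ φ) (f z) = ∫ z in DD, ‖deriv f z‖ ^ 2 * a z :=
    setIntegral_congr_fun measurableSet_ball fun z hz => by
      simp only [Function.comp_apply, hc.left z hz]
  have e3 : ∫ z in DD, gdot ((a ∘ φ) ∘ f) ((a ∘ φ) ∘ f) z = ∫ z in DD, gdot a a z :=
    setIntegral_congr_fun measurableSet_ball fun z hz =>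
      gdot_congr (comp_ev hc a hz) (comp_ev hc a hz)
  rw [e1, e2, e3] at h1
  simpa only [mul_one] using h1

theorem Conf.we {Ω : Set ℂ} {f φ : ℂ → ℂ} (hc : Conf Ω f φ) (ho : IsOpen Ω) {μ : ℝ} {u : ℂ → ℝ}
    (hu : Adm Ω u) (h : ∀ a, Adm Ω a → ∫ x in Ω, gdot u a x = μ * ∫ x in Ω, u x * a x) :
    Adm DD (u ∘ f) ∧ ∀ a, Adm DD a → ∫ z in DD, gdot (u ∘ f) a z =
      μ * ∫ z in DD, ‖deriv f z‖ ^ 2 * (u ∘ f) z * a z := by
  refine ⟨hc.adm_comp ho hu, fun a ha => ?_⟩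
  have ha' := hc.adm_inv ho ha
  have h1 := h _ ha'
  rw [hc.integral_gdot ho hu.1 ha'.1, hc.integral_eq ho] at h1
  have e1 : ∫ z in DD, ‖deriv f z‖ ^ 2 * (u (f z) * (a ∘ φ) (f z)) =
      ∫ z in DD, ‖deriv f z‖ ^ 2 * (u ∘ f) z * a z :=
    setIntegral_congr_fun measurableSet_ball fun z hz => by
      simp only [Function.comp_apply, hc.left z hz, mul_assoc]
  have e3 : ∫ z in DD, gdot (u ∘ f) ((a ∘ φ) ∘ f) z = ∫ z in DD, gdot (u ∘ f) a z :=
    setIntegral_congr_fun measurableSet_ball fun z hz =>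
      gdot_congr EventuallyEq.rfl (comp_ev hc a hz)
  rwa [e1, e3] at h1

theorem Conf.cr {Ω : Set ℂ} {f φ : ℂ → ℂ} (hc : Conf Ω f φ) :
    ContDiffOn ℝ oo (fun z => (deriv f z).re) DD ∧ ContDiffOn ℝ oo (fun z => (deriv f z).im) DD ∧
      ∀ z ∈ DD, d1 (fun z => (deriv f z).re) z = d2 (fun z => (deriv f z).im) z ∧
        d2 (fun z => (deriv f z).re) z = -d1 (fun z => (deriv f z).im) z := by
  have hd := hc.hf.deriv isOpen_ball
  have h1 : ContDiffOn ℝ oo (deriv f) DD := contDiffOn_hol isOpen_ball hd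
  refine ⟨Complex.reCLM.contDiff.comp_contDiffOn h1, Complex.imCLM.contDiff.comp_contDiffOn h1,
    fun z hz => ?_⟩
  have h2 := hd.differentiableAt (isOpen_ball.mem_nhds hz)
  have hre : DifferentiableAt ℝ (fun x : ℂ => x.re) (deriv f z) := Complex.reCLM.differentiableAt
  have him : DifferentiableAt ℝ (fun x : ℂ => x.im) (deriv f z) := Complex.imCLM.differentiableAt
  have e1 := d1_hol h2 hre
  have e2 := d1_hol h2 him
  have e3 := d2_hol h2 hre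
  have e4 := d2_hol h2 him
  simp only [d1_eq, d2_eq, dd_re, dd_im, Function.comp_def, Complex.one_re, Complex.one_im,
    Complex.I_re, Complex.I_im] at e1 e2 e3 e4
  simp only [d1_eq, d2_eq, e1, e2, e3, e4]
  constructor <;> ring

theorem Conf.lap_comp {Ω : Set ℂ} {f φ : ℂ → ℂ} (hc : Conf Ω f φ) (ho : IsOpen Ω) {a : ℂ → ℝ}
    (ha : ContDiffOn ℝ oo a Ω) : ContDiffOn ℝ oo (a ∘ f) DD ∧
      ∀ z ∈ DD, lap (a ∘ f) z = ‖deriv f z‖ ^ 2 * lap a (f z) ∧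
        d1 (a ∘ f) z = d1 a (f z) * (deriv f z).re + d2 a (f z) * (deriv f z).im ∧
        d2 (a ∘ f) z = d2 a (f z) * (deriv f z).re - d1 a (f z) * (deriv f z).im := by
  have hf : ContDiffOn ℝ oo f DD := contDiffOn_hol isOpen_ball hc.hf
  have hdf : ∀ {b : ℂ → ℝ}, ContDiffOn ℝ oo b Ω → ∀ z ∈ DD, DifferentiableAt ℝ b (f z) :=
    fun hb z hz => adm_diff ho (hb.of_le one_le_oo) (hc.mapsf hz)
  refine ⟨ha.comp hf hc.mapsf, fun z hz => ⟨?_, d1_hol (diffAt hc hz) (hdf ha z hz),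
    d2_hol (diffAt hc hz) (hdf ha z hz)⟩⟩
  obtain ⟨c1, c2, c3⟩ := hc.cr
  obtain ⟨c4, c5⟩ := c3 z hz
  have ha1 : ContDiffOn ℝ oo (d1 a) Ω := contDiffOn_dd ho ha oo_add_one
  have ha2 : ContDiffOn ℝ oo (d2 a) Ω := contDiffOn_dd ho ha oo_add_one
  have k1 := adm_diff isOpen_ball ((ha1.comp hf hc.mapsf).of_le one_le_oo) hz
  have k2 := adm_diff isOpen_ball ((ha2.comp hf hc.mapsf).of_le one_le_oo) hz
  have k3 := adm_diff isOpen_ball (c1.of_le one_le_oo) hz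
  have k4 := adm_diff isOpen_ball (c2.of_le one_le_oo) hz
  have e1 : d1 (a ∘ f) =ᶠ[𝓝 z]
      fun z => (d1 a ∘ f) z * (deriv f z).re + (d2 a ∘ f) z * (deriv f z).im := by
    filter_upwards [isOpen_ball.mem_nhds hz] with w hw using d1_hol (diffAt hc hw) (hdf ha w hw)
  have e2 : d2 (a ∘ f) =ᶠ[𝓝 z]
      fun z => (d2 a ∘ f) z * (deriv f z).re - (d1 a ∘ f) z * (deriv f z).im := by
    filter_upwards [isOpen_ball.mem_nhds hz] with w hw using d2_hol (diffAt hc hw) (hdf ha w hw)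
  have e3 : d1 (d1 (a ∘ f)) z = _ := (dd_congr e1).trans (dd_add (k1.mul k3) (k2.mul k4))
  have e4 : d2 (d2 (a ∘ f)) z = _ := (dd_congr e2).trans (dd_sub (k2.mul k3) (k1.mul k4))
  rw [dd_mul k1 k3, dd_mul k2 k4, ← d1_eq, d1_hol (diffAt hc hz) (hdf ha1 z hz),
    d1_hol (diffAt hc hz) (hdf ha2 z hz)] at e3
  rw [dd_mul k2 k3, dd_mul k1 k4, ← d2_eq, d2_hol (diffAt hc hz) (hdf ha1 z hz),
    d2_hol (diffAt hc hz) (hdf ha2 z hz)] at e4
  rw [lap, lap, e3, e4, c4, c5, Complex.sq_norm, Complex.normSq_apply]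
  ring

end Vale.Agent.P071
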